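import Crest.Agent.R30.Count

/-! Row 30: annealed bound for closed walks of triangles. -/

set_option autoImplicit false

namespace Crest.Agent.R30

open Finset Crest.CombinatoricsR.TriangleRemoval
open scoped BigOperators

namespace Ann

variable {n : ℕ}

lemma Psi_nonneg {s : ℝ} (hs : 0 ≤ s) (E : ES n) (T : Finset (Fin n)) (j : ℕ) :
    ∀ (d : Nd n) (F : ES n), 0 ≤ Psi s E T j d F := by
  induction j with
  | zero => intro d F; rw [Psi]; split_ifs <;> positivity
  | succ j ih =>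
    intro d F
    rw [Psi]
    exact Finset.sum_nonneg fun z _ => add_nonneg (ih _ _) (ih _ _)

lemma survive {E F : ES n} {δ : ℝ} (h : Reg δ E) (hδ : δ ≤ 1 / 3) (hδ0 : 0 ≤ δ) (hD : 0 < DD E)
    (hF : F ⊆ E) (hk : (F.card : ℝ) ≤ δ * DD E) :
    𝔼 T ∈ triangles E, (if F ⊆ E \ T.sym2 then (1 : ℝ) else 0) ≤
      (1 - 3 / E.card * (1 - 3 * δ)) ^ F.card := by
  have hne := triangles_nonempty h (by linarith) hD
  obtain ⟨T₀, hT₀⟩ := hne
  have h3 : (3 : ℝ) ≤ E.card := by
    have := card_sdiff_tri h.simple hT₀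
    exact_mod_cast (by omega : 3 ≤ E.card)
  have ht : (0 : ℝ) < (triangles E).card := by exact_mod_cast Finset.card_pos.2 ⟨T₀, hT₀⟩
  have h1 : (F.card : ℝ) * (DD E * (1 - δ)) ≤ ∑ e ∈ F, (tdeg E e : ℝ) := by
    rw [← nsmul_eq_mul]
    refine Finset.card_nsmul_le_sum _ _ _ fun e he => ?_
    induction e using Sym2.ind with
    | _ x y =>
      have h2 := (abs_le.1 (h.codeg x y (hF he))).1
      rw [tdeg_eq h.simple (hF he)]
      rw [eta, le_sub_iff_add_le, le_div_iff₀ hD] at h2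
      linarith
  have h4 : ∑ e ∈ F, (tdeg E e : ℝ) ≤ hit E F + (F.card : ℝ) ^ 2 := by
    exact_mod_cast le_hit h.simple hF
  have h5 := card_triangles h.simple hD
  have h6 := (abs_le.1 (abs_etabar_le h hD)).2
  have h7 : ((((triangles E).filter fun T => F ⊆ E \ T.sym2).card : ℕ) : ℝ) + hit E F =
      (triangles E).card := by
    exact_mod_cast Finset.card_filter_add_card_filter_not (s := triangles E)
      (fun T => F ⊆ E \ T.sym2)
  have hρ : 3 / (E.card : ℝ) * (1 - 3 * δ) ≤ 1 :=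
    mul_le_one₀ ((div_le_one (by linarith)).2 h3) (by linarith) (by linarith)
  have h8 := one_add_mul_le_pow (a := -(3 / (E.card : ℝ) * (1 - 3 * δ))) (by linarith) F.card
  rw [← sub_eq_add_neg] at h8
  refine le_trans ?_ h8
  rw [Finset.expect_eq_sum_div_card, Finset.sum_boole, div_le_iff₀ ht]
  have h9 : 3 / (E.card : ℝ) * (triangles E).card ≤ DD E * (1 + δ) := by
    rw [div_mul_eq_mul_div, div_le_iff₀ (by linarith), h5]
    have : (E.card : ℝ) * DD E * (1 + etabar E) ≤ E.card * DD E * (1 + δ) := by gcongr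
    linarith
  have h10 : (F.card : ℝ) * (1 - 3 * δ) * (3 / (E.card : ℝ) * (triangles E).card) ≤
      (F.card : ℝ) * (1 - 3 * δ) * (DD E * (1 + δ)) :=
    mul_le_mul_of_nonneg_left h9 (mul_nonneg (by positivity) (by linarith))
  have h11 : (F.card : ℝ) * F.card ≤ F.card * (δ * DD E) :=
    mul_le_mul_of_nonneg_left hk (by positivity)
  have h12 : 0 ≤ (F.card : ℝ) * DD E * δ ^ 2 := by positivity
  nlinarith

lemma card_union_le_two (F : ES n) (a b : Sym2 (Fin n)) : (F ∪ {a, b}).card ≤ F.card + 2 :=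
  (Finset.card_union_le _ _).trans (Nat.add_le_add_left Finset.card_le_two _)

lemma Psi_step {E : ES n} {δ s s' : ℝ} (h : Reg δ E) (hδ : δ ≤ 1 / 3) (hδ0 : 0 ≤ δ)
    (hD : 0 < DD E) (hs' : 0 ≤ s') (hs : s' * (1 - 3 / E.card * (1 - 3 * δ)) ≤ s)
    (T₀ : Finset (Fin n)) (j : ℕ) : ∀ (d : Nd n) (F : ES n), (F.card + 2 * j : ℝ) ≤ δ * DD E →
      𝔼 T ∈ triangles E, Psi s' (E \ T.sym2) T₀ j d F ≤ Psi s E T₀ j d F := by
  induction j with
  | zero =>
    intro d F hk
    simp only [Psi]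
    by_cases h1 : key d = T₀ ∧ F ⊆ E
    · have h2 := survive h hδ hδ0 hD h1.2 (by simpa using hk)
      have h3 : ∀ T : Finset (Fin n), (if key d = T₀ ∧ F ⊆ E \ T.sym2 then s' ^ F.card else 0) =
          s' ^ F.card * if F ⊆ E \ T.sym2 then (1 : ℝ) else 0 := by
        intro T; simp [h1.1]
      obtain ⟨T₁, hT₁⟩ := triangles_nonempty h (by linarith) hD
      have h4 : (3 : ℝ) ≤ E.card := by
        have := card_sdiff_tri h.simple hT₁
        exact_mod_cast (by omega : 3 ≤ E.card)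
      have hρ : 3 / (E.card : ℝ) * (1 - 3 * δ) ≤ 1 :=
        mul_le_one₀ ((div_le_one (by linarith)).2 h4) (by linarith) (by linarith)
      simp only [h3, if_pos h1]
      rw [← Finset.mul_expect]
      refine (mul_le_mul_of_nonneg_left h2 (by positivity)).trans ?_
      rw [← mul_pow]
      exact pow_le_pow_left₀ (mul_nonneg hs' (by linarith)) hs _
    · rw [if_neg h1]
      refine le_of_eq (Finset.expect_eq_zero fun T _ => if_neg fun h2 => h1 ⟨h2.1, ?_⟩)
      exact h2.2.trans Finset.sdiff_subset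
  | succ j ih =>
    intro d F hk
    simp only [Psi]
    rw [Finset.expect_sum_comm]
    refine Finset.sum_le_sum fun z _ => ?_
    have h1 : ((F ∪ {s(d.1, z), s(d.2.2, z)}).card + 2 * j : ℝ) ≤ δ * DD E := by
      have : ((F ∪ {s(d.1, z), s(d.2.2, z)}).card : ℝ) ≤ F.card + 2 := by
        exact_mod_cast card_union_le_two F _ _
      push_cast at hk
      linarith
    rw [Finset.expect_add_distrib]
    exact add_le_add (ih _ _ h1) (ih _ _ h1)

lemma Dmat_nonneg (E : ES n) (d d' : Nd n) : 0 ≤ Dmat E d d' := by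
  unfold Dmat; split_ifs <;> norm_num

lemma walk_le {E : ES n} (h : Simple E) (T₀ : Finset (Fin n)) (j : ℕ) :
    ∀ (d : Nd n) (F : ES n), F ⊆ E →
      ∑ d', (Dmat E ^ j) d d' * (if T₀ = key d' then 1 else 0) ≤ Psi 1 E T₀ j d F := by
  induction j with
  | zero =>
    intro d F hF
    simp only [Psi, pow_zero, Matrix.one_apply, ite_mul, one_mul, zero_mul, Finset.sum_ite_eq,
      Finset.mem_univ, if_true, one_pow]
    simp [hF, eq_comm]
  | succ j ih =>
    intro d F hF
    obtain ⟨x, y, w⟩ := d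
    simp only [pow_succ', Matrix.mul_apply, Finset.sum_mul, mul_assoc]
    rw [Finset.sum_comm]
    simp only [← Finset.mul_sum]
    have h1 : ∀ d'' : Nd n, Dmat E (x, y, w) d'' *
        ∑ d', (Dmat E ^ j) d'' d' * (if T₀ = key d' then 1 else 0) ≤
        (if d''.1 = x then if d''.2.1 = w then (if d''.2.2 ∈ univ \ key (x, y, w) then
          Psi 1 E T₀ j (x, w, d''.2.2) (F ∪ {s(x, d''.2.2), s(w, d''.2.2)}) else 0) else 0 else 0) +
        (if d''.1 = w then if d''.2.1 = x then (if d''.2.2 ∈ univ \ key (x, y, w) then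
          Psi 1 E T₀ j (w, x, d''.2.2) (F ∪ {s(x, d''.2.2), s(w, d''.2.2)}) else 0) else 0
          else 0) := by
      rintro ⟨a, b, z⟩
      have p1 := Psi_nonneg zero_le_one E T₀ j (x, w, z) (F ∪ {s(x, z), s(w, z)})
      have p2 := Psi_nonneg zero_le_one E T₀ j (w, x, z) (F ∪ {s(x, z), s(w, z)})
      unfold Dmat
      by_cases hc : valid E (x, y, w) ∧ valid E (a, b, z) ∧ z ≠ y ∧
          ((a = x ∧ b = w) ∨ (a = w ∧ b = x))
      · rw [if_pos hc, one_mul]
        obtain ⟨-, hv, hz, ⟨rfl, rfl⟩ | ⟨rfl, rfl⟩⟩ := hc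
        · have hm : z ∈ univ \ key (a, y, b) := by
            simp [key, hz, (h.ne hv.2.1).symm, (h.ne hv.2.2).symm]
          refine (ih _ (F ∪ {s(a, z), s(b, z)}) ?_).trans ?_
          · simp [Finset.insert_subset_iff, hF, hv.2.1, hv.2.2]
          · simp only [if_true, if_pos hm]
            split_ifs <;> linarith
        · have hm : z ∈ univ \ key (b, y, a) := by
            simp [key, hz, (h.ne hv.2.1).symm, (h.ne hv.2.2).symm]
          refine (ih _ (F ∪ {s(b, z), s(a, z)}) ?_).trans ?_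
          · simp [Finset.insert_subset_iff, hF, hv.2.1, hv.2.2]
          · simp only [if_true, if_pos hm]
            split_ifs <;> linarith
      · rw [if_neg hc, zero_mul]
        dsimp only
        split_ifs <;> linarith
    refine (Finset.sum_le_sum fun d'' _ => h1 d'').trans (le_of_eq ?_)
    simp only [Psi, Finset.sum_add_distrib, Fintype.sum_prod_type, Finset.sum_ite_irrel,
      Finset.sum_const_zero, Finset.sum_ite_eq', Finset.mem_univ, if_true, Finset.sum_ite_mem,
      Finset.univ_inter]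

lemma ends_union {S : Finset (Fin n)} {F : ES n} (hF : ∀ e ∈ F, ∀ v ∈ e, v ∈ S) {x w : Fin n}
    (hx : x ∈ S) (hw : w ∈ S) (z : Fin n) :
    ∀ e ∈ F ∪ {s(x, z), s(w, z)}, ∀ v ∈ e, v ∈ insert z S := by
  intro e he v hv
  simp only [Finset.mem_union, Finset.mem_insert, Finset.mem_singleton] at he
  rcases he with he | rfl | rfl
  · exact Finset.mem_insert_of_mem (hF e he v hv)
  · rcases Sym2.mem_iff.1 hv with rfl | rfl <;> simp [hx]
  · rcases Sym2.mem_iff.1 hv with rfl | rfl <;> simp [hw]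

lemma card_fresh {S : Finset (Fin n)} {F : ES n} (hF : ∀ e ∈ F, ∀ v ∈ e, v ∈ S) {x w z : Fin n}
    (hx : x ∈ S) (hxw : x ≠ w) (hz : z ∉ S) : (F ∪ {s(x, z), s(w, z)}).card = F.card + 2 := by
  have h1 : x ≠ z := fun e => hz (e ▸ hx)
  rw [Finset.card_union_of_disjoint, Finset.card_pair (by simp [hxw, h1])]
  rw [Finset.disjoint_right]
  intro e he he'
  apply hz
  refine hF e he' z ?_
  simp only [Finset.mem_insert, Finset.mem_singleton] at he
  rcases he with rfl | rfl <;> simp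

lemma sum_split {S A : Finset (Fin n)} {f : Fin n → ℝ} {a b : ℝ} (ha : 0 ≤ a) (hb : 0 ≤ b)
    (h1 : ∀ z ∈ A, z ∈ S → f z ≤ a) (h2 : ∀ z ∈ A, z ∉ S → f z ≤ b) :
    ∑ z ∈ A, f z ≤ S.card * a + n * b := by
  have h3 : ∀ z ∈ A, f z ≤ (if z ∈ S then a else 0) + b := by
    intro z hz
    split_ifs with h
    · linarith [h1 z hz h]
    · linarith [h2 z hz h]
  refine (Finset.sum_le_sum h3).trans ((Finset.sum_le_sum_of_subset_of_nonneg
    (Finset.subset_univ A) fun z _ _ => by split_ifs <;> linarith).trans (le_of_eq ?_))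
  simp [Finset.sum_add_distrib]

lemma general {E : ES n} {s D : ℝ} {l : ℕ} (hs : 0 ≤ s) (hs1 : s ≤ 1)
    (hD : n * s ^ 2 ≤ 9 / 2 * D) (hl : (l + 3 : ℝ) ≤ D / 2) (T₀ : Finset (Fin n)) (j : ℕ) :
    ∀ (d : Nd n) (F : ES n) (S : Finset (Fin n)), d.1 ∈ S → d.2.2 ∈ S → d.1 ≠ d.2.2 →
      (∀ e ∈ F, ∀ v ∈ e, v ∈ S) → S.card + j ≤ l + 3 →
      Psi s E T₀ j d F ≤ s ^ F.card * (10 * D) ^ j := by
  have hD0 : 0 ≤ D := by linarith [show (0 : ℝ) ≤ l by positivity]
  induction j with
  | zero =>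
    intro d F S _ _ _ _ _
    rw [Psi]
    split_ifs
    · simp
    · positivity
  | succ j ih =>
    rintro ⟨x, y, w⟩ F S hx hw hxw hF hS
    rw [Psi]
    have h1 : ∀ z ∈ univ \ key (x, y, w),
        Psi s E T₀ j (x, w, z) (F ∪ {s(x, z), s(w, z)}) +
          Psi s E T₀ j (w, x, z) (F ∪ {s(x, z), s(w, z)}) ≤
        2 * (s ^ (F ∪ {s(x, z), s(w, z)}).card * (10 * D) ^ j) := by
      intro z hz
      simp only [key, Finset.mem_sdiff, Finset.mem_univ, Finset.mem_insert, Finset.mem_singleton,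
        true_and, not_or] at hz
      have hc := Finset.card_insert_le z S
      have a1 := ih (x, w, z) _ (insert z S) (Finset.mem_insert_of_mem hx)
        (Finset.mem_insert_self _ _) (Ne.symm hz.1) (ends_union hF hx hw z) (by omega)
      have a2 := ih (w, x, z) _ (insert z S) (Finset.mem_insert_of_mem hw)
        (Finset.mem_insert_self _ _) (Ne.symm hz.2.2) (ends_union hF hx hw z) (by omega)
      linarith
    refine (sum_split (S := S) (a := 2 * (s ^ F.card * (10 * D) ^ j))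
      (b := 2 * (s ^ (F.card + 2) * (10 * D) ^ j)) (by positivity) (by positivity)
      (fun z hz _ => (h1 z hz).trans ?_) (fun z hz hzS => (h1 z hz).trans ?_)).trans ?_
    · have := pow_le_pow_of_le_one hs hs1
        (Finset.card_le_card (Finset.subset_union_left (s₁ := F) (s₂ := {s(x, z), s(w, z)})))
      gcongr
    · rw [card_fresh hF hx hxw hzS]
    · have a1 : (S.card : ℝ) ≤ l + 3 := by exact_mod_cast (by omega : S.card ≤ l + 3)
      have a2 : 0 ≤ s ^ F.card * (10 * D) ^ j := by positivity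
      have a3 := mul_le_mul_of_nonneg_right (show 2 * (S.card : ℝ) + 2 * (n * s ^ 2) ≤ 10 * D by
        linarith) a2
      rw [pow_succ (10 * D), pow_add]
      linarith

lemma fresh {E : ES n} {s D : ℝ} {l : ℕ} (hs : 0 ≤ s) (hs1 : s ≤ 1)
    (hD : n * s ^ 2 ≤ 9 / 2 * D) (hl : (l + 3 : ℝ) ≤ D / 2) (T₀ : Finset (Fin n)) (j : ℕ) :
    ∀ (d : Nd n) (F : ES n) (S : Finset (Fin n)), d.1 ∈ S → d.2.2 ∈ S → d.1 ≠ d.2.2 →
      (∀ e ∈ F, ∀ v ∈ e, v ∈ S) → S.card + j ≤ l + 3 → T₀ ⊆ S →
      (∀ v, s(d.2.2, v) ∈ F → v = d.1 ∨ v = d.2.1) → (d.2.2 ∉ T₀ ∨ 1 ≤ j) →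
      Psi s E T₀ j d F ≤ s ^ F.card * (j * (2 * (l + 3)) * s * (10 * D) ^ (j - 1)) := by
  have hD0 : 0 ≤ D := by linarith [show (0 : ℝ) ≤ l by positivity]
  induction j with
  | zero =>
    intro d F S _ _ _ _ _ _ _ h
    rw [Psi, if_neg]
    · simp
    · rintro ⟨rfl, -⟩
      simp [key] at h
  | succ j ih =>
    rintro ⟨x, y, w⟩ F S hx hw hxw hF hS hT hfr -
    rw [Psi]
    refine (sum_split (S := S) (a := 2 * (s ^ (F.card + 1) * (10 * D) ^ j))
      (b := 2 * (s ^ (F.card + 2) * (j * (2 * (l + 3)) * s * (10 * D) ^ (j - 1))))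
      (by positivity) (by positivity) (fun z hz _ => ?_) (fun z hz hzS => ?_)).trans ?_
    · simp only [key, Finset.mem_sdiff, Finset.mem_univ, Finset.mem_insert, Finset.mem_singleton,
        true_and, not_or] at hz
      have hc := Finset.card_insert_le z S
      have a1 := general (E := E) hs hs1 hD hl T₀ j (x, w, z) _ (insert z S)
        (Finset.mem_insert_of_mem hx) (Finset.mem_insert_self _ _) (Ne.symm hz.1)
        (ends_union hF hx hw z) (by omega)
      have a2 := general (E := E) hs hs1 hD hl T₀ j (w, x, z) _ (insert z S)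
        (Finset.mem_insert_of_mem hw) (Finset.mem_insert_self _ _) (Ne.symm hz.2.2)
        (ends_union hF hx hw z) (by omega)
      have a3 : F.card + 1 ≤ (F ∪ {s(x, z), s(w, z)}).card := by
        refine Finset.card_lt_card ((Finset.ssubset_iff_of_subset Finset.subset_union_left).2
          ⟨s(w, z), by simp, fun h => ?_⟩)
        rcases hfr z h with h | h
        · exact hz.1 h
        · exact hz.2.1 h
      have a4 := mul_le_mul_of_nonneg_right (pow_le_pow_of_le_one hs hs1 a3)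
        (show 0 ≤ (10 * D) ^ j by positivity)
      linarith
    · simp only [key, Finset.mem_sdiff, Finset.mem_univ, Finset.mem_insert, Finset.mem_singleton,
        true_and, not_or] at hz
      have hc := Finset.card_insert_le z S
      have hfr' : ∀ v, s(z, v) ∈ F ∪ {s(x, z), s(w, z)} → v = x ∨ v = w := by
        intro v hv
        simp only [Finset.mem_union, Finset.mem_insert, Finset.mem_singleton, Sym2.eq_iff] at hv
        rcases hv with hv | hv
        · exact absurd (hF _ hv z (by simp)) hzS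
        · tauto
      have a1 := ih (x, w, z) _ (insert z S) (Finset.mem_insert_of_mem hx)
        (Finset.mem_insert_self _ _) (Ne.symm hz.1) (ends_union hF hx hw z) (by omega)
        (hT.trans (Finset.subset_insert _ _)) hfr' (Or.inl fun h => hzS (hT h))
      have a2 := ih (w, x, z) _ (insert z S) (Finset.mem_insert_of_mem hw)
        (Finset.mem_insert_self _ _) (Ne.symm hz.2.2) (ends_union hF hx hw z) (by omega)
        (hT.trans (Finset.subset_insert _ _)) (fun v hv => (hfr' v hv).symm)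
        (Or.inl fun h => hzS (hT h))
      rw [card_fresh hF hx hxw hzS] at a1 a2
      linarith
    · have a1 : (S.card : ℝ) ≤ l + 3 := by exact_mod_cast (by omega : S.card ≤ l + 3)
      have a2 : (j : ℝ) * (10 * D) ^ (j - 1) * (2 * (n * s ^ 2)) ≤ j * (10 * D) ^ j := by
        rcases j with _ | j
        · simp
        · rw [Nat.add_sub_cancel, pow_succ (10 * D), mul_assoc]
          exact mul_le_mul_of_nonneg_left (mul_le_mul_of_nonneg_left (by linarith)
            (by positivity)) (by positivity)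
      have a3 := mul_le_mul_of_nonneg_left a2
        (show 0 ≤ s ^ F.card * (2 * ((l : ℝ) + 3)) * s by positivity)
      have a4 := mul_le_mul_of_nonneg_right a1
        (show 0 ≤ 2 * (s ^ (F.card + 1) * (10 * D) ^ j) by positivity)
      rw [Nat.add_sub_cancel]
      push_cast
      rw [pow_add, pow_add] at *
      linarith

lemma distinct {d : Nd n} (h : (key d).card = 3) : d.1 ≠ d.2.1 ∧ d.1 ≠ d.2.2 ∧ d.2.1 ≠ d.2.2 := by
  obtain ⟨x, y, w⟩ := d
  refine ⟨?_, ?_, ?_⟩ <;> intro e <;> dsimp only at e <;> subst e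
  · have : key (x, x, w) = {x, w} := by simp [key]
    rw [this] at h
    have := Finset.card_le_two (a := x) (b := w)
    omega
  · have : key (x, y, x) = {x, y} := by ext; simp [key]; tauto
    rw [this] at h
    have := Finset.card_le_two (a := x) (b := y)
    omega
  · have : key (x, y, y) = {x, y} := by simp [key]
    rw [this] at h
    have := Finset.card_le_two (a := x) (b := y)
    omega

end Ann

theorem ClS_step {n : ℕ} (E : ES n) (δ s s' : ℝ) (l : ℕ) (h : Reg δ E) (hδ : δ ≤ 1 / 3)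
    (hD : 0 < DD E) (hl : (3 + 2 * l : ℝ) ≤ δ * DD E) (hs' : 0 ≤ s')
    (hs : s' * (1 - 3 / E.card * (1 - 3 * δ)) ≤ s) :
    𝔼 T ∈ triangles E, ClS s' (E \ T.sym2) l ≤ ClS s E l := by
  have hδ0 : 0 ≤ δ := by
    by_contra h'
    have := mul_neg_of_neg_of_pos (not_le.1 h') hD
    linarith [show (0 : ℝ) ≤ l by positivity]
  simp only [ClS]
  rw [Finset.expect_sum_comm]
  refine Finset.sum_le_sum fun d _ => Ann.Psi_step h hδ hδ0 hD hs' hs _ _ _ _ ?_
  have : (({s(d.1, d.2.1), s(d.1, d.2.2), s(d.2.1, d.2.2)} : ES n).card : ℝ) ≤ 3 := by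
    exact_mod_cast Finset.card_le_three
  linarith

theorem Cl_le_ClS {n : ℕ} (E : ES n) (h : Simple E) (l : ℕ) (hl : 1 ≤ l) :
    Cl E l ≤ ClS 1 E l := by
  rw [Cl, ClS, Finset.sum_filter]
  refine Finset.sum_le_sum fun d _ => ?_
  by_cases hv : valid E d
  · rw [if_pos]
    · refine Ann.walk_le h _ _ _ _ ?_
      simp [Finset.insert_subset_iff, hv.1, hv.2.1, hv.2.2]
    · exact Finset.card_eq_three.2 ⟨_, _, _, h.ne hv.1, h.ne hv.2.1, h.ne hv.2.2, rfl⟩
  · obtain ⟨j, rfl⟩ : ∃ j, l = j + 1 := ⟨l - 1, by omega⟩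
    have h1 : ∀ d', Dmat E d d' = 0 := fun d' => if_neg fun h' => hv h'.1
    have h2 := Ann.Psi_nonneg zero_le_one E (key d) (j + 1) d
      {s(d.1, d.2.1), s(d.1, d.2.2), s(d.2.1, d.2.2)}
    simp only [pow_succ', Matrix.mul_apply, h1, zero_mul, Finset.sum_const_zero]
    split_ifs
    · exact h2
    · exact le_rfl

theorem ClS_nonneg {n : ℕ} (E : ES n) (s : ℝ) (hs : 0 ≤ s) (l : ℕ) : 0 ≤ ClS s E l :=
  Finset.sum_nonneg fun _ _ => Ann.Psi_nonneg hs _ _ _ _ _

theorem ClS_le {n : ℕ} (E : ES n) (s D : ℝ) (l : ℕ) (hl1 : 1 ≤ l) (hs : 0 ≤ s) (hs1 : s ≤ 1)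
    (hD : n * s ^ 2 ≤ 9 / 2 * D) (hl : (l + 3 : ℝ) ≤ D / 2) :
    ClS s E l ≤ 2 * l * (l + 3) * n ^ 3 * s ^ 4 * (10 * D) ^ (l - 1) := by
  have hD0 : 0 ≤ D := by linarith [show (0 : ℝ) ≤ l by positivity]
  have h1 : ∀ d ∈ univ.filter (fun d : Nd n => (key d).card = 3),
      Psi s E (key d) l d {s(d.1, d.2.1), s(d.1, d.2.2), s(d.2.1, d.2.2)} ≤
        s ^ 3 * (l * (2 * (l + 3)) * s * (10 * D) ^ (l - 1)) := by
    rintro ⟨x, y, w⟩ hd
    have hc := (Finset.mem_filter.1 hd).2
    obtain ⟨a1, a2, a3⟩ := Ann.distinct hc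
    dsimp only at a1 a2 a3
    have h2 := Ann.fresh (E := E) hs hs1 hD hl (key (x, y, w)) l (x, y, w)
      {s(x, y), s(x, w), s(y, w)} (key (x, y, w)) (by simp [key]) (by simp [key]) a2
      (by simp [key]) (by omega) subset_rfl (by simp; tauto) (Or.inr hl1)
    rwa [Finset.card_eq_three.2 ⟨_, _, _, by simp [a3, a2], by simp [a1, a2],
      by simp [a1, a2], rfl⟩] at h2
  refine (Finset.sum_le_card_nsmul _ _ _ h1).trans ?_
  have h3 : ((univ.filter fun d : Nd n => (key d).card = 3).card : ℝ) ≤ n ^ 3 := by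
    have := Finset.card_filter_le (univ : Finset (Nd n)) fun d => (key d).card = 3
    simp only [Finset.card_univ, Fintype.card_prod, Fintype.card_fin] at this
    exact_mod_cast this.trans (le_of_eq (by ring))
  rw [nsmul_eq_mul]
  refine (mul_le_mul_of_nonneg_right h3 (by positivity)).trans (le_of_eq (by ring))

end Crest.Agent.R30
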