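import Crest.Agent.R30.CollDart

/-! Collision bounds for the exploration, through closed walks of triangles. -/

set_option autoImplicit false

namespace Crest.Agent.R30

open Finset Crest.CombinatoricsR.TriangleRemoval Matrix
open scoped BigOperators

namespace CollAux

variable {n : ℕ}

/-- the growth factor -/
noncomputable def th (D : ℝ) (M u : ℕ) : ℝ := 1 + 2 * D * u / M

section Theta
variable {D : ℝ} {M : ℕ}

lemma vis_nonneg (hD : 1 ≤ D) (u : ℕ) : 0 ≤ vis D M u / M := by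
  unfold vis
  positivity

lemma one_le_th (hD : 1 ≤ D) (u : ℕ) : 1 ≤ th D M u := by
  unfold th
  have : 0 ≤ 2 * D * u / M := by positivity
  linarith

lemma th_zero : th D M 0 = 1 := by simp [th]

lemma th_le (hD : 1 ≤ D) (hM : D ≤ M) : th D M M ≤ 3 * D := by
  have hM0 : (0 : ℝ) < M := by linarith
  unfold th
  rw [mul_div_assoc, div_self hM0.ne']
  linarith

lemma th_succ (hD : 1 ≤ D) (hM : D ≤ M) (u : ℕ) :
    th D M (u + 1) = th D M u * (1 + 2 * D / 3 * (vis D M u / M)) := by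
  have hM0 : (0 : ℝ) < M := by linarith
  have h1 : (0 : ℝ) < M + 2 * D * u := by positivity
  unfold th vis
  push_cast
  field_simp
  ring

lemma th_step (hD : 1 ≤ D) (hM : D ≤ M) (j : ℕ) {c : ℝ} (hc : 3 * c ≤ 2 * j * D) (u : ℕ) :
    th D M u ^ j + c * (vis D M u / M) * th D M u ^ j ≤ th D M (u + 1) ^ j := by
  have ha := vis_nonneg (M := M) hD u
  have h0 : 0 ≤ 2 * D / 3 * (vis D M u / M) := by positivity
  have h1 := one_add_mul_le_pow (a := 2 * D / 3 * (vis D M u / M)) (by linarith) j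
  have h2 : 0 ≤ th D M u ^ j := pow_nonneg (by linarith [one_le_th (M := M) hD u]) j
  have h3 : c * (vis D M u / M) ≤ j * (2 * D / 3 * (vis D M u / M)) := by nlinarith
  rw [th_succ hD hM, mul_pow]
  nlinarith

lemma th_sum (hD : 1 ≤ D) (hM : D ≤ M) (j : ℕ) {c : ℝ} (hc : 3 * c ≤ 2 * j * D) (u : ℕ) :
    1 + c * ∑ s ∈ range u, vis D M s / M * th D M s ^ j ≤ th D M u ^ j := by
  induction u with
  | zero => simp [th_zero]
  | succ u ih =>
    have := th_step hD hM j hc u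
    rw [sum_range_succ]
    nlinarith

end Theta

/-- the linear recursion over the tree of children -/
noncomputable def rc (E : ES n) (D : ℝ) (M : ℕ) (b : Nd n → ℝ) : ℕ → Nd n → ℝ
  | 0, d => b d
  | u + 1, d => rc E D M b u d + ∑ e ∈ Ch E d, vis D M u / M * rc E D M b u e

section Rec
variable {E : ES n} {D : ℝ} {M : ℕ} {b : Nd n → ℝ}

lemma rc_eq (u : ℕ) (d : Nd n) :
    rc E D M b u d = b d + ∑ e ∈ Ch E d, ∑ s ∈ range u, vis D M s / M * rc E D M b s e := by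
  induction u with
  | zero => simp [rc]
  | succ u ih =>
    simp only [sum_range_succ, sum_add_distrib]
    rw [rc, ih, add_assoc]

lemma rc_nonneg (hD : 1 ≤ D) (hb : ∀ d, 0 ≤ b d) (u : ℕ) (d : Nd n) : 0 ≤ rc E D M b u d := by
  induction u generalizing d with
  | zero => exact hb d
  | succ u ih =>
    exact add_nonneg (ih d) (sum_nonneg fun e _ => mul_nonneg (vis_nonneg hD u) (ih e))

lemma rc_mono (hD : 1 ≤ D) (hb : ∀ d, 0 ≤ b d) (d : Nd n) :
    Monotone fun u => rc E D M b u d :=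
  monotone_nat_of_le_succ fun u => le_add_of_nonneg_right
    (sum_nonneg fun e _ => mul_nonneg (vis_nonneg hD u) (rc_nonneg hD hb u e))

lemma rc_sup (hD : 1 ≤ D) (hM : D ≤ M)
    (hc : ∀ x y, s(x, y) ∈ E → ((cod E x y).card : ℝ) ≤ 2 * D) {B : ℝ} (hB0 : 0 ≤ B)
    (hB : ∀ d, valid E d → b d ≤ B) (u : ℕ) {d : Nd n} (hd : valid E d) :
    rc E D M b u d ≤ th D M u ^ 30 * B := by
  induction u generalizing d with
  | zero => simpa [rc, th_zero] using hB d hd
  | succ u ih =>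
    have ha := vis_nonneg (M := M) hD u
    have ht : 0 ≤ th D M u ^ 30 := pow_nonneg (by linarith [one_le_th (M := M) hD u]) _
    have h1 : ∑ e ∈ Ch E d, vis D M u / M * rc E D M b u e ≤
        (Ch E d).card • (vis D M u / M * (th D M u ^ 30 * B)) :=
      sum_le_card_nsmul _ _ _ fun e he =>
        mul_le_mul_of_nonneg_left (ih (valid_of_mem_Ch hd he)) ha
    rw [nsmul_eq_mul] at h1
    have h2 := mul_le_mul_of_nonneg_right (card_Ch_le hc hd)
      (mul_nonneg ha (mul_nonneg ht hB0))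
    have h3 := mul_le_mul_of_nonneg_right
      (th_step hD hM 30 (c := 4 * D) (by push_cast; linarith) u) hB0
    have h4 := ih hd
    rw [rc]
    linarith

lemma rc_sum (hE : Simple E) (hD : 1 ≤ D) (hM : D ≤ M)
    (hc : ∀ x y, s(x, y) ∈ E → ((cod E x y).card : ℝ) ≤ 2 * D) (hb : ∀ d, 0 ≤ b d) (u : ℕ) :
    ∑ d ∈ Val E, rc E D M b u d ≤ th D M u ^ 12 * ∑ d ∈ Val E, b d := by
  induction u with
  | zero => simp [rc, th_zero]
  | succ u ih =>
    have ha := vis_nonneg (M := M) hD u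
    have h1 := sum_parents hE hc (h := fun e => vis D M u / M * rc E D M b u e)
      fun e => mul_nonneg ha (rc_nonneg hD hb u e)
    rw [← mul_sum] at h1
    have h2 := mul_le_mul_of_nonneg_left ih (mul_nonneg (by linarith : 0 ≤ 8 * D) ha)
    have h3 := mul_le_mul_of_nonneg_right
      (th_step hD hM 12 (c := 8 * D) (by push_cast; linarith) u)
      (sum_nonneg (s := Val E) fun d _ => hb d)
    simp only [rc, sum_add_distrib]
    linarith

end Rec

/-- expected number of queries of a key -/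
noncomputable def mbb (E : ES n) (D : ℝ) (M u : ℕ) (d : Nd n) (k : Finset (Fin n)) : ℝ :=
  rc E D M (fun d => ∑ e ∈ Ch E d, dl k e) u d

/-- weighted walks of length `1, …, L` ending at the key `k` -/
noncomputable def vv (E : ES n) (D : ℝ) (k : Finset (Fin n)) (L : ℕ) (d : Nd n) : ℝ :=
  ∑ j ∈ range L, (20 * D)⁻¹ ^ j * (Dmat E ^ (j + 1) *ᵥ dl k) d

/-- weighted walks of length `0, …, L` ending at the key `k` -/
noncomputable def ww (E : ES n) (D : ℝ) (k : Finset (Fin n)) (L : ℕ) (d : Nd n) : ℝ :=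
  ∑ j ∈ range (L + 1), (20 * D)⁻¹ ^ j * (Dmat E ^ j *ᵥ dl k) d

/-- the weighted number of closed walks -/
noncomputable def QQ (E : ES n) (D : ℝ) (L : ℕ) : ℝ :=
  ∑ l ∈ Icc 1 (2 * L + 2), (20 * D)⁻¹ ^ l * Cl E l

section Walk
variable {E : ES n} {D : ℝ} {M : ℕ}

lemma mulVec_sum' (A : Matrix (Nd n) (Nd n) ℝ) (s : Finset ℕ) (c : ℕ → ℝ) (f : ℕ → Nd n → ℝ)
    (d : Nd n) : (A *ᵥ fun e => ∑ j ∈ s, c j * f j e) d = ∑ j ∈ s, c j * (A *ᵥ f j) d := by
  simp only [mulVec_apply', mul_sum]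
  rw [sum_comm]
  exact sum_congr rfl fun j _ => sum_congr rfl fun e _ => by ring

lemma vv_nonneg (hD : 1 ≤ D) (k : Finset (Fin n)) (L : ℕ) (d : Nd n) : 0 ≤ vv E D k L d :=
  sum_nonneg fun _ _ => mul_nonneg (by positivity) (pow_mulVec_nonneg E (dl_nonneg k) _ d)

lemma ww_nonneg (hD : 1 ≤ D) (k : Finset (Fin n)) (L : ℕ) (d : Nd n) : 0 ≤ ww E D k L d :=
  sum_nonneg fun _ _ => mul_nonneg (by positivity) (pow_mulVec_nonneg E (dl_nonneg k) _ d)

lemma QQ_nonneg (hD : 1 ≤ D) (L : ℕ) : 0 ≤ QQ E D L :=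
  sum_nonneg fun _ _ => mul_nonneg (by positivity) (Cl_nonneg E _)

lemma vv_succ (k : Finset (Fin n)) (L : ℕ) (d : Nd n) :
    vv E D k (L + 1) d = (Dmat E *ᵥ dl k) d + (20 * D)⁻¹ * (Dmat E *ᵥ vv E D k L) d := by
  have h1 : (Dmat E *ᵥ vv E D k L) d =
      ∑ j ∈ range L, (20 * D)⁻¹ ^ j * (Dmat E *ᵥ (Dmat E ^ (j + 1) *ᵥ dl k)) d :=
    mulVec_sum' _ _ _ _ d
  rw [h1, vv, sum_range_succ', mul_sum, add_comm]
  congr 1
  · simp
  · refine sum_congr rfl fun j _ => ?_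
    rw [mulVec_mulVec, ← pow_succ', pow_succ]
    ring

lemma ww_eq (k : Finset (Fin n)) (L : ℕ) (d : Nd n) :
    ww E D k L d = dl k d + (20 * D)⁻¹ * vv E D k L d := by
  rw [ww, vv, sum_range_succ', mul_sum, add_comm]
  congr 1
  · simp
  · refine sum_congr rfl fun j _ => ?_
    rw [pow_succ]
    ring

lemma base_le (hE : Simple E) (k : Finset (Fin n)) {d : Nd n} (hd : valid E d) :
    ∑ e ∈ Ch E d, dl k e ≤ TT E k :=
  (sum_le_sum_of_subset_of_nonneg (fun _ he => mem_Val.2 (valid_of_mem_Ch hd he))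
    fun e _ _ => dl_nonneg k e).trans (sum_dl_le hE k)

lemma mbb_nonneg (hD : 1 ≤ D) (u : ℕ) (d : Nd n) (k : Finset (Fin n)) : 0 ≤ mbb E D M u d k :=
  rc_nonneg hD (fun _ => sum_nonneg fun e _ => dl_nonneg k e) u d

lemma mbb_sup (hE : Simple E) (hD : 1 ≤ D) (hM : D ≤ M)
    (hc : ∀ x y, s(x, y) ∈ E → ((cod E x y).card : ℝ) ≤ 2 * D) (u : ℕ) {d : Nd n}
    (hd : valid E d) (k : Finset (Fin n)) : mbb E D M u d k ≤ th D M u ^ 30 * TT E k :=
  rc_sup hD hM hc (TT_nonneg E k) (fun _ hd => base_le hE k hd) u hd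

lemma mbb_walk (hE : Simple E) (hD : 1 ≤ D) (hM : D ≤ M)
    (hc : ∀ x y, s(x, y) ∈ E → ((cod E x y).card : ℝ) ≤ 2 * D) (k : Finset (Fin n)) (L : ℕ)
    (u : ℕ) {d : Nd n} (hd : valid E d) :
    mbb E D M u d k ≤ th D M u ^ 30 * (vv E D k L d + vv E D k L (flp d) + TT E k / 2 ^ L) := by
  induction L generalizing u d with
  | zero => simpa [vv] using mbb_sup hE hD hM hc u hd k
  | succ L ih =>
    have hD0 : 0 < 20 * D := by linarith
    have hT : 0 ≤ TT E k / 2 ^ L := div_nonneg (TT_nonneg E k) (by positivity)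
    set S := ∑ s ∈ range u, vis D M s / M * th D M s ^ 30 with hS
    have hS1 : 1 + 20 * D * S ≤ th D M u ^ 30 :=
      th_sum hD hM 30 (c := 20 * D) (by push_cast; linarith) u
    have hS0 : 0 ≤ S := sum_nonneg fun s _ =>
      mul_nonneg (vis_nonneg hD s) (pow_nonneg (by linarith [one_le_th (M := M) hD s]) _)
    have h1 : ∑ e ∈ Ch E d, ∑ s ∈ range u, vis D M s / M * mbb E D M s e k ≤
        ∑ e ∈ Ch E d, S * (vv E D k L e + vv E D k L (flp e) + TT E k / 2 ^ L) := by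
      refine sum_le_sum fun e he => ?_
      rw [hS, sum_mul]
      refine sum_le_sum fun s _ => ?_
      rw [mul_assoc]
      exact mul_le_mul_of_nonneg_left (ih s (valid_of_mem_Ch hd he)) (vis_nonneg hD s)
    rw [← mul_sum, sum_add_distrib, sum_const, nsmul_eq_mul] at h1
    have h2 := sum_Ch_le hE (vv_nonneg (E := E) hD k L) hd
    have h3 := mul_le_mul_of_nonneg_right (card_Ch_le hc hd) hT
    have h4 : ∑ e ∈ Ch E d, dl k e ≤ (Dmat E *ᵥ dl k) d + (Dmat E *ᵥ dl k) (flp d) :=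
      le_trans (sum_le_sum fun e _ => le_add_of_nonneg_right (dl_nonneg k _))
        (sum_Ch_le hE (dl_nonneg k) hd)
    have h5 : mbb E D M u d k =
        ∑ e ∈ Ch E d, dl k e + ∑ e ∈ Ch E d, ∑ s ∈ range u, vis D M s / M * mbb E D M s e k :=
      rc_eq u d
    set A := (Dmat E *ᵥ dl k) d + (Dmat E *ᵥ dl k) (flp d) with hA
    set B := (Dmat E *ᵥ vv E D k L) d + (Dmat E *ᵥ vv E D k L) (flp d) with hB
    have hA0 : 0 ≤ A := add_nonneg (mulVec_nonneg E (dl_nonneg k) _) (mulVec_nonneg E (dl_nonneg k) _)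
    have hB0 : 0 ≤ B :=
      add_nonneg (mulVec_nonneg E (vv_nonneg hD k L) _) (mulVec_nonneg E (vv_nonneg hD k L) _)
    have h6 : vv E D k (L + 1) d + vv E D k (L + 1) (flp d) + TT E k / 2 ^ (L + 1) =
        A + (20 * D)⁻¹ * (B + 10 * D * (TT E k / 2 ^ L)) := by
      rw [vv_succ, vv_succ, hA, hB, pow_succ]
      field_simp
      ring
    have h7 : S ≤ th D M u ^ 30 * (20 * D)⁻¹ := by
      rw [← div_eq_mul_inv, le_div_iff₀ hD0]
      linarith
    have h8 : 0 ≤ D * (TT E k / 2 ^ L) := mul_nonneg (by linarith) hT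
    have h9 := mul_le_mul_of_nonneg_right h7
      (by linarith : 0 ≤ B + 10 * D * (TT E k / 2 ^ L))
    have h10 := mul_le_mul_of_nonneg_left
      (by linarith : ∑ e ∈ Ch E d, (vv E D k L e + vv E D k L (flp e)) +
        (Ch E d).card * (TT E k / 2 ^ L) ≤ B + 10 * D * (TT E k / 2 ^ L)) hS0
    have h11 : A ≤ th D M u ^ 30 * A := le_mul_of_one_le_left hA0 (by nlinarith)
    rw [h6, h5, mul_add, ← mul_assoc]
    linarith

lemma sum_ww (hD : 1 ≤ D) (L : ℕ) {i : ℕ} (hi1 : 1 ≤ i) (hi2 : i ≤ 2) :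
    ∑ k, ∑ d, ww E D k L d * (Dmat E ^ i *ᵥ ww E D k L) (rev d) ≤
      (20 * D) ^ 2 * ((L + 1) * QQ E D L) := by
  have hD0 : 0 < 20 * D := by linarith
  have h1 : ∀ k d, ww E D k L d * (Dmat E ^ i *ᵥ ww E D k L) (rev d) =
      ∑ j ∈ range (L + 1), ∑ l ∈ range (L + 1), (20 * D)⁻¹ ^ (j + l) *
        ((Dmat E ^ j *ᵥ dl k) d * (Dmat E ^ (i + l) *ᵥ dl k) (rev d)) := by
    intro k d
    have h2 : (Dmat E ^ i *ᵥ ww E D k L) (rev d) =
        ∑ l ∈ range (L + 1), (20 * D)⁻¹ ^ l * (Dmat E ^ i *ᵥ (Dmat E ^ l *ᵥ dl k)) (rev d) :=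
      mulVec_sum' _ _ _ _ _
    rw [h2, ww, sum_mul_sum]
    refine sum_congr rfl fun j _ => sum_congr rfl fun l _ => ?_
    rw [mulVec_mulVec, ← pow_add, pow_add (20 * D)⁻¹]
    ring
  have h3 : ∑ k, ∑ d, ww E D k L d * (Dmat E ^ i *ᵥ ww E D k L) (rev d) =
      ∑ j ∈ range (L + 1), ∑ l ∈ range (L + 1), (20 * D)⁻¹ ^ (j + l) * Cl E (j + (i + l)) := by
    simp only [h1, ← sum_pair_eq, mul_sum]
    simp only [sum_comm (s := (univ : Finset (Nd n))) (t := range (L + 1))]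
    simp only [sum_comm (s := (univ : Finset (Finset (Fin n)))) (t := range (L + 1))]
  rw [h3]
  have h4 : ∀ j ∈ range (L + 1), ∑ l ∈ range (L + 1), (20 * D)⁻¹ ^ (j + l) * Cl E (j + (i + l)) ≤
      (20 * D) ^ 2 * QQ E D L := by
    intro j hj
    have hj' := mem_range.1 hj
    have h5 : ∑ l ∈ range (L + 1), (20 * D)⁻¹ ^ (j + i + l) * Cl E (j + i + l) ≤ QQ E D L := by
      have := sum_Ico_eq_sum_range (fun l => (20 * D)⁻¹ ^ l * Cl E l) (j + i) (j + i + (L + 1))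
      rw [Nat.add_sub_cancel_left] at this
      rw [← this]
      refine sum_le_sum_of_subset_of_nonneg ?_ fun l _ _ =>
        mul_nonneg (by positivity) (Cl_nonneg E l)
      intro l hl
      rw [mem_Ico] at hl
      rw [mem_Icc]
      omega
    refine le_trans ?_ (mul_le_mul_of_nonneg_left h5 (by positivity))
    rw [mul_sum]
    refine sum_le_sum fun l _ => ?_
    rw [← add_assoc, ← mul_assoc]
    refine mul_le_mul_of_nonneg_right ?_ (Cl_nonneg E _)
    have h6 : (20 * D) ^ i ≤ (20 * D) ^ 2 := pow_le_pow_right₀ (by linarith) hi2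
    have h7 : (20 * D)⁻¹ ^ (j + l) = (20 * D) ^ i * (20 * D)⁻¹ ^ (j + i + l) := by
      rw [show j + i + l = i + (j + l) by ring, pow_add (20 * D)⁻¹ i, ← mul_assoc, ← mul_pow,
        mul_inv_cancel₀ hD0.ne', one_pow, one_mul]
    rw [h7]
    exact mul_le_mul_of_nonneg_right h6 (by positivity)
  refine (sum_le_card_nsmul _ _ _ h4).trans (le_of_eq ?_)
  rw [card_range, nsmul_eq_mul]
  push_cast
  ring

lemma sum_vv (hD : 1 ≤ D) (L : ℕ) : ∑ d, vv E D (key d) L d ≤ 20 * D * QQ E D L := by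
  have hD0 : 0 < 20 * D := by linarith
  have h1 : ∑ d, vv E D (key d) L d =
      20 * D * ∑ j ∈ range L, (20 * D)⁻¹ ^ (1 + j) * Cl E (1 + j) := by
    simp only [vv]
    rw [sum_comm, mul_sum]
    refine sum_congr rfl fun j _ => ?_
    rw [← mul_sum, add_comm 1 j, ← Cl_eq, pow_succ]
    field_simp
  rw [h1]
  refine mul_le_mul_of_nonneg_left ?_ hD0.le
  have := sum_Ico_eq_sum_range (fun l => (20 * D)⁻¹ ^ l * Cl E l) 1 (1 + L)
  rw [Nat.add_sub_cancel_left] at this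
  rw [← this]
  refine sum_le_sum_of_subset_of_nonneg ?_ fun l _ _ => mul_nonneg (by positivity) (Cl_nonneg E l)
  intro l hl
  rw [mem_Ico] at hl
  rw [mem_Icc]
  omega

end Walk

/-- the collision weight charged to one node -/
noncomputable def HH (E : ES n) (D : ℝ) (M L : ℕ) (d : Nd n) : ℝ :=
  mbb E D M M d (key d) +
    ((3 * D) ^ 30 * (20 * D)) ^ 2 * ∑ k, (ww E D k L d + ww E D k L (flp d)) *
      ((Dmat E *ᵥ ww E D k L) (rev d) + (Dmat E *ᵥ (Dmat E *ᵥ ww E D k L)) (rev d)) +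
    4 * D * (2 * (28 * (3 * D) ^ 30) * ((3 * D) ^ 30 * (27 * (n : ℝ) ^ 3) / 2 ^ L))

section Final
variable {E : ES n} {D : ℝ} {M : ℕ}

lemma th30_le (hD : 1 ≤ D) (hM : D ≤ M) (j : ℕ) : th D M M ^ j ≤ (3 * D) ^ j :=
  pow_le_pow_left₀ (by linarith [one_le_th (M := M) hD M]) (th_le hD hM) j

lemma HH_nonneg (hD : 1 ≤ D) (L : ℕ) (d : Nd n) : 0 ≤ HH E D M L d := by
  refine add_nonneg (add_nonneg (mbb_nonneg hD _ _ _) (mul_nonneg (sq_nonneg _) ?_))
    (by positivity)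
  exact sum_nonneg fun k _ => mul_nonneg (add_nonneg (ww_nonneg hD k L _) (ww_nonneg hD k L _))
    (add_nonneg (mulVec_nonneg E (ww_nonneg hD k L) _)
      (mulVec_nonneg E (mulVec_nonneg E (ww_nonneg hD k L)) _))

lemma mu_nonneg (hD : 1 ≤ D) (d : Nd n) (k : Finset (Fin n)) : 0 ≤ mu key (mbb E D M M) d k :=
  add_nonneg (dl_nonneg k d) (mbb_nonneg hD _ _ _)

lemma XX_nonneg (hD : 1 ≤ D) (C : Finset (Nd n)) : 0 ≤ XX key (mbb E D M M) C :=
  add_nonneg (sum_nonneg fun _ _ => mbb_nonneg hD _ _ _)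
    (sum_nonneg fun _ _ => sum_nonneg fun _ _ => sum_nonneg fun _ _ =>
      mul_nonneg (mu_nonneg hD _ _) (mu_nonneg hD _ _))

lemma mu_le_const (hE : Simple E) (hD : 1 ≤ D) (hM : D ≤ M)
    (hc : ∀ x y, s(x, y) ∈ E → ((cod E x y).card : ℝ) ≤ 2 * D) {d : Nd n} (hd : valid E d)
    (k : Finset (Fin n)) : mu key (mbb E D M M) d k ≤ 28 * (3 * D) ^ 30 := by
  have h1 := mbb_sup hE hD hM hc M hd k
  have h2 := mul_le_mul (th30_le hD hM 30) (TT_le E k) (TT_nonneg E k) (by positivity)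
  have h3 : (1 : ℝ) ≤ (3 * D) ^ 30 := one_le_pow₀ (by linarith)
  have h4 := dl_le_one k d
  change dl k d + _ ≤ _
  linarith

lemma mu_le_walk (hE : Simple E) (hD : 1 ≤ D) (hM : D ≤ M)
    (hc : ∀ x y, s(x, y) ∈ E → ((cod E x y).card : ℝ) ≤ 2 * D) (L : ℕ) {d : Nd n}
    (hd : valid E d) (k : Finset (Fin n)) :
    mu key (mbb E D M M) d k ≤ (3 * D) ^ 30 * (20 * D) * (ww E D k L d + ww E D k L (flp d)) +
      (3 * D) ^ 30 * TT E k / 2 ^ L := by
  have hD0 : 0 < 20 * D := by linarith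
  have h1 := mbb_walk hE hD hM hc k L M hd
  have h2 := mul_le_mul_of_nonneg_right (th30_le hD hM 30)
    (add_nonneg (add_nonneg (vv_nonneg (E := E) hD k L d) (vv_nonneg (E := E) hD k L (flp d)))
      (div_nonneg (TT_nonneg E k) (by positivity : (0 : ℝ) ≤ 2 ^ L)))
  have h3 : (1 : ℝ) ≤ (3 * D) ^ 30 := one_le_pow₀ (by linarith)
  have h4 : (3 * D) ^ 30 * (20 * D) * (ww E D k L d + ww E D k L (flp d)) +
      (3 * D) ^ 30 * TT E k / 2 ^ L = (3 * D) ^ 30 * (20 * D) * (dl k d + dl k (flp d)) +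
      (3 * D) ^ 30 * (vv E D k L d + vv E D k L (flp d) + TT E k / 2 ^ L) := by
    rw [ww_eq, ww_eq]
    field_simp
    ring
  have h5 : dl k d ≤ (3 * D) ^ 30 * (20 * D) * (dl k d + dl k (flp d)) := by
    have h6 : (1 : ℝ) ≤ (3 * D) ^ 30 * (20 * D) := one_le_mul_of_one_le_of_one_le h3 (by linarith)
    have h7 := dl_nonneg k d
    have h8 := dl_nonneg k (flp d)
    nlinarith
  change dl k d + _ ≤ _
  linarith

lemma prod_le {m m' A A' t B : ℝ} (hm' : 0 ≤ m') (hA : 0 ≤ A) (hA' : 0 ≤ A')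
    (ht : 0 ≤ t) (h1 : m ≤ A + t) (h1' : m' ≤ A' + t) (h2 : m ≤ B) (h2' : m' ≤ B) :
    m * m' ≤ A * A' + 2 * B * t := by
  have hB : 0 ≤ B := hm'.trans h2'
  have h3 : m ≤ min A B + t := by
    rcases le_total A B with h | h
    · rw [min_eq_left h]; exact h1
    · rw [min_eq_right h]; linarith
  have h4 : 0 ≤ min A B := le_min hA hB
  have h5 := mul_le_mul_of_nonneg_right h3 hm'
  have h6 := mul_le_mul_of_nonneg_left h1' h4
  have h7 := mul_le_mul_of_nonneg_right (min_le_left A B) hA'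
  have h8 := mul_le_mul_of_nonneg_right (min_le_right A B) ht
  have h9 := mul_le_mul_of_nonneg_right h2' ht
  nlinarith

lemma XX_le (hE : Simple E) (hD : 1 ≤ D) (hM : D ≤ M)
    (hc : ∀ x y, s(x, y) ∈ E → ((cod E x y).card : ℝ) ≤ 2 * D) (L : ℕ) {C : Finset (Nd n)}
    (hv : ∀ e ∈ C, valid E e) (hcard : (C.card : ℝ) ≤ 4 * D)
    (hsib : ∀ f : Nd n → ℝ, (∀ d, 0 ≤ f d) → ∀ e ∈ C, ∑ e' ∈ C.erase e, (f e' + f (flp e')) ≤
      (Dmat E *ᵥ f) (rev e) + (Dmat E *ᵥ (Dmat E *ᵥ f)) (rev e)) :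
    XX key (mbb E D M M) C ≤ ∑ e ∈ C, HH E D M L e := by
  rw [XX, ← sum_add_distrib]
  refine sum_le_sum fun e he => ?_
  rw [HH, add_assoc]
  refine add_le_add le_rfl ?_
  set c := (3 * D) ^ 30 * (20 * D) with hcdef
  have hc0 : 0 ≤ c := by positivity
  have hW : ∀ k d, 0 ≤ ww E D k L d + ww E D k L (flp d) := fun k d =>
    add_nonneg (ww_nonneg hD k L _) (ww_nonneg hD k L _)
  have h1 : ∑ e' ∈ C.erase e, ∑ k, mu key (mbb E D M M) e k * mu key (mbb E D M M) e' k ≤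
      ∑ e' ∈ C.erase e, ∑ k, (c * (ww E D k L e + ww E D k L (flp e)) *
        (c * (ww E D k L e' + ww E D k L (flp e'))) +
        2 * (28 * (3 * D) ^ 30) * ((3 * D) ^ 30 * TT E k / 2 ^ L)) := by
    refine sum_le_sum fun e' he' => sum_le_sum fun k _ => ?_
    have hv' := hv e' (mem_of_mem_erase he')
    exact prod_le (mu_nonneg hD _ _) (mul_nonneg hc0 (hW k _)) (mul_nonneg hc0 (hW k _))
      (div_nonneg (mul_nonneg (by positivity) (TT_nonneg E k)) (by positivity))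
      (mu_le_walk hE hD hM hc L (hv e he) k) (mu_le_walk hE hD hM hc L hv' k)
      (mu_le_const hE hD hM hc (hv e he) k) (mu_le_const hE hD hM hc hv' k)
  refine h1.trans ?_
  simp only [sum_add_distrib]
  refine add_le_add ?_ ?_
  · rw [sum_comm, mul_sum]
    refine sum_le_sum fun k _ => ?_
    rw [← mul_sum, ← mul_sum]
    have := mul_le_mul_of_nonneg_left (hsib _ (ww_nonneg (E := E) hD k L) e he)
      (mul_nonneg (sq_nonneg c) (hW k e))
    nlinarith
  · rw [sum_const, nsmul_eq_mul, ← mul_sum, ← sum_div, ← mul_sum, sum_TT]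
    have h2 : ((C.erase e).card : ℝ) ≤ 4 * D :=
      le_trans (by exact_mod_cast card_erase_le) hcard
    have h3 := card_tri_le E
    gcongr

lemma sum_HH (hE : Simple E) (hD : 1 ≤ D) (hM : D ≤ M)
    (hc : ∀ x y, s(x, y) ∈ E → ((cod E x y).card : ℝ) ≤ 2 * D) (L : ℕ) :
    ∑ e ∈ Val E, HH E D M L e ≤
      10 ^ 6 * (3 * D) ^ 64 * ((L + 1) * QQ E D L + (n : ℝ) ^ 8 / 2 ^ L) := by
  set Z := (L + 1) * QQ E D L + (n : ℝ) ^ 8 / 2 ^ L with hZ
  have hQ := QQ_nonneg (E := E) hD L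
  have hL : (0 : ℝ) ≤ L := Nat.cast_nonneg L
  have hn8 : 0 ≤ (n : ℝ) ^ 8 / 2 ^ L := by positivity
  have hLQ : 0 ≤ (L : ℝ) * QQ E D L := mul_nonneg hL hQ
  have hZ1 : (L + 1) * QQ E D L ≤ Z := by linarith
  have hZ2 : QQ E D L ≤ Z := by linarith
  have hn : ∀ j : ℕ, 1 ≤ j → j ≤ 8 → (n : ℝ) ^ j / 2 ^ L ≤ Z := by
    intro j hj1 hj
    have h1 : n ^ j ≤ n ^ 8 := by
      rcases Nat.eq_zero_or_pos n with h | h
      · rw [h, zero_pow (by omega)]
        exact Nat.zero_le _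
      · exact Nat.pow_le_pow_right h hj
    have h2 : (n : ℝ) ^ j ≤ (n : ℝ) ^ 8 := by exact_mod_cast h1
    have h3 : (n : ℝ) ^ j / 2 ^ L ≤ (n : ℝ) ^ 8 / 2 ^ L := by gcongr
    linarith
  have hZ0 : 0 ≤ Z := hQ.trans hZ2
  set X := 3 * D with hX
  have hX1 : 1 ≤ X := by linarith
  have hDX : D ≤ X := by linarith
  have hXp : ∀ j : ℕ, j ≤ 64 → X ^ j ≤ X ^ 64 := fun j hj => pow_le_pow_right₀ hX1 hj
  -- first part
  have p1 : ∑ e ∈ Val E, mbb E D M M e (key e) ≤ 67 * X ^ 64 * Z := by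
    have h1 : ∑ e ∈ Val E, mbb E D M M e (key e) ≤
        ∑ e ∈ Val E, X ^ 30 * (vv E D (key e) L e + vv E D (key (flp e)) L (flp e) + 27 / 2 ^ L) := by
      refine sum_le_sum fun e he => (mbb_walk hE hD hM hc _ L M (mem_Val.1 he)).trans ?_
      rw [key_flp]
      have h2 := vv_nonneg (E := E) hD (key e) L e
      have h3 := vv_nonneg (E := E) hD (key e) L (flp e)
      have h4 := TT_nonneg E (key e)
      have h5 := TT_le E (key e)
      have h6 := th30_le hD hM 30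
      gcongr
    rw [← mul_sum, sum_add_distrib, sum_add_distrib, sum_const, nsmul_eq_mul] at h1
    have h2 := sum_Val_le (E := E) fun e => vv_nonneg (E := E) hD (key e) L e
    have h3 := sum_Val_le (E := E) fun e => vv_nonneg (E := E) hD (key (flp e)) L (flp e)
    rw [sum_flp fun e => vv E D (key e) L e] at h3
    have h4 := sum_vv (E := E) hD L
    have h5 : ((Val E).card : ℝ) * (27 / 2 ^ L) ≤ 27 * Z := by
      have h6 := card_Val_le E
      calc ((Val E).card : ℝ) * (27 / 2 ^ L) ≤ (n : ℝ) ^ 3 * (27 / 2 ^ L) := by gcongr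
        _ = 27 * ((n : ℝ) ^ 3 / 2 ^ L) := by ring
        _ ≤ 27 * Z := by gcongr; exact hn 3 (by norm_num) (by norm_num)
    have h7 : 20 * D * QQ E D L ≤ 20 * X * Z := by gcongr
    calc ∑ e ∈ Val E, mbb E D M M e (key e) ≤ X ^ 30 * (20 * X * Z + 20 * X * Z + 27 * Z) := by
          refine h1.trans (mul_le_mul_of_nonneg_left ?_ (by positivity))
          linarith
      _ = 40 * X ^ 31 * Z + 27 * X ^ 30 * Z := by ring
      _ ≤ 40 * X ^ 64 * Z + 27 * X ^ 64 * Z := by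
          have := hXp 31 (by norm_num)
          have := hXp 30 (by norm_num)
          gcongr
      _ = 67 * X ^ 64 * Z := by ring
  -- second part
  have p2 : ∑ e ∈ Val E, (X ^ 30 * (20 * D)) ^ 2 * ∑ k, (ww E D k L e + ww E D k L (flp e)) *
      ((Dmat E *ᵥ ww E D k L) (rev e) + (Dmat E *ᵥ (Dmat E *ᵥ ww E D k L)) (rev e)) ≤
      640000 * X ^ 64 * Z := by
    rw [← mul_sum]
    have h1 := sum_Val_le (E := E) (h := fun e => ∑ k, (ww E D k L e + ww E D k L (flp e)) *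
      ((Dmat E *ᵥ ww E D k L) (rev e) + (Dmat E *ᵥ (Dmat E *ᵥ ww E D k L)) (rev e)))
      fun e => sum_nonneg fun k _ =>
        mul_nonneg (add_nonneg (ww_nonneg hD k L _) (ww_nonneg hD k L _))
          (add_nonneg (mulVec_nonneg E (ww_nonneg hD k L) _)
            (mulVec_nonneg E (mulVec_nonneg E (ww_nonneg hD k L)) _))
    have h2 : ∀ k, ∑ e, (ww E D k L e + ww E D k L (flp e)) *
        ((Dmat E *ᵥ ww E D k L) (rev e) + (Dmat E *ᵥ (Dmat E *ᵥ ww E D k L)) (rev e)) =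
        2 * (∑ e, ww E D k L e * (Dmat E ^ 1 *ᵥ ww E D k L) (rev e) +
          ∑ e, ww E D k L e * (Dmat E ^ 2 *ᵥ ww E D k L) (rev e)) := by
      intro k
      have h3 := sum_flp fun e => ww E D k L e *
        ((Dmat E *ᵥ ww E D k L) (rev e) + (Dmat E *ᵥ (Dmat E *ᵥ ww E D k L)) (rev e))
      simp only [mulVec_rev_flp hE] at h3
      simp only [add_mul, sum_add_distrib, h3]
      simp only [mul_add, sum_add_distrib, pow_one, sq, ← mulVec_mulVec]
      ring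
    rw [sum_comm (s := univ)] at h1
    simp only [h2] at h1
    rw [← mul_sum, sum_add_distrib] at h1
    have h4 := sum_ww (E := E) hD L (i := 1) le_rfl (by norm_num)
    have h5 := sum_ww (E := E) hD L (i := 2) (by norm_num) le_rfl
    have h6 : (20 * D) ^ 2 * ((L + 1) * QQ E D L) ≤ (20 * X) ^ 2 * Z := by gcongr
    calc _ ≤ (X ^ 30 * (20 * X)) ^ 2 * (4 * ((20 * X) ^ 2 * Z)) := by
          refine mul_le_mul (by gcongr) (by linarith) ?_ (by positivity)
          exact sum_nonneg fun e _ => sum_nonneg fun k _ =>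
            mul_nonneg (add_nonneg (ww_nonneg hD k L _) (ww_nonneg hD k L _))
              (add_nonneg (mulVec_nonneg E (ww_nonneg hD k L) _)
                (mulVec_nonneg E (mulVec_nonneg E (ww_nonneg hD k L)) _))
      _ = 640000 * X ^ 64 * Z := by ring
  -- third part
  have p3 : ((Val E).card : ℝ) *
      (4 * D * (2 * (28 * X ^ 30) * (X ^ 30 * (27 * (n : ℝ) ^ 3) / 2 ^ L))) ≤
      6048 * X ^ 64 * Z := by
    have h6 := card_Val_le E
    calc _ ≤ (n : ℝ) ^ 3 *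
          (4 * X * (2 * (28 * X ^ 30) * (X ^ 30 * (27 * (n : ℝ) ^ 3) / 2 ^ L))) := by gcongr
      _ = 6048 * X ^ 61 * ((n : ℝ) ^ 6 / 2 ^ L) := by ring
      _ ≤ 6048 * X ^ 64 * Z := by
          have := hXp 61 (by norm_num)
          have := hn 6 (by norm_num) (by norm_num)
          gcongr
  have hXZ : 0 ≤ X ^ 64 * Z := by positivity
  simp only [HH, sum_add_distrib, sum_const, nsmul_eq_mul]
  linarith

end Final

end CollAux

open CollAux in
theorem coll_bounds : ∃ C : ℝ, 0 < C ∧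
    ∀ (n : ℕ) (E : ES n) (D : ℝ) (M L : ℕ), Simple E → 1 ≤ D → D ≤ M →
      (∀ x y, s(x, y) ∈ E → ((cod E x y).card : ℝ) ≤ 2 * D) →
      ∃ (mb : ℕ → Nd n → Finset (Fin n) → ℝ) (mB : Nd n → Finset (Fin n) → ℝ)
        (pb : ℕ → Nd n → ℝ) (pB : Nd n → ℝ),
        (∀ u < M, ∀ ν, valid E ν → ∀ k,
          ∑ ν' ∈ Ch E ν, ((if key ν' = k then 1 else 0) +
            ∑ s ∈ range u, vis D M s / M * mb s ν' k) ≤ mb u ν k) ∧
        (∀ u < M, ∀ ν, valid E ν → ∀ k, mb u ν k ≤ mB ν k) ∧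
        (∀ u < M, ∀ ν, valid E ν →
          XX key mB (Ch E ν) + ∑ ν' ∈ Ch E ν, ∑ s ∈ range u, vis D M s / M * pb s ν' ≤ pb u ν) ∧
        (∀ u < M, ∀ ν, valid E ν → pb u ν ≤ pB ν) ∧
        ∑ x, ∑ y ∈ nb E x, (XX key mB (Rt E x y) + ∑ ν ∈ Rt E x y, pB ν) ≤
          C * D ^ 80 * ((L + 1) * ∑ l ∈ Icc 1 (2 * L + 2), (20 * D)⁻¹ ^ l * Cl E l +
            (n : ℝ) ^ 8 / 2 ^ L) ∧
        ∑ k, (∑ x, ∑ y ∈ nb E x, ∑ ν ∈ Rt E x y, mu key mB ν k) ^ 2 ≤
          C * D ^ 70 * (triangles E).card := by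
  refine ⟨10 ^ 7 * 3 ^ 80, by positivity, fun n E D M L hE hD hM hc => ?_⟩
  refine ⟨mbb E D M, mbb E D M M, rc E D M (fun d => XX key (mbb E D M M) (Ch E d)),
    rc E D M (fun d => XX key (mbb E D M M) (Ch E d)) M, ?_, ?_, ?_, ?_, ?_, ?_⟩
  · intro u _ d _ k
    rw [sum_add_distrib]
    exact (rc_eq (b := fun d => ∑ e ∈ Ch E d, dl k e) u d).ge
  · intro u hu d _ k
    exact rc_mono hD (fun _ => sum_nonneg fun e _ => dl_nonneg k e) d hu.le
  · intro u _ d _
    exact (rc_eq (b := fun d => XX key (mbb E D M M) (Ch E d)) u d).ge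
  · intro u hu d _
    exact rc_mono hD (fun _ => XX_nonneg hD _) d hu.le
  · have h1 : ∑ x, ∑ y ∈ nb E x, XX key (mbb E D M M) (Rt E x y) ≤ ∑ e ∈ Val E, HH E D M L e := by
      rw [← sum_Rt]
      refine sum_le_sum fun x _ => sum_le_sum fun y hy => ?_
      have hxy := mem_nb.1 hy
      exact XX_le hE hD hM hc L (fun e he => valid_of_mem_Rt hxy he)
        (card_Rt_le (by linarith) hc hxy) fun f hf e he => sib_Rt hE hf hxy he
    have h2 : ∑ d ∈ Val E, XX key (mbb E D M M) (Ch E d) ≤ 8 * D * ∑ e ∈ Val E, HH E D M L e := by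
      refine le_trans (sum_le_sum fun d hd => ?_) (sum_parents hE hc (HH_nonneg (M := M) hD L))
      have hd' := mem_Val.1 hd
      exact XX_le hE hD hM hc L (fun e he => valid_of_mem_Ch hd' he) (card_Ch_le hc hd')
        fun f hf e he => sib_Ch hE hf hd' he
    have h3 := rc_sum hE hD hM hc (b := fun d => XX key (mbb E D M M) (Ch E d))
      (fun _ => XX_nonneg hD _) M
    have h4 := sum_HH hE hD hM hc L
    have h5 : 0 ≤ ∑ e ∈ Val E, HH E D M L e := sum_nonneg fun e _ => HH_nonneg hD L e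
    have h6 := mul_le_mul (th30_le hD hM 12) h2 (sum_nonneg fun _ _ => XX_nonneg hD _)
      (by positivity)
    simp only [sum_add_distrib]
    rw [sum_Rt]
    change _ ≤ 10 ^ 7 * 3 ^ 80 * D ^ 80 * ((L + 1) * QQ E D L + (n : ℝ) ^ 8 / 2 ^ L)
    have hZ : 0 ≤ (L + 1) * QQ E D L + (n : ℝ) ^ 8 / 2 ^ L := by
      have := QQ_nonneg (E := E) hD L
      positivity
    set Z := (L + 1) * QQ E D L + (n : ℝ) ^ 8 / 2 ^ L
    set X := 3 * D with hX
    have hX1 : 1 ≤ X := by linarith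
    have h7 : 1 + X ^ 12 * (8 * D) ≤ 10 * X ^ 16 := by
      have a1 : 1 ≤ X ^ 16 := one_le_pow₀ hX1
      have a2 : X ^ 13 ≤ X ^ 16 := pow_le_pow_right₀ hX1 (by norm_num)
      have a3 : X ^ 12 * (8 * D) ≤ X ^ 12 * (8 * X) := by gcongr; linarith
      have a4 : X ^ 12 * (8 * X) = 8 * X ^ 13 := by ring
      linarith
    calc _ ≤ (1 + X ^ 12 * (8 * D)) * ∑ e ∈ Val E, HH E D M L e := by linarith
      _ ≤ 10 * X ^ 16 * (10 ^ 6 * X ^ 64 * Z) := by gcongr
      _ = 10 ^ 7 * 3 ^ 80 * D ^ 80 * Z := by rw [hX]; ring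
  · simp only [sum_Rt]
    set X := 3 * D with hX
    have hX1 : 1 ≤ X := by linarith
    have h1 : ∀ k, (∑ e ∈ Val E, mu key (mbb E D M M) e k) ^ 2 ≤ 81 * X ^ 26 * 27 * TT E k := by
      intro k
      have h2 := rc_sum hE hD hM hc (b := fun d => ∑ e ∈ Ch E d, dl k e)
        (fun _ => sum_nonneg fun e _ => dl_nonneg k e) M
      have h3 := sum_parents hE hc (dl_nonneg k)
      have h4 := sum_dl_le hE k
      have hT := TT_nonneg E k
      have h5 : ∑ d ∈ Val E, ∑ e ∈ Ch E d, dl k e ≤ 8 * X * TT E k := by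
        refine h3.trans (mul_le_mul (by linarith) h4 (sum_nonneg fun e _ => dl_nonneg k e) ?_)
        linarith
      have h6 := mul_le_mul (th30_le hD hM 12) h5
        (sum_nonneg fun _ _ => sum_nonneg fun e _ => dl_nonneg k e) (by positivity)
      have h7 : TT E k ≤ X ^ 13 * TT E k := le_mul_of_one_le_left hT (one_le_pow₀ hX1)
      have h8 : ∑ e ∈ Val E, mu key (mbb E D M M) e k ≤ 9 * X ^ 13 * TT E k := by
        have h9 : ∑ e ∈ Val E, mu key (mbb E D M M) e k = ∑ e ∈ Val E, dl k e +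
            ∑ e ∈ Val E, rc E D M (fun d => ∑ e ∈ Ch E d, dl k e) M e := sum_add_distrib
        have h10 : (3 * D) ^ 12 * (8 * X * TT E k) = 8 * (X ^ 13 * TT E k) := by rw [← hX]; ring
        linarith
      calc _ ≤ (9 * X ^ 13 * TT E k) ^ 2 :=
            pow_le_pow_left₀ (sum_nonneg fun e _ => mu_nonneg hD e k) h8 2
        _ = 81 * X ^ 26 * TT E k * TT E k := by ring
        _ ≤ 81 * X ^ 26 * 27 * TT E k := by
            have := TT_le E k
            gcongr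
    refine (sum_le_sum fun k _ => h1 k).trans ?_
    rw [← mul_sum, sum_TT, ← mul_assoc]
    refine mul_le_mul_of_nonneg_right ?_ (Nat.cast_nonneg _)
    have a2 : X ^ 26 ≤ X ^ 70 := pow_le_pow_right₀ hX1 (by norm_num)
    calc 81 * X ^ 26 * 27 * 27 = 59049 * X ^ 26 := by ring
      _ ≤ (10 ^ 7 * 3 ^ 10) * X ^ 70 := by gcongr; norm_num
      _ = 10 ^ 7 * 3 ^ 80 * D ^ 70 := by rw [hX]; ring

end Crest.Agent.R30
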