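import Crest.Agent.R30.Defs

/-! Darts: symmetries of the transition matrix, sums over children and siblings, closed walks. -/

set_option autoImplicit false

namespace Crest.Agent.R30

open Finset Crest.CombinatoricsR.TriangleRemoval Matrix

namespace CollAux

variable {n : ℕ}

/-- swap the endpoints of the parent edge -/
def flp (d : Nd n) : Nd n := (d.2.1, d.1, d.2.2)

/-- reverse a dart -/
def rev (d : Nd n) : Nd n := (d.1, d.2.2, d.2.1)

@[simp] lemma flp_flp (d : Nd n) : flp (flp d) = d := rfl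
@[simp] lemma rev_rev (d : Nd n) : rev (rev d) = d := rfl

lemma sum_flp (f : Nd n → ℝ) : ∑ d, f (flp d) = ∑ d, f d :=
  Equiv.sum_comp ⟨flp, flp, flp_flp, flp_flp⟩ f

lemma sum_rev (f : Nd n → ℝ) : ∑ d, f (rev d) = ∑ d, f d :=
  Equiv.sum_comp ⟨rev, rev, rev_rev, rev_rev⟩ f

@[simp] lemma valid_flp {E : ES n} {d : Nd n} : valid E (flp d) ↔ valid E d := by
  obtain ⟨a, b, c⟩ := d
  simp only [valid, flp, Sym2.eq_swap (a := b) (b := a)]
  tauto

@[simp] lemma valid_rev {E : ES n} {d : Nd n} : valid E (rev d) ↔ valid E d := by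
  obtain ⟨a, b, c⟩ := d
  simp only [valid, rev, Sym2.eq_swap (a := c) (b := b)]
  tauto

@[simp] lemma key_flp (d : Nd n) : key (flp d) = key d := by
  obtain ⟨a, b, c⟩ := d
  ext x
  simp only [key, flp, mem_insert, mem_singleton]
  tauto

@[simp] lemma key_rev (d : Nd n) : key (rev d) = key d := by
  obtain ⟨a, b, c⟩ := d
  ext x
  simp only [key, rev, mem_insert, mem_singleton]
  tauto

lemma Ch_flp (E : ES n) (d : Nd n) : Ch E (flp d) = Ch E d := by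
  simp only [Ch, flp]
  exact union_comm _ _

lemma Dmat_nonneg (E : ES n) (d e : Nd n) : 0 ≤ Dmat E d e := by
  unfold Dmat
  split_ifs <;> norm_num

lemma Dmat_rev (E : ES n) (d e : Nd n) : Dmat E (rev e) (rev d) = Dmat E d e := by
  unfold Dmat
  refine if_congr ?_ rfl rfl
  rw [valid_rev, valid_rev]
  obtain ⟨a, b, c⟩ := d
  obtain ⟨x, y, z⟩ := e
  simp only [rev]
  constructor
  · rintro ⟨h1, h2, h3, ⟨rfl, rfl⟩ | ⟨rfl, rfl⟩⟩
    · exact ⟨h2, h1, h3.symm, Or.inl ⟨rfl, rfl⟩⟩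
    · exact ⟨h2, h1, h3.symm, Or.inr ⟨rfl, rfl⟩⟩
  · rintro ⟨h1, h2, h3, ⟨rfl, rfl⟩ | ⟨rfl, rfl⟩⟩
    · exact ⟨h2, h1, h3.symm, Or.inl ⟨rfl, rfl⟩⟩
    · exact ⟨h2, h1, h3.symm, Or.inr ⟨rfl, rfl⟩⟩

lemma mulVec_apply' (A : Matrix (Nd n) (Nd n) ℝ) (f : Nd n → ℝ) (d : Nd n) :
    (A *ᵥ f) d = ∑ e, A d e * f e := rfl

lemma mulVec_nonneg (E : ES n) {f : Nd n → ℝ} (hf : ∀ d, 0 ≤ f d) (d : Nd n) :
    0 ≤ (Dmat E *ᵥ f) d :=
  sum_nonneg fun e _ => mul_nonneg (Dmat_nonneg E d e) (hf e)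

lemma pow_mulVec_nonneg (E : ES n) {f : Nd n → ℝ} (hf : ∀ d, 0 ≤ f d) (j : ℕ) (d : Nd n) :
    0 ≤ (Dmat E ^ j *ᵥ f) d := by
  induction j generalizing d with
  | zero => simpa using hf d
  | succ j ih =>
    rw [pow_succ', ← mulVec_mulVec]
    exact mulVec_nonneg E ih d

lemma adj_one (E : ES n) (f g : Nd n → ℝ) :
    ∑ d, (Dmat E *ᵥ f) d * g (rev d) = ∑ e, f e * (Dmat E *ᵥ g) (rev e) := by
  simp only [mulVec_apply', sum_mul, mul_sum]
  rw [sum_comm]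
  refine sum_congr rfl fun e _ => ?_
  rw [← sum_rev (fun d => f e * (Dmat E (rev e) d * g d))]
  refine sum_congr rfl fun d _ => ?_
  rw [Dmat_rev]
  ring

lemma adj (E : ES n) (j : ℕ) (f g : Nd n → ℝ) :
    ∑ d, (Dmat E ^ j *ᵥ f) d * g (rev d) = ∑ e, f e * (Dmat E ^ j *ᵥ g) (rev e) := by
  induction j generalizing g with
  | zero => simp
  | succ j ih =>
    conv_lhs => rw [pow_succ', ← mulVec_mulVec]
    rw [adj_one, ih, mulVec_mulVec, ← pow_succ]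

lemma mulVec_eq {E : ES n} (hE : Simple E) (f : Nd n → ℝ) {x y w : Fin n}
    (h : valid E (x, y, w)) :
    (Dmat E *ᵥ f) (x, y, w) = ∑ z ∈ (cod E x w).erase y, (f (x, w, z) + f (w, x, z)) := by
  have hxw : s(x, w) ∈ E := h.2.1
  have hne : x ≠ w := hE.ne hxw
  have h1 : (Dmat E *ᵥ f) (x, y, w) =
      ∑ e ∈ ((cod E x w).erase y).image (fun z => (x, w, z)) ∪
        ((cod E x w).erase y).image (fun z => (w, x, z)), f e := by
    rw [mulVec_apply']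
    simp only [Dmat, ite_mul, one_mul, zero_mul]
    rw [← sum_filter]
    refine sum_congr ?_ fun _ _ => rfl
    ext ⟨a, b, c⟩
    simp only [mem_filter, mem_univ, true_and, mem_union, mem_image, mem_erase, mem_cod,
      Prod.mk.injEq]
    constructor
    · rintro ⟨-, h2, h3, ⟨rfl, rfl⟩ | ⟨rfl, rfl⟩⟩
      · exact Or.inl ⟨c, ⟨h3, h2.2.1, h2.2.2⟩, rfl, rfl, rfl⟩
      · exact Or.inr ⟨c, ⟨h3, h2.2.2, h2.2.1⟩, rfl, rfl, rfl⟩
    · rintro (⟨z, ⟨h3, h4, h5⟩, rfl, rfl, rfl⟩ | ⟨z, ⟨h3, h4, h5⟩, rfl, rfl, rfl⟩)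
      · exact ⟨h, ⟨hxw, h4, h5⟩, h3, Or.inl ⟨rfl, rfl⟩⟩
      · exact ⟨h, ⟨Sym2.eq_swap ▸ hxw, h5, h4⟩, h3, Or.inr ⟨rfl, rfl⟩⟩
  rw [h1, sum_union, sum_image, sum_image, sum_add_distrib]
  · intro a _ b _ hab
    simpa using hab
  · intro a _ b _ hab
    simpa using hab
  · rw [disjoint_left]
    intro e he he'
    obtain ⟨a, -, rfl⟩ := mem_image.1 he
    obtain ⟨b, -, hb⟩ := mem_image.1 he'
    simp only [Prod.mk.injEq] at hb
    exact hne hb.1.symm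

lemma mulVec_invalid {E : ES n} (f : Nd n → ℝ) {d : Nd n} (h : ¬ valid E d) :
    (Dmat E *ᵥ f) d = 0 := by
  rw [mulVec_apply']
  refine sum_eq_zero fun e _ => ?_
  simp [Dmat, h]

lemma mulVec_rev_flp {E : ES n} (hE : Simple E) (f : Nd n → ℝ) (d : Nd n) :
    (Dmat E *ᵥ f) (rev (flp d)) = (Dmat E *ᵥ f) (rev d) := by
  by_cases h : valid E d
  · obtain ⟨a, b, c⟩ := d
    have h1 : valid E (b, c, a) := (valid_rev (d := flp (a, b, c))).2 (valid_flp.2 h)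
    have h2 : valid E (a, c, b) := (valid_rev (d := (a, b, c))).2 h
    change (Dmat E *ᵥ f) (b, c, a) = (Dmat E *ᵥ f) (a, c, b)
    rw [mulVec_eq hE f h1, mulVec_eq hE f h2, cod_comm]
    exact sum_congr rfl fun z _ => add_comm _ _
  · rw [mulVec_invalid f (by simpa using h), mulVec_invalid f (by simpa using h)]

lemma sum_union_le' {α : Type*} [DecidableEq α] (s t : Finset α) {g : α → ℝ} (hg : ∀ a, 0 ≤ g a) :
    ∑ a ∈ s ∪ t, g a ≤ ∑ a ∈ s, g a + ∑ a ∈ t, g a := by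
  rw [← sum_union_inter]
  linarith [sum_nonneg (s := s ∩ t) fun a _ => hg a]

lemma sum_image_nd (a b : Fin n) (s : Finset (Fin n)) (g : Nd n → ℝ) :
    ∑ e ∈ s.image (fun z => (a, b, z)), g e = ∑ z ∈ s, g (a, b, z) := by
  rw [sum_image]
  intro a _ b _ hab
  simpa using hab

lemma mem_Ch {E : ES n} {a b c : Fin n} {e : Nd n} :
    e ∈ Ch E (a, b, c) ↔ (∃ z, (z ≠ b ∧ s(a, z) ∈ E ∧ s(c, z) ∈ E) ∧ (a, c, z) = e) ∨
      (∃ z, (z ≠ a ∧ s(b, z) ∈ E ∧ s(c, z) ∈ E) ∧ (b, c, z) = e) := by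
  simp only [Ch, mem_union, mem_image, mem_erase, mem_cod]

lemma valid_of_mem_Ch {E : ES n} {d e : Nd n} (h : valid E d) (he : e ∈ Ch E d) : valid E e := by
  obtain ⟨a, b, c⟩ := d
  rcases mem_Ch.1 he with ⟨z, ⟨-, h1, h2⟩, rfl⟩ | ⟨z, ⟨-, h1, h2⟩, rfl⟩
  · exact ⟨h.2.1, h1, h2⟩
  · exact ⟨h.2.2, h1, h2⟩

lemma valid_of_mem_Rt {E : ES n} {x y : Fin n} (h : s(x, y) ∈ E) {e : Nd n} (he : e ∈ Rt E x y) :
    valid E e := by
  obtain ⟨z, hz, rfl⟩ := mem_image.1 he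
  exact ⟨h, (mem_cod.1 hz).1, (mem_cod.1 hz).2⟩

lemma sum_Ch_le {E : ES n} (hE : Simple E) {f : Nd n → ℝ} (hf : ∀ d, 0 ≤ f d) {d : Nd n}
    (h : valid E d) :
    ∑ e ∈ Ch E d, (f e + f (flp e)) ≤ (Dmat E *ᵥ f) d + (Dmat E *ᵥ f) (flp d) := by
  obtain ⟨a, b, c⟩ := d
  have h' : valid E (b, a, c) := (valid_flp (d := (a, b, c))).2 h
  change _ ≤ _ + (Dmat E *ᵥ f) (b, a, c)
  rw [mulVec_eq hE f h, mulVec_eq hE f h']
  refine (sum_union_le' _ _ fun e => add_nonneg (hf _) (hf _)).trans ?_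
  rw [sum_image_nd, sum_image_nd]
  exact le_rfl

lemma sib_aux {E : ES n} (hE : Simple E) {f : Nd n → ℝ} (hf : ∀ d, 0 ≤ f d) {a b c z : Fin n}
    (h : valid E (a, b, c)) (hz : z ≠ b) (h1 : s(a, z) ∈ E) (h2 : s(c, z) ∈ E) :
    ∑ e ∈ (Ch E (a, b, c)).erase (a, c, z), (f e + f (flp e)) ≤
      (Dmat E *ᵥ f) (rev (a, c, z)) + (Dmat E *ᵥ (Dmat E *ᵥ f)) (rev (a, c, z)) := by
  have hv : valid E (a, z, c) := ⟨h1, h.2.1, Sym2.eq_swap ▸ h2⟩
  have hv' : valid E (c, a, b) := ⟨Sym2.eq_swap ▸ h.2.1, Sym2.eq_swap ▸ h.2.2, h.1⟩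
  have hsub : (Ch E (a, b, c)).erase (a, c, z) ⊆
      ((cod E a c).erase z).image (fun y => (a, c, y)) ∪
        ((cod E c b).erase a).image (fun y => (b, c, y)) := by
    intro e he
    obtain ⟨hne, he⟩ := mem_erase.1 he
    rcases mem_Ch.1 he with ⟨y, ⟨-, h3, h4⟩, rfl⟩ | ⟨y, ⟨h5, h3, h4⟩, rfl⟩
    · refine mem_union_left _ (mem_image.2 ⟨y, mem_erase.2 ⟨?_, mem_cod.2 ⟨h3, h4⟩⟩, rfl⟩)
      rintro rfl
      exact hne rfl
    · exact mem_union_right _ (mem_image.2 ⟨y, mem_erase.2 ⟨h5, mem_cod.2 ⟨h4, h3⟩⟩, rfl⟩)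
  refine (sum_le_sum_of_subset_of_nonneg hsub fun e _ _ => add_nonneg (hf _) (hf _)).trans ?_
  refine (sum_union_le' _ _ fun e => add_nonneg (hf _) (hf _)).trans ?_
  rw [sum_image_nd, sum_image_nd]
  change _ ≤ (Dmat E *ᵥ f) (a, z, c) + (Dmat E *ᵥ (Dmat E *ᵥ f)) (a, z, c)
  rw [mulVec_eq hE f hv, mulVec_eq hE _ hv]
  refine add_le_add le_rfl ?_
  have hb : b ∈ (cod E a c).erase z :=
    mem_erase.2 ⟨hz.symm, mem_cod.2 ⟨h.1, Sym2.eq_swap ▸ h.2.2⟩⟩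
  refine le_trans ?_ (single_le_sum
    (f := fun y => (Dmat E *ᵥ f) (a, c, y) + (Dmat E *ᵥ f) (c, a, y))
    (fun y _ => add_nonneg (mulVec_nonneg E hf _) (mulVec_nonneg E hf _)) hb)
  have h3 := mulVec_nonneg E hf (a, c, b)
  have h4 : (Dmat E *ᵥ f) (c, a, b) =
      ∑ y ∈ (cod E c b).erase a, (f (b, c, y) + f (flp (b, c, y))) := by
    rw [mulVec_eq hE f hv']
    exact sum_congr rfl fun y _ => add_comm _ _
  linarith

lemma sib_Ch {E : ES n} (hE : Simple E) {f : Nd n → ℝ} (hf : ∀ d, 0 ≤ f d) {d e : Nd n}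
    (h : valid E d) (he : e ∈ Ch E d) :
    ∑ e' ∈ (Ch E d).erase e, (f e' + f (flp e')) ≤
      (Dmat E *ᵥ f) (rev e) + (Dmat E *ᵥ (Dmat E *ᵥ f)) (rev e) := by
  obtain ⟨a, b, c⟩ := d
  rcases mem_Ch.1 he with ⟨z, ⟨h0, h1, h2⟩, rfl⟩ | ⟨z, ⟨h0, h1, h2⟩, rfl⟩
  · exact sib_aux hE hf h h0 h1 h2
  · rw [← Ch_flp]
    exact sib_aux hE hf ((valid_flp (d := (a, b, c))).2 h) h0 h1 h2

lemma sib_Rt {E : ES n} (hE : Simple E) {f : Nd n → ℝ} (hf : ∀ d, 0 ≤ f d) {x y : Fin n}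
    (h : s(x, y) ∈ E) {e : Nd n} (he : e ∈ Rt E x y) :
    ∑ e' ∈ (Rt E x y).erase e, (f e' + f (flp e')) ≤
      (Dmat E *ᵥ f) (rev e) + (Dmat E *ᵥ (Dmat E *ᵥ f)) (rev e) := by
  obtain ⟨z, hz, rfl⟩ := mem_image.1 he
  have hv : valid E (x, z, y) := ⟨(mem_cod.1 hz).1, h, Sym2.eq_swap ▸ (mem_cod.1 hz).2⟩
  have hsub : (Rt E x y).erase (x, y, z) ⊆ ((cod E x y).erase z).image (fun w => (x, y, w)) := by
    intro e he
    obtain ⟨hne, he⟩ := mem_erase.1 he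
    obtain ⟨w, hw, rfl⟩ := mem_image.1 he
    refine mem_image.2 ⟨w, mem_erase.2 ⟨?_, hw⟩, rfl⟩
    rintro rfl
    exact hne rfl
  refine (sum_le_sum_of_subset_of_nonneg hsub fun e _ _ => add_nonneg (hf _) (hf _)).trans ?_
  rw [sum_image_nd]
  change _ ≤ (Dmat E *ᵥ f) (x, z, y) + _
  rw [mulVec_eq hE f hv]
  exact le_add_of_nonneg_right (mulVec_nonneg E (mulVec_nonneg E hf) _)

/-- the valid nodes -/
def Val (E : ES n) : Finset (Nd n) := univ.filter (valid E)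

@[simp] lemma mem_Val {E : ES n} {d : Nd n} : d ∈ Val E ↔ valid E d := by simp [Val]

lemma sum_Rt (E : ES n) (h : Nd n → ℝ) :
    ∑ x, ∑ y ∈ nb E x, ∑ e ∈ Rt E x y, h e = ∑ e ∈ Val E, h e := by
  rw [Val, sum_filter, Fintype.sum_prod_type]
  refine sum_congr rfl fun x _ => ?_
  rw [nb, sum_filter, Fintype.sum_prod_type]
  refine sum_congr rfl fun y _ => ?_
  rw [Rt, sum_image_nd, cod, sum_filter]
  by_cases hxy : s(x, y) ∈ E
  · simp [valid, hxy]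
  · simp [valid, hxy]

lemma sum_Val_le {E : ES n} {h : Nd n → ℝ} (hh : ∀ d, 0 ≤ h d) : ∑ e ∈ Val E, h e ≤ ∑ e, h e :=
  sum_le_sum_of_subset_of_nonneg (subset_univ _) fun d _ _ => hh d

lemma card_Val_le (E : ES n) : ((Val E).card : ℝ) ≤ (n : ℝ) ^ 3 := by
  have : (Val E).card ≤ n ^ 3 := by
    refine (card_le_univ _).trans (le_of_eq ?_)
    simp only [Fintype.card_prod, Fintype.card_fin]
    ring
  exact_mod_cast this

lemma card_tri_le (E : ES n) : ((triangles E).card : ℝ) ≤ (n : ℝ) ^ 3 := by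
  have : (triangles E).card ≤ n ^ 3 := by
    refine (card_filter_le _ _).trans ?_
    rw [card_powersetCard, card_univ, Fintype.card_fin]
    exact Nat.choose_le_pow n 3
  exact_mod_cast this

section Deg
variable {E : ES n} {D : ℝ}

lemma card_er_le (hD : ∀ x y, s(x, y) ∈ E → ((cod E x y).card : ℝ) ≤ 2 * D) {x y : Fin n}
    (h : s(x, y) ∈ E) (z : Fin n) : (((cod E x y).erase z).card : ℝ) ≤ 2 * D :=
  le_trans (by exact_mod_cast card_erase_le) (hD x y h)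

lemma card_Ch_le (hD : ∀ x y, s(x, y) ∈ E → ((cod E x y).card : ℝ) ≤ 2 * D) {d : Nd n}
    (h : valid E d) : ((Ch E d).card : ℝ) ≤ 4 * D := by
  have h1 := card_er_le hD h.2.1 d.2.1
  have h2 := card_er_le hD h.2.2 d.1
  have h3 : (Ch E d).card ≤ ((cod E d.1 d.2.2).erase d.2.1).card +
      ((cod E d.2.1 d.2.2).erase d.1).card :=
    (card_union_le _ _).trans (add_le_add card_image_le card_image_le)
  have h4 : ((Ch E d).card : ℝ) ≤ ((cod E d.1 d.2.2).erase d.2.1).card +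
      ((cod E d.2.1 d.2.2).erase d.1).card := by exact_mod_cast h3
  linarith

lemma card_Rt_le (hD0 : 0 ≤ D) (hD : ∀ x y, s(x, y) ∈ E → ((cod E x y).card : ℝ) ≤ 2 * D)
    {x y : Fin n} (h : s(x, y) ∈ E) : ((Rt E x y).card : ℝ) ≤ 4 * D := by
  have h1 := hD x y h
  have h2 : ((Rt E x y).card : ℝ) ≤ (cod E x y).card := by exact_mod_cast card_image_le
  linarith

lemma row_le (hE : Simple E)
    (hD : ∀ x y, s(x, y) ∈ E → ((cod E x y).card : ℝ) ≤ 2 * D) (d : Nd n) :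
    (Dmat E *ᵥ fun _ => (1 : ℝ)) d ≤ if valid E d then 4 * D else 0 := by
  split_ifs with h
  · obtain ⟨a, b, c⟩ := d
    rw [mulVec_eq hE _ h, sum_const, nsmul_eq_mul]
    have := card_er_le hD h.2.1 b
    simp only at this
    linarith
  · rw [mulVec_invalid _ h]

/-- every valid node has few parents -/
lemma sum_parents (hE : Simple E)
    (hD : ∀ x y, s(x, y) ∈ E → ((cod E x y).card : ℝ) ≤ 2 * D) {h : Nd n → ℝ}
    (hh : ∀ d, 0 ≤ h d) : ∑ d ∈ Val E, ∑ e ∈ Ch E d, h e ≤ 8 * D * ∑ e ∈ Val E, h e := by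
  have h1 : ∑ d ∈ Val E, ∑ e ∈ Ch E d, h e ≤
      ∑ d ∈ Val E, ((Dmat E *ᵥ h) d + (Dmat E *ᵥ h) (flp d)) := by
    refine sum_le_sum fun d hd => le_trans ?_ (sum_Ch_le hE hh (mem_Val.1 hd))
    exact sum_le_sum fun e _ => le_add_of_nonneg_right (hh _)
  have h2 := sum_Val_le (E := E) (h := fun d => (Dmat E *ᵥ h) d + (Dmat E *ᵥ h) (flp d))
    fun d => add_nonneg (mulVec_nonneg E hh _) (mulVec_nonneg E hh _)
  rw [sum_add_distrib (s := univ), sum_flp (Dmat E *ᵥ h)] at h2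
  have h3 := adj_one E h fun _ => (1 : ℝ)
  simp only [mul_one] at h3
  have h4 : ∑ e, h e * (Dmat E *ᵥ fun _ => (1 : ℝ)) (rev e) ≤ 4 * D * ∑ e ∈ Val E, h e := by
    rw [Val, sum_filter, mul_sum]
    refine sum_le_sum fun e _ => ?_
    refine (mul_le_mul_of_nonneg_left (row_le hE hD (rev e)) (hh e)).trans (le_of_eq ?_)
    simp only [valid_rev]
    split_ifs <;> ring
  linarith

end Deg

/-- indicator of a key -/
def dl (k : Finset (Fin n)) (d : Nd n) : ℝ := if key d = k then 1 else 0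

lemma dl_nonneg (k : Finset (Fin n)) (d : Nd n) : 0 ≤ dl k d := by
  unfold dl
  split_ifs <;> norm_num

lemma dl_le_one (k : Finset (Fin n)) (d : Nd n) : dl k d ≤ 1 := by
  unfold dl
  split_ifs <;> norm_num

lemma key_mem {E : ES n} (hE : Simple E) {d : Nd n} (h : valid E d) : key d ∈ triangles E := by
  obtain ⟨a, b, c⟩ := d
  obtain ⟨h1, h2, h3⟩ := h
  simp only at h1 h2 h3
  have hab := hE.ne h1
  have hac := hE.ne h2
  have hbc := hE.ne h3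
  simp only [triangles, mem_filter, mem_powersetCard, subset_univ, true_and, key]
  refine ⟨card_eq_three.2 ⟨a, b, c, hab, hac, hbc, rfl⟩, ?_⟩
  intro u hu v hv huv
  simp only [mem_insert, mem_singleton] at hu hv
  rcases hu with rfl | rfl | rfl <;> rcases hv with rfl | rfl | rfl <;>
    first | exact absurd rfl huv | assumption | (rw [Sym2.eq_swap]; assumption)

/-- bound for the number of valid nodes with a given key -/
def TT (E : ES n) (k : Finset (Fin n)) : ℝ := if k ∈ triangles E then 27 else 0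

lemma TT_nonneg (E : ES n) (k : Finset (Fin n)) : 0 ≤ TT E k := by
  unfold TT
  split_ifs <;> norm_num

lemma TT_le (E : ES n) (k : Finset (Fin n)) : TT E k ≤ 27 := by
  unfold TT
  split_ifs <;> norm_num

lemma sum_TT (E : ES n) : ∑ k, TT E k = 27 * (triangles E).card := by
  simp [TT, mul_comm]

lemma sum_dl_le {E : ES n} (hE : Simple E) (k : Finset (Fin n)) :
    ∑ d ∈ Val E, dl k d ≤ TT E k := by
  unfold TT
  split_ifs with hk
  · have h3 : k.card = 3 := (mem_powersetCard.1 (mem_filter.1 hk).1).2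
    have h1 : ((Val E).filter fun d => key d = k) ⊆ k ×ˢ k ×ˢ k := by
      intro d hd
      obtain ⟨-, rfl⟩ := mem_filter.1 hd
      simp [key]
    have h2 := card_le_card h1
    rw [card_product, card_product, h3] at h2
    simp only [dl, sum_boole]
    exact_mod_cast h2
  · refine le_of_eq (sum_eq_zero fun d hd => ?_)
    rw [dl, if_neg]
    rintro rfl
    exact hk (key_mem hE (mem_Val.1 hd))

lemma Cl_eq (E : ES n) (l : ℕ) : Cl E l = ∑ d, (Dmat E ^ l *ᵥ dl (key d)) d := by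
  unfold Cl
  refine sum_congr rfl fun d _ => ?_
  rw [mulVec_apply']
  refine sum_congr rfl fun e _ => ?_
  simp only [dl, eq_comm]

lemma Cl_nonneg (E : ES n) (l : ℕ) : 0 ≤ Cl E l := by
  rw [Cl_eq]
  exact sum_nonneg fun d _ => pow_mulVec_nonneg E (dl_nonneg _) l d

lemma sum_pair_eq (E : ES n) (j l : ℕ) :
    ∑ k, ∑ d, (Dmat E ^ j *ᵥ dl k) d * (Dmat E ^ l *ᵥ dl k) (rev d) = Cl E (j + l) := by
  simp only [adj, mulVec_mulVec, ← pow_add]
  rw [sum_comm, Cl_eq, ← sum_rev (fun d => (Dmat E ^ (j + l) *ᵥ dl (key d)) d)]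
  refine sum_congr rfl fun d _ => ?_
  rw [sum_eq_single (key d)]
  · simp [dl]
  · intro k _ hk
    simp [dl, hk.symm]
  · simp

end CollAux

end Crest.Agent.R30
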