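import Crest.Agent.R30.Defs

/-! Counting facts for one step of the triangle removal process. -/

set_option autoImplicit false

namespace Crest.Agent.R30

open Finset Crest.CombinatoricsR.TriangleRemoval
open scoped BigOperators

variable {n : ℕ}

lemma mem_triangles {E : ES n} {T : Finset (Fin n)} :
    T ∈ triangles E ↔ T.card = 3 ∧ ∀ u ∈ T, ∀ v ∈ T, u ≠ v → s(u, v) ∈ E := by
  simp [triangles, mem_powersetCard]

lemma triple_mem_triangles {E : ES n} (h : Simple E) {x y z : Fin n} (hxy : s(x, y) ∈ E)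
    (hxz : s(x, z) ∈ E) (hyz : s(y, z) ∈ E) : ({x, y, z} : Finset (Fin n)) ∈ triangles E := by
  refine mem_triangles.2 ⟨card_eq_three.2 ⟨x, y, z, h.ne hxy, h.ne hxz, h.ne hyz, rfl⟩, ?_⟩
  intro u hu v hv huv
  simp only [mem_insert, mem_singleton] at hu hv
  rcases hu with rfl | rfl | rfl <;> rcases hv with rfl | rfl | rfl <;>
    first | exact absurd rfl huv | assumption | (rw [Sym2.eq_swap]; assumption)

/-- a three-element set containing two distinct points -/
lemma exists_third {T : Finset (Fin n)} (hT : T.card = 3) {x y : Fin n} (hx : x ∈ T) (hy : y ∈ T)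
    (hxy : x ≠ y) : ∃ z, z ≠ x ∧ z ≠ y ∧ T = {x, y, z} := by
  have h1 : ((T.erase x).erase y).card = 1 := by
    rw [card_erase_of_mem (mem_erase.2 ⟨hxy.symm, hy⟩), card_erase_of_mem hx, hT]
  obtain ⟨z, hz⟩ := card_eq_one.1 h1
  have hz' : z ∈ (T.erase x).erase y := by rw [hz]; exact mem_singleton_self z
  refine ⟨z, (mem_erase.1 (mem_erase.1 hz').2).1, (mem_erase.1 hz').1, ?_⟩
  rw [← hz, insert_erase (mem_erase.2 ⟨hxy.symm, hy⟩), insert_erase hx]

theorem tdeg_eq {n : ℕ} {E : ES n} (h : Simple E) {x y : Fin n} (hxy : s(x, y) ∈ E) :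
    tdeg E s(x, y) = (cod E x y).card := by
  symm
  refine card_bij (fun z _ => ({x, y, z} : Finset (Fin n))) ?_ ?_ ?_
  · intro z hz
    rw [mem_cod] at hz
    exact mem_filter.2 ⟨triple_mem_triangles h hxy hz.1 hz.2, by simp⟩
  · intro z hz z' hz' e
    rw [mem_cod] at hz hz'
    have : z ∈ ({x, y, z'} : Finset (Fin n)) := by rw [← e]; simp
    simp only [mem_insert, mem_singleton] at this
    rcases this with rfl | rfl | rfl
    · exact absurd rfl (h.ne hz.1)
    · exact absurd rfl (h.ne hz.2)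
    · rfl
  · intro T hT
    obtain ⟨hT, he⟩ := mem_filter.1 hT
    rw [mk_mem_sym2_iff] at he
    obtain ⟨h3, hE⟩ := mem_triangles.1 hT
    obtain ⟨z, hzx, hzy, rfl⟩ := exists_third h3 he.1 he.2 (h.ne hxy)
    exact ⟨z, mem_cod.2 ⟨hE _ (by simp) _ (by simp) hzx.symm, hE _ (by simp) _ (by simp) hzy.symm⟩,
      rfl⟩

lemma card_inter_sym2 {E : ES n} (h : Simple E) {T : Finset (Fin n)} (hT : T ∈ triangles E) :
    (E ∩ T.sym2).card = 3 := by
  obtain ⟨h3, hE⟩ := mem_triangles.1 hT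
  obtain ⟨x, y, z, hxy, hxz, hyz, rfl⟩ := card_eq_three.1 h3
  have : E ∩ ({x, y, z} : Finset (Fin n)).sym2 = {s(x, y), s(x, z), s(y, z)} := by
    ext e
    induction e using Sym2.ind with
    | _ u v =>
      simp only [mem_inter, mk_mem_sym2_iff, mem_insert, mem_singleton]
      constructor
      · rintro ⟨he, hu, hv⟩
        have huv := h.ne he
        rcases hu with rfl | rfl | rfl <;> rcases hv with rfl | rfl | rfl <;>
          first | exact absurd rfl huv | simp [Sym2.eq_swap]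
      · rintro (e | e | e) <;> rw [e] <;> rw [Sym2.eq_iff] at e
        · exact ⟨hE _ (by simp) _ (by simp) hxy, by tauto, by tauto⟩
        · exact ⟨hE _ (by simp) _ (by simp) hxz, by tauto, by tauto⟩
        · exact ⟨hE _ (by simp) _ (by simp) hyz, by tauto, by tauto⟩
  rw [this]
  refine card_eq_three.2 ⟨_, _, _, ?_, ?_, ?_, rfl⟩ <;> simp <;> tauto

theorem card_sdiff_tri {n : ℕ} {E : ES n} (h : Simple E) {T : Finset (Fin n)}
    (hT : T ∈ triangles E) : (E \ T.sym2).card + 3 = E.card := by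
  rw [← card_inter_sym2 h hT, card_sdiff_add_card_inter]

lemma not_subset_sdiff {E F : ES n} (hF : F ⊆ E) (S : ES n) :
    ¬ F ⊆ E \ S ↔ ∃ e ∈ F, e ∈ S := by
  constructor
  · intro h
    by_contra h'
    push Not at h'
    exact h fun e he => mem_sdiff.2 ⟨hF he, h' e he⟩
  · rintro ⟨e, he, hS⟩ h
    exact (mem_sdiff.1 (h he)).2 hS

theorem hit_le {n : ℕ} {E F : ES n} (hF : F ⊆ E) : hit E F ≤ ∑ e ∈ F, tdeg E e := by
  refine le_trans (card_le_card ?_) card_biUnion_le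
  intro T hT
  obtain ⟨hT, h⟩ := mem_filter.1 hT
  obtain ⟨e, he, hS⟩ := (not_subset_sdiff hF _).1 h
  exact mem_biUnion.2 ⟨e, he, mem_filter.2 ⟨hT, hS⟩⟩

lemma sum_tdeg (E F : ES n) :
    ∑ e ∈ F, tdeg E e = ∑ T ∈ triangles E, (F ∩ T.sym2).card := by
  simp only [tdeg, card_filter, ← filter_mem_eq_inter]
  exact sum_comm

lemma card_tri_two_le {E : ES n} (h : Simple E) {e e' : Sym2 (Fin n)} (he : e ∈ E) (he' : e' ∈ E)
    (hne : e ≠ e') : ((triangles E).filter fun T => e ∈ T.sym2 ∧ e' ∈ T.sym2).card ≤ 1 := by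
  refine card_le_one.2 fun T hT T' hT' => ?_
  induction e using Sym2.ind with
  | _ x y =>
  induction e' using Sym2.ind with
  | _ u v =>
  rw [mem_filter] at hT hT'
  obtain ⟨hT, h1, h2⟩ := hT
  obtain ⟨hT', h1', h2'⟩ := hT'
  rw [mk_mem_sym2_iff] at h1 h2 h1' h2'
  obtain ⟨z, hzx, hzy, rfl⟩ := exists_third (mem_triangles.1 hT).1 h1.1 h1.2 (h.ne he)
  obtain ⟨z', hzx', hzy', rfl⟩ := exists_third (mem_triangles.1 hT').1 h1'.1 h1'.2 (h.ne he)
  have huv := h.ne he'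
  simp only [mem_insert, mem_singleton] at h2 h2'
  simp only [ne_eq, Sym2.eq_iff] at hne
  have : z = z' := by
    obtain ⟨a, b⟩ := h2
    obtain ⟨a', b'⟩ := h2'
    by_contra hzz
    have hu : u = x ∨ u = y := by
      rcases a with a | a | a
      · exact Or.inl a
      · exact Or.inr a
      · subst a; tauto
    have hv : v = x ∨ v = y := by
      rcases b with b | b | b
      · exact Or.inl b
      · exact Or.inr b
      · subst b; tauto
    rcases hu with rfl | rfl <;> rcases hv with rfl | rfl <;> tauto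
  rw [this]

theorem le_hit {n : ℕ} {E F : ES n} (h : Simple E) (hF : F ⊆ E) :
    ∑ e ∈ F, tdeg E e ≤ hit E F + F.card ^ 2 := by
  have h1 : ∀ T ∈ triangles E, (F ∩ T.sym2).card ≤ (if ¬ F ⊆ E \ T.sym2 then 1 else 0) +
      (F.offDiag.filter fun q => q.1 ∈ T.sym2 ∧ q.2 ∈ T.sym2).card := by
    intro T _
    have h2 : (F.offDiag.filter fun q => q.1 ∈ T.sym2 ∧ q.2 ∈ T.sym2) = (F ∩ T.sym2).offDiag := by
      ext q; simp only [mem_filter, mem_offDiag, mem_inter]; tauto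
    rw [h2, offDiag_card]
    split_ifs with h3
    · have : F ∩ T.sym2 = ∅ := by
        refine eq_empty_of_forall_notMem fun e he => ?_
        exact (mem_sdiff.1 (h3 (mem_inter.1 he).1)).2 (mem_inter.1 he).2
      simp [this]
    · generalize (F ∩ T.sym2).card = k
      rcases k with _ | _ | k
      · simp
      · simp
      · have : (k + 1 + 1) * (k + 1 + 1) = k * k + 4 * k + 4 := by ring
        omega
  rw [sum_tdeg]
  refine (sum_le_sum h1).trans ?_
  rw [sum_add_distrib, hit, card_filter]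
  refine Nat.add_le_add_left ?_ _
  have h4 : ∑ T ∈ triangles E, (F.offDiag.filter fun q => q.1 ∈ T.sym2 ∧ q.2 ∈ T.sym2).card =
      ∑ q ∈ F.offDiag, ((triangles E).filter fun T => q.1 ∈ T.sym2 ∧ q.2 ∈ T.sym2).card := by
    simp only [card_filter]
    exact sum_comm
  rw [h4]
  refine (sum_le_card_nsmul _ _ 1 fun q hq => ?_).trans ?_
  · rw [mem_offDiag] at hq
    exact card_tri_two_le h (hF hq.1) (hF hq.2.1) hq.2.2
  · rw [offDiag_card, smul_eq_mul, mul_one, sq]; omega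

lemma pos_of_DD {E : ES n} (hD : 0 < DD E) : (0 : ℝ) < n ∧ (0 : ℝ) < E.card ∧ 0 < dbar E := by
  have hn : (0 : ℝ) < n := by
    rcases Nat.eq_zero_or_pos n with rfl | h
    · simp [DD] at hD
    · exact_mod_cast h
  have hE : (0 : ℝ) < E.card := by
    rcases Nat.eq_zero_or_pos E.card with h | h
    · simp [DD, dbar, h] at hD
    · exact_mod_cast h
  exact ⟨hn, hE, by unfold dbar; positivity⟩

lemma sum_card_cod {E : ES n} (h : Simple E) :
    ∑ x, ∑ y ∈ nb E x, ((cod E x y).card : ℝ) = 6 * (triangles E).card := by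
  have h1 : ∑ x, ∑ y ∈ nb E x, ((cod E x y).card : ℝ) =
      ∑ x, ∑ y ∈ nb E x, (tdeg E s(x, y) : ℝ) :=
    sum_congr rfl fun x _ => sum_congr rfl fun y hy => by rw [tdeg_eq h (mem_nb.1 hy)]
  rw [h1, sum_nb_eq h fun e => (tdeg E e : ℝ), ← Nat.cast_sum, sum_tdeg,
    sum_congr rfl fun T hT => card_inter_sym2 h hT]
  simp; ring

lemma card_cod_eq {E : ES n} (hD : 0 < DD E) (x y : Fin n) :
    ((cod E x y).card : ℝ) = DD E * (1 + eta E x y) := by
  unfold eta; field_simp; ring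

lemma card_nb_eq {E : ES n} (hD : 0 < dbar E) (x : Fin n) :
    ((nb E x).card : ℝ) = dbar E * (1 + beta E x) := by
  unfold beta; field_simp; ring

theorem card_triangles {n : ℕ} {E : ES n} (h : Simple E) (hD : 0 < DD E) :
    3 * ((triangles E).card : ℝ) = E.card * DD E * (1 + etabar E) := by
  have h1 := sum_card_cod h
  have h2 := sum_card_nb h
  have hE := (pos_of_DD hD).2.1
  simp only [card_cod_eq hD, mul_add, mul_one, sum_add_distrib, sum_const, nsmul_eq_mul,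
    ← sum_mul, ← mul_sum] at h1
  rw [h2] at h1
  unfold etabar
  field_simp
  linarith

theorem abs_etabar_le {n : ℕ} {E : ES n} {δ : ℝ} (h : Reg δ E) (hD : 0 < DD E) :
    |etabar E| ≤ δ := by
  have hE := (pos_of_DD hD).2.1
  unfold etabar
  rw [abs_div, abs_of_pos (by positivity : (0 : ℝ) < 2 * E.card), div_le_iff₀ (by positivity),
    ← sum_card_nb h.simple, mul_sum]
  refine (abs_sum_le_sum_abs _ _).trans (sum_le_sum fun x _ => ?_)
  refine (abs_sum_le_sum_abs _ _).trans ?_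
  rw [mul_comm, ← nsmul_eq_mul]
  exact sum_le_card_nsmul _ _ _ fun y hy => h.codeg x y (mem_nb.1 hy)

theorem triangles_nonempty {n : ℕ} {E : ES n} {δ : ℝ} (h : Reg δ E) (hδ : δ < 1) (hD : 0 < DD E) :
    (triangles E).Nonempty := by
  have h1 := card_triangles h.simple hD
  have h2 := abs_le.1 (abs_etabar_le h hD)
  have hE := (pos_of_DD hD).2.1
  have h3 : (0 : ℝ) < E.card * DD E * (1 + etabar E) := by
    have : 0 < 1 + etabar E := by linarith
    positivity
  have h4 : (0 : ℝ) < (triangles E).card := by linarith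
  exact card_pos.1 (by exact_mod_cast h4)

lemma dbar_nonneg (E : ES n) : 0 ≤ dbar E := by unfold dbar; positivity

lemma DD_nonneg (E : ES n) : 0 ≤ DD E := by unfold DD; positivity

lemma dbar_le {E : ES n} (h : Simple E) : dbar E ≤ n := by
  rcases Nat.eq_zero_or_pos n with rfl | hn
  · simp [dbar]
  have hn' : (0 : ℝ) < n := by exact_mod_cast hn
  unfold dbar
  rw [div_le_iff₀ hn', ← sum_card_nb h]
  refine (sum_le_card_nsmul _ _ (n : ℝ) fun x _ => ?_).trans (by simp)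
  exact_mod_cast (card_le_univ _).trans (by simp)

theorem DD_le_dbar {n : ℕ} {E : ES n} (h : Simple E) : DD E ≤ dbar E := by
  rcases Nat.eq_zero_or_pos n with rfl | hn
  · simp [dbar, DD]
  have hn' : (0 : ℝ) < n := by exact_mod_cast hn
  rw [DD, div_le_iff₀ hn', sq]
  exact mul_le_mul_of_nonneg_left (dbar_le h) (dbar_nonneg E)

theorem rho_le {n : ℕ} {E : ES n} (h : Simple E) (hD : 0 < DD E) :
    3 / (E.card : ℝ) ≤ 6 / DD E := by
  obtain ⟨hn, hE, -⟩ := pos_of_DD hD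
  have h1 := DD_le_dbar h
  have hn1 : (1 : ℝ) ≤ n := by
    have : 0 < n := by exact_mod_cast hn
    exact_mod_cast this
  have h2 : dbar E ≤ 2 * E.card := by
    unfold dbar; exact div_le_self (by positivity) hn1
  rw [div_le_div_iff₀ hE hD]
  linarith

theorem dbar_sdiff {n : ℕ} {E : ES n} (h : Simple E) {T : Finset (Fin n)} (hT : T ∈ triangles E) :
    dbar (E \ T.sym2) = dbar E * (1 - 3 / E.card) := by
  have h1 := card_sdiff_tri h hT
  have h2 : ((E \ T.sym2).card : ℝ) = E.card - 3 := by rw [← h1]; push_cast; ring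
  have hE : (0 : ℝ) < E.card := by
    have : 0 < E.card := by omega
    exact_mod_cast this
  unfold dbar
  rw [h2]; field_simp

theorem DD_sdiff {n : ℕ} {E : ES n} (h : Simple E) {T : Finset (Fin n)} (hT : T ∈ triangles E) :
    DD (E \ T.sym2) = DD E * (1 - 3 / E.card) ^ 2 := by
  unfold DD
  rw [dbar_sdiff h hT]; ring

/-- expected loss of a configuration count -/
theorem expect_loss {n : ℕ} {ι : Type} (E : ES n) (I : Finset ι) (F : ι → ES n) :
    𝔼 T ∈ triangles E, (((I.filter fun i => F i ⊆ E).card : ℝ) -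
        ((I.filter fun i => F i ⊆ E \ T.sym2).card : ℝ)) =
      (∑ i ∈ I.filter fun i => F i ⊆ E, (hit E (F i) : ℝ)) / (triangles E).card := by
  rw [expect_eq_sum_div_card]
  congr 1
  have h1 : ∀ T : Finset (Fin n), ((I.filter fun i => F i ⊆ E).card : ℝ) -
      ((I.filter fun i => F i ⊆ E \ T.sym2).card : ℝ) =
      ∑ i ∈ I.filter fun i => F i ⊆ E, if ¬ F i ⊆ E \ T.sym2 then (1 : ℝ) else 0 := by
    intro T
    have h2 : (I.filter fun i => F i ⊆ E \ T.sym2) =
        (I.filter fun i => F i ⊆ E).filter fun i => F i ⊆ E \ T.sym2 := by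
      ext i
      simp only [mem_filter]
      exact ⟨fun h => ⟨⟨h.1, h.2.trans sdiff_subset⟩, h.2⟩, fun h => ⟨h.1.1, h.2⟩⟩
    have h3 := card_filter_add_card_filter_not (s := I.filter fun i => F i ⊆ E)
      (fun i => F i ⊆ E \ T.sym2)
    rw [h2, ← h3, sum_boole]
    push_cast; ring
  simp only [h1]
  rw [sum_comm]
  refine sum_congr rfl fun i _ => ?_
  rw [sum_boole, hit]

namespace Count

lemma inv_pow_bound (k : ℕ) : ∃ A : ℝ, 0 ≤ A ∧ ∀ ρ : ℝ, 0 ≤ ρ → ρ ≤ 1 / 2 →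
    |((1 - ρ) ^ k)⁻¹ - 1 - k * ρ| ≤ A * ρ ^ 2 := by
  induction k with
  | zero => exact ⟨0, le_rfl, fun ρ _ _ => by simp⟩
  | succ k ih =>
    obtain ⟨A, hA, ih⟩ := ih
    refine ⟨2 * A + 2 * (k + 1), by positivity, fun ρ h0 h1 => ?_⟩
    have h2 : 0 < 1 - ρ := by linarith
    have h3 : ((1 - ρ) ^ (k + 1))⁻¹ - 1 - ((k + 1 : ℕ) : ℝ) * ρ =
        ((((1 - ρ) ^ k)⁻¹ - 1 - k * ρ) + (k + 1) * ρ ^ 2) / (1 - ρ) := by
      push_cast; field_simp; ring
    rw [h3, abs_div, abs_of_pos h2, div_le_iff₀ h2]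
    refine (abs_add_le _ _).trans ?_
    rw [abs_of_nonneg (by positivity : (0 : ℝ) ≤ (k + 1) * ρ ^ 2)]
    have h4 := ih ρ h0 h1
    have h5 : (0 : ℝ) ≤ (A + (k + 1)) * ρ ^ 2 := by positivity
    nlinarith

end Count

/-- one step of a normalised variable `Z / N - 1` when `Z` loses `Δ T` and `N` is multiplied by
`(1 - ρ) ^ k` -/
theorem norm_step (k : ℕ) : ∃ C : ℝ, 0 < C ∧
    ∀ (τ : Type) (𝒯 : Finset τ) (Z N ρ J h : ℝ) (Δ : τ → ℝ), 𝒯.Nonempty → 0 < N → 0 ≤ ρ →
      ρ ≤ 1 / 2 → |Z / N - 1| ≤ 1 → (∀ T ∈ 𝒯, 0 ≤ Δ T ∧ Δ T ≤ J) → 𝔼 T ∈ 𝒯, Δ T = ρ * N * h →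
      |(𝔼 T ∈ 𝒯, (((Z - Δ T) / (N * (1 - ρ) ^ k) - 1) - (Z / N - 1))) - ρ * (k * (Z / N) - h)| ≤
        C * ρ ^ 2 * (1 + |h|) ∧
      (∀ T ∈ 𝒯, |((Z - Δ T) / (N * (1 - ρ) ^ k) - 1) - (Z / N - 1)| ≤ C * (ρ + J / N)) ∧
      𝔼 T ∈ 𝒯, (((Z - Δ T) / (N * (1 - ρ) ^ k) - 1) - (Z / N - 1)) ^ 2 ≤
        C * (ρ ^ 2 + ρ * |h| * (J / N)) := by
  obtain ⟨A, hA, hb⟩ := Count.inv_pow_bound k
  set B : ℝ := A + k + 1 with hB
  have hB1 : 1 ≤ B := by have : (0 : ℝ) ≤ k := by positivity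
                         linarith
  refine ⟨8 * B ^ 2, by positivity, fun τ 𝒯 Z N ρ J h Δ hne hN h0 h1 hZ hΔ hE => ?_⟩
  have hρ : 0 < 1 - ρ := by linarith
  set g : ℝ := ((1 - ρ) ^ k)⁻¹ with hg
  have hg0 : 0 < g := by positivity
  have hb1 := hb ρ h0 h1
  rw [← hg] at hb1
  have hk : (0 : ℝ) ≤ k := by positivity
  have hg1 : |g - 1| ≤ B * ρ := by
    have h2 : g - 1 = (g - 1 - k * ρ) + k * ρ := by ring
    rw [h2]
    refine (abs_add_le _ _).trans ?_
    rw [abs_of_nonneg (by positivity : (0 : ℝ) ≤ k * ρ)]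
    have : A * ρ ^ 2 ≤ A * ρ := mul_le_mul_of_nonneg_left (by nlinarith) hA
    nlinarith
  have hg2 : g ≤ 2 * B := by
    have := (abs_le.1 hg1).2
    nlinarith
  set a : ℝ := Z / N with ha
  have ha2 : |a| ≤ 2 := by
    have := abs_le.1 hZ
    rw [abs_le]; constructor <;> linarith
  have hform : ∀ T, ((Z - Δ T) / (N * (1 - ρ) ^ k) - 1) - (a - 1) =
      (g - 1) * a - g / N * Δ T := by
    intro T; rw [ha, hg]; field_simp; ring
  simp only [hform]
  obtain ⟨T0, hT0⟩ := hne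
  have hJ : 0 ≤ J := (hΔ T0 hT0).1.trans (hΔ T0 hT0).2
  have hJN : 0 ≤ J / N := by positivity
  have h3 : |(g - 1) * a| ≤ 2 * B * ρ := by
    rw [abs_mul]
    nlinarith [abs_nonneg (g - 1), abs_nonneg a]
  have hBB : B ≤ B ^ 2 := by nlinarith
  refine ⟨?_, fun T hT => ?_, ?_⟩
  · rw [expect_sub_distrib, expect_const ⟨T0, hT0⟩, ← mul_expect, hE]
    have h4 : (g - 1) * a - g / N * (ρ * N * h) - ρ * (k * a - h) =
        (g - 1 - k * ρ) * a - (g - 1) * ρ * h := by field_simp; ring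
    rw [h4]
    refine (abs_sub _ _).trans ?_
    rw [abs_mul, abs_mul, abs_mul, abs_of_nonneg h0]
    have h5 : |g - 1 - k * ρ| * |a| ≤ A * ρ ^ 2 * 2 :=
      mul_le_mul hb1 ha2 (abs_nonneg _) (by positivity)
    have h6 : |g - 1| * ρ * |h| ≤ B * ρ * ρ * |h| := by gcongr
    have h7 : A * ρ ^ 2 ≤ B ^ 2 * ρ ^ 2 := mul_le_mul_of_nonneg_right (by linarith) (by positivity)
    have h8 : B * (ρ ^ 2 * |h|) ≤ B ^ 2 * (ρ ^ 2 * |h|) :=
      mul_le_mul_of_nonneg_right hBB (by positivity)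
    have h9 : 0 ≤ B ^ 2 * ρ ^ 2 := by positivity
    have h10 : 0 ≤ B ^ 2 * (ρ ^ 2 * |h|) := by positivity
    nlinarith
  · refine (abs_sub _ _).trans ?_
    have h4 : |g / N * Δ T| ≤ 2 * B * (J / N) := by
      rw [abs_of_nonneg (mul_nonneg (by positivity) (hΔ T hT).1)]
      calc g / N * Δ T = g * (Δ T / N) := by ring
        _ ≤ 2 * B * (J / N) := by
          have := (hΔ T hT).1
          have := (hΔ T hT).2
          gcongr
    have h5 : B * (ρ + J / N) ≤ B ^ 2 * (ρ + J / N) :=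
      mul_le_mul_of_nonneg_right hBB (by positivity)
    have h6 : 0 ≤ B ^ 2 * (ρ + J / N) := by positivity
    nlinarith
  · have h4 : ∀ T ∈ 𝒯, ((g - 1) * a - g / N * Δ T) ^ 2 ≤
        8 * B ^ 2 * ρ ^ 2 + 8 * B ^ 2 * (J / N) / N * Δ T := by
      intro T hT
      have h5 : ((g - 1) * a) ^ 2 ≤ (2 * B * ρ) ^ 2 := by
        rw [← sq_abs]; exact pow_le_pow_left₀ (abs_nonneg _) h3 2
      have h6 : (g / N * Δ T) ^ 2 ≤ (2 * B) ^ 2 * ((J / N) * (Δ T / N)) := by
        have := (hΔ T hT).1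
        have := (hΔ T hT).2
        calc (g / N * Δ T) ^ 2 = g ^ 2 * ((Δ T / N) * (Δ T / N)) := by ring
          _ ≤ _ := by gcongr
      have h7 : 8 * B ^ 2 * (J / N) / N * Δ T = 2 * ((2 * B) ^ 2 * ((J / N) * (Δ T / N))) := by
        ring
      rw [h7]
      nlinarith [sq_nonneg ((g - 1) * a + g / N * Δ T)]
    refine (expect_le_expect h4).trans ?_
    rw [expect_add_distrib, expect_const ⟨T0, hT0⟩, ← mul_expect, hE]
    have h5 : 8 * B ^ 2 * (J / N) / N * (ρ * N * h) = 8 * B ^ 2 * (ρ * h * (J / N)) := by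
      field_simp
    rw [h5, ← mul_add]
    gcongr
    exact le_abs_self h

end Crest.Agent.R30
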