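import Crest.Prelude.Def_TriangleRemoval

/-! Definitions for the proof of the sharp constant in the triangle removal process. -/

set_option autoImplicit false

namespace Crest.Agent.R30

open Finset Crest.CombinatoricsR.TriangleRemoval

/-- edge sets -/
abbrev ES (n : ℕ) := Finset (Sym2 (Fin n))

/-- ordered triples of vertices.  As a *node* `(a, b, c)` is the triangle `abc` entered through
the parent edge `ab`; as a *dart* `(x, y, w)` it is entered through `xy` and left through `xw`. -/
abbrev Nd (n : ℕ) := Fin n × Fin n × Fin n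

variable {n : ℕ}

/-- no loops -/
def Simple (E : ES n) : Prop := ∀ x, s(x, x) ∉ E

/-- neighbourhood -/
def nb (E : ES n) (x : Fin n) : Finset (Fin n) := univ.filter fun y => s(x, y) ∈ E

/-- common neighbourhood -/
def cod (E : ES n) (x y : Fin n) : Finset (Fin n) :=
  univ.filter fun z => s(x, z) ∈ E ∧ s(y, z) ∈ E

/-- average degree -/
noncomputable def dbar (E : ES n) : ℝ := 2 * E.card / n

/-- expected codegree -/
noncomputable def DD (E : ES n) : ℝ := dbar E ^ 2 / n

/-- relative degree deviation -/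
noncomputable def beta (E : ES n) (x : Fin n) : ℝ := (nb E x).card / dbar E - 1

/-- relative codegree deviation -/
noncomputable def eta (E : ES n) (x y : Fin n) : ℝ := (cod E x y).card / DD E - 1

/-- codegree deviation with the vertex modes removed -/
noncomputable def xi (E : ES n) (x y : Fin n) : ℝ := eta E x y - beta E x - beta E y

/-- mean codegree deviation -/
noncomputable def etabar (E : ES n) : ℝ := (∑ x, ∑ y ∈ nb E x, eta E x y) / (2 * E.card)

/-- number of triangles through an edge -/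
def tdeg (E : ES n) (e : Sym2 (Fin n)) : ℕ := ((triangles E).filter fun T => e ∈ T.sym2).card

/-- number of triangles meeting a set of edges -/
def hit (E F : ES n) : ℕ := ((triangles E).filter fun T => ¬ F ⊆ E \ T.sym2).card

/-- edges of the wheel with hub `x` and rim `f` -/
def wheel {c : ℕ} (x : Fin n) (f : Fin (c + 1) → Fin n) : ES n :=
  (univ.image fun i => s(x, f i)) ∪ (univ.image fun i => s(f i, f (i + 1)))

/-- number of labelled `(c+1)`-cycles in the link of `x` -/
def cyc (E : ES n) (x : Fin n) (c : ℕ) : ℕ :=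
  (univ.filter fun f : Fin (c + 1) → Fin n => Function.Injective f ∧ wheel x f ⊆ E).card

/-- relative deviation of the cycle count -/
noncomputable def zeta (E : ES n) (x : Fin n) (c : ℕ) : ℝ := cyc E x c / DD E ^ (c + 1) - 1

/-- near-regularity of degrees and codegrees -/
structure Reg (δ : ℝ) (E : ES n) : Prop where
  simple : Simple E
  deg : ∀ x, |beta E x| ≤ δ
  codeg : ∀ x y, s(x, y) ∈ E → |eta E x y| ≤ δ

/-- the pseudo-randomness property tracked in the first phase -/
structure Good (w : ℝ) (K : ℕ) (E : ES n) : Prop where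
  reg : Reg (w ^ 2) E
  cycle : ∀ x c, 2 ≤ c → c < 2 * K → |zeta E x c| ≤ w

/-- normalised link adjacency operator minus the averaging operator -/
noncomputable def Eop (E : ES n) (x : Fin n) (f : Fin n → ℝ) (y : Fin n) : ℝ :=
  (∑ z ∈ cod E x y, f z) / DD E - (∑ z ∈ nb E x, f z) / (nb E x).card

/-- `ℓ^p` spectral gap of all links -/
def GapP (E : ES n) (p : ℕ) (e : ℝ) : Prop :=
  ∀ (x : Fin n) (f : Fin n → ℝ),
    ∑ y ∈ nb E x, |Eop E x f y| ^ p ≤ e * ∑ y ∈ nb E x, |f y| ^ p

/-- the Lyapunov function -/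
noncomputable def Phi (E : ES n) (p : ℕ) (Λ : ℝ) (ξ : Fin n → Fin n → ℝ) (β : Fin n → ℝ) : ℝ :=
  ∑ x, ∑ y ∈ nb E x, ξ x y ^ p + (Λ ^ p)⁻¹ * dbar E * ∑ x, β x ^ p

/-- the normalised potential of the first phase -/
noncomputable def Pot (p K : ℕ) (Λ w : ℝ) (E : ES n) : ℝ :=
  Λ ^ p * (3 / w ^ 2) ^ p * Phi E p Λ (xi E) (beta E) +
    ∑ x, ∑ c ∈ Ico 2 (2 * K), (zeta E x c / w) ^ p

/-- labelled `(c+1)`-cycles of a graph -/
def cycG {W : Type} [Fintype W] [DecidableEq W] (G : SimpleGraph W) [DecidableRel G.Adj]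
    (c : ℕ) : ℕ :=
  (univ.filter fun f : Fin (c + 1) → W =>
    Function.Injective f ∧ ∀ i, G.Adj (f i) (f (i + 1))).card

/-! ### random order model -/

/-- the triangle `T` is accepted by the greedy process driven by the clocks `ω` -/
def acc (E : ES n) (ω : Finset (Fin n) → ℕ) (T : Finset (Fin n)) : Prop :=
  T ∈ triangles E ∧ ∀ T' ∈ triangles E, 2 ≤ (T ∩ T').card → ω T' < ω T → ¬ acc E ω T'
termination_by ω T

open Classical in
/-- number of edges left by the greedy process driven by the clocks `ω` -/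
noncomputable def final (E : ES n) (ω : Finset (Fin n) → ℕ) : ℕ :=
  (E.filter fun e => ∀ T, acc E ω T → e ∉ T.sym2).card

/-! ### exploration -/

/-- tree recursion: `II Ch M u ν` is the probability, on the tree, that the node `ν` has clock
`< u` and is accepted -/
noncomputable def II {N : Type} (Ch : N → Finset N) (M : ℕ) : ℕ → N → ℝ
  | 0, _ => 0
  | u + 1, ν => II Ch M u ν + (∏ ν' ∈ Ch ν, (1 - II Ch M u ν')) / M

/-- expected number of queries of the key `k` below `ν`, the key of `ν` included -/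
def mu {N K : Type} [DecidableEq K] (key : N → K) (mB : N → K → ℝ) (ν : N) (k : K) : ℝ :=
  (if key ν = k then 1 else 0) + mB ν k

/-- local collision weight of a family of siblings -/
def XX {N K : Type} [Fintype K] [DecidableEq K] [DecidableEq N] (key : N → K) (mB : N → K → ℝ)
    (C : Finset N) : ℝ :=
  ∑ ν ∈ C, mB ν (key ν) + ∑ ν ∈ C, ∑ ν' ∈ C.erase ν, ∑ k, mu key mB ν k * mu key mB ν' k

/-- the triangle of a node -/
def key (ν : Nd n) : Finset (Fin n) := {ν.1, ν.2.1, ν.2.2}

/-- all three edges are present -/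
def valid (E : ES n) (ν : Nd n) : Prop :=
  s(ν.1, ν.2.1) ∈ E ∧ s(ν.1, ν.2.2) ∈ E ∧ s(ν.2.1, ν.2.2) ∈ E

instance (E : ES n) (ν : Nd n) : Decidable (valid E ν) := by unfold valid; infer_instance

/-- children of a node: the other triangles through its two non-parent edges -/
def Ch (E : ES n) (ν : Nd n) : Finset (Nd n) :=
  ((cod E ν.1 ν.2.2).erase ν.2.1).image (fun z => (ν.1, ν.2.2, z)) ∪
    ((cod E ν.2.1 ν.2.2).erase ν.1).image (fun z => (ν.2.1, ν.2.2, z))

/-- the triangles through the edge `xy`, as nodes -/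
def Rt (E : ES n) (x y : Fin n) : Finset (Nd n) := (cod E x y).image fun z => (x, y, z)

/-- bound for the probability of visiting a child with clock `s` -/
noncomputable def vis (D : ℝ) (M : ℕ) (s : ℕ) : ℝ := 3 * M / (M + 2 * D * s)

/-! ### non-backtracking walks of triangles -/

/-- transition matrix on darts -/
def Dmat (E : ES n) : Matrix (Nd n) (Nd n) ℝ := fun d d' =>
  if valid E d ∧ valid E d' ∧ d'.2.2 ≠ d.2.1 ∧
    ((d'.1 = d.1 ∧ d'.2.1 = d.2.2) ∨ (d'.1 = d.2.2 ∧ d'.2.1 = d.1)) then 1 else 0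

/-- number of closed non-backtracking walks of triangles of length `l` -/
noncomputable def Cl (E : ES n) (l : ℕ) : ℝ :=
  ∑ d, ∑ d', (Dmat E ^ l) d d' * if key d = key d' then 1 else 0

/-- weighted count of the continuations, in the complete graph, of a walk that has used the edges
`F` and is at the dart `d`; a walk counts `s ^ (number of edges)` if all its edges are in `E` -/
noncomputable def Psi (s : ℝ) (E : ES n) (T : Finset (Fin n)) : ℕ → Nd n → ES n → ℝ
  | 0, d, F => if key d = T ∧ F ⊆ E then s ^ F.card else 0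
  | j + 1, d, F => ∑ z ∈ univ \ key d,
      (Psi s E T j (d.1, d.2.2, z) (F ∪ {s(d.1, z), s(d.2.2, z)}) +
        Psi s E T j (d.2.2, d.1, z) (F ∪ {s(d.1, z), s(d.2.2, z)}))

/-- weighted count of closed walks -/
noncomputable def ClS (s : ℝ) (E : ES n) (l : ℕ) : ℝ :=
  ∑ d ∈ univ.filter (fun d : Nd n => (key d).card = 3),
    Psi s E (key d) l d {s(d.1, d.2.1), s(d.1, d.2.2), s(d.2.1, d.2.2)}

/-- the test function of the theorem -/
noncomputable def phi (n : ℕ) (e : ℕ) : ℝ :=
  ((e : ℝ) / (n : ℝ) ^ ((3 : ℝ) / 2) - 1 / (2 * Real.sqrt 2)) ^ 2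

/-! ### basic API -/

@[simp] lemma mem_nb {E : ES n} {x y : Fin n} : y ∈ nb E x ↔ s(x, y) ∈ E := by simp [nb]

@[simp] lemma mem_cod {E : ES n} {x y z : Fin n} :
    z ∈ cod E x y ↔ s(x, z) ∈ E ∧ s(y, z) ∈ E := by simp [cod]

lemma cod_comm (E : ES n) (x y : Fin n) : cod E x y = cod E y x := by
  ext z; simp [and_comm]

lemma mem_nb_comm {E : ES n} {x y : Fin n} : y ∈ nb E x ↔ x ∈ nb E y := by
  simp [Sym2.eq_swap]

lemma Simple.ne {E : ES n} (h : Simple E) {x y : Fin n} (hxy : s(x, y) ∈ E) : x ≠ y := by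
  rintro rfl; exact h x hxy

lemma Simple.mono {E E' : ES n} (h : Simple E) (hE : E' ⊆ E) : Simple E' :=
  fun x hx => h x (hE hx)

lemma eta_comm (E : ES n) (x y : Fin n) : eta E x y = eta E y x := by
  rw [eta, eta, cod_comm]

lemma xi_comm (E : ES n) (x y : Fin n) : xi E x y = xi E y x := by
  rw [xi, xi, eta_comm]; ring

/-- double counting over ordered edges -/
lemma sum_nb_comm {M : Type*} [AddCommMonoid M] (E : ES n) (f : Fin n → Fin n → M) :
    ∑ x, ∑ y ∈ nb E x, f x y = ∑ x, ∑ y ∈ nb E x, f y x := by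
  rw [Finset.sum_comm' (t' := univ) (s' := fun y => nb E y)]
  intro x y
  simp [Sym2.eq_swap]

/-- sums over ordered edges -/
lemma sum_nb_eq {E : ES n} (h : Simple E) (g : Sym2 (Fin n) → ℝ) :
    ∑ x, ∑ y ∈ nb E x, g s(x, y) = 2 * ∑ e ∈ E, g e := by
  have h1 : ∑ x, ∑ y ∈ nb E x, g s(x, y) =
      ∑ q ∈ (univ.filter fun q : Fin n × Fin n => s(q.1, q.2) ∈ E), g s(q.1, q.2) := by
    rw [Finset.sum_filter, Fintype.sum_prod_type]
    refine Finset.sum_congr rfl fun x _ => ?_
    rw [nb, Finset.sum_filter]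
  rw [h1, ← Finset.sum_fiberwise_of_maps_to (t := E) (g := fun q : Fin n × Fin n => s(q.1, q.2))
    (fun q hq => (Finset.mem_filter.1 hq).2), Finset.mul_sum]
  refine Finset.sum_congr rfl fun e he => ?_
  induction e using Sym2.ind with
  | _ x y =>
    have hxy := h.ne he
    have : ((univ.filter fun q : Fin n × Fin n => s(q.1, q.2) ∈ E).filter
        fun q => s(q.1, q.2) = s(x, y)) = {(x, y), (y, x)} := by
      ext ⟨a, b⟩
      simp only [mem_filter, mem_univ, true_and, Sym2.eq_iff, mem_insert, mem_singleton,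
        Prod.mk.injEq]
      constructor
      · exact fun h => h.2
      · rintro (⟨rfl, rfl⟩ | ⟨rfl, rfl⟩)
        · exact ⟨he, Or.inl ⟨rfl, rfl⟩⟩
        · exact ⟨Sym2.eq_swap ▸ he, Or.inr ⟨rfl, rfl⟩⟩
    rw [this, Finset.sum_pair (by simp [hxy])]
    simp only [Sym2.eq_swap (a := y)]
    ring

lemma sum_card_nb {E : ES n} (h : Simple E) : ∑ x, ((nb E x).card : ℝ) = 2 * E.card := by
  simpa using sum_nb_eq h fun _ => 1

lemma acc_iff (E : ES n) (ω : Finset (Fin n) → ℕ) (T : Finset (Fin n)) :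
    acc E ω T ↔
      T ∈ triangles E ∧ ∀ T' ∈ triangles E, 2 ≤ (T ∩ T').card → ω T' < ω T → ¬ acc E ω T' := by
  rw [acc]

end Crest.Agent.R30
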