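import Crest.Agent.R30.Count

/-! One-step drift of degrees and codegrees in the triangle removal process. -/

set_option autoImplicit false

namespace Crest.Agent.R30

open Finset Crest.CombinatoricsR.TriangleRemoval
open scoped BigOperators

namespace Drift

variable {n : ℕ}

/-- `norm_step` with the error terms expressed through `δ` -/
lemma norm_step' (k : ℕ) : ∃ C : ℝ, 0 < C ∧
    ∀ (τ : Type) (𝒯 : Finset τ) (Z N ρ h δ : ℝ) (Δ X : τ → ℝ), 𝒯.Nonempty → 0 < N → 0 ≤ ρ →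
      0 < δ → δ ≤ 1 / 2 → ρ ≤ 6 * δ ^ 4 → 1 ≤ δ ^ 4 * N → |Z / N - 1| ≤ 1 → |h| ≤ 10 →
      (∀ T ∈ 𝒯, 0 ≤ Δ T ∧ Δ T ≤ 3) → 𝔼 T ∈ 𝒯, Δ T = ρ * N * h →
      (∀ T ∈ 𝒯, X T = ((Z - Δ T) / (N * (1 - ρ) ^ k) - 1) - (Z / N - 1)) →
      |(𝔼 T ∈ 𝒯, X T) - ρ * (k * (Z / N) - h)| ≤ ρ * (C * δ ^ 2) ∧
      (∀ T ∈ 𝒯, |X T| ≤ C * δ ^ 2) ∧ 𝔼 T ∈ 𝒯, X T ^ 2 ≤ ρ * (C * δ ^ 4) := by
  obtain ⟨C, hC, H⟩ := norm_step k
  refine ⟨66 * C, by positivity, ?_⟩
  intro τ 𝒯 Z N ρ h δ Δ X h𝒯 hN hρ hδ hδ2 hρδ hNδ hZ hh hΔ hE hX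
  have hδ4 : δ ^ 4 ≤ δ ^ 2 := by
    have : δ ^ 2 ≤ 1 := by nlinarith
    nlinarith [sq_nonneg δ, pow_pos hδ 2]
  have hδ16 : δ ^ 4 ≤ 1 / 16 := by
    have : δ ^ 2 ≤ 1 / 4 := by nlinarith
    nlinarith [pow_pos hδ 2]
  have hJ : 3 / N ≤ 3 * δ ^ 4 := by
    rw [div_le_iff₀ hN]; nlinarith
  have hJ0 : 0 ≤ 3 / N := by positivity
  obtain ⟨H1, H2, H3⟩ := H τ 𝒯 Z N ρ 3 h Δ h𝒯 hN hρ (by linarith) hZ hΔ hE
  have e1 : 𝔼 T ∈ 𝒯, X T =
      𝔼 T ∈ 𝒯, (((Z - Δ T) / (N * (1 - ρ) ^ k) - 1) - (Z / N - 1)) :=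
    Finset.expect_congr rfl hX
  have e2 : 𝔼 T ∈ 𝒯, X T ^ 2 =
      𝔼 T ∈ 𝒯, (((Z - Δ T) / (N * (1 - ρ) ^ k) - 1) - (Z / N - 1)) ^ 2 :=
    Finset.expect_congr rfl fun T hT => by rw [hX T hT]
  have hp : 0 < δ ^ 4 := pow_pos hδ 4
  have ha := abs_nonneg h
  refine ⟨?_, ?_, ?_⟩
  · rw [e1]
    refine H1.trans ?_
    have : ρ * (1 + |h|) ≤ 66 * δ ^ 2 := by nlinarith
    calc C * ρ ^ 2 * (1 + |h|) = (C * ρ) * (ρ * (1 + |h|)) := by ring
      _ ≤ (C * ρ) * (66 * δ ^ 2) := by gcongr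
      _ = _ := by ring
  · intro T hT
    rw [hX T hT]
    refine (H2 T hT).trans ?_
    have : ρ + 3 / N ≤ 66 * δ ^ 2 := by nlinarith
    calc C * (ρ + 3 / N) ≤ C * (66 * δ ^ 2) := by gcongr
      _ = _ := by ring
  · rw [e2]
    refine H3.trans ?_
    have h1 : |h| * (3 / N) ≤ 10 * (3 * δ ^ 4) := by gcongr
    have : ρ + |h| * (3 / N) ≤ 66 * δ ^ 4 := by nlinarith
    calc C * (ρ ^ 2 + ρ * |h| * (3 / N)) = (C * ρ) * (ρ + |h| * (3 / N)) := by ring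
      _ ≤ (C * ρ) * (66 * δ ^ 4) := by gcongr
      _ = _ := by ring

lemma card_tri {E : ES n} {T : Finset (Fin n)} (hT : T ∈ triangles E) : T.card = 3 := by
  simp only [triangles, mem_filter, mem_powersetCard] at hT
  exact hT.1.2

lemma loss_bound {A B T : Finset (Fin n)} (hT : T.card = 3) (hBA : B ⊆ A) (hA : A ⊆ B ∪ T) :
    0 ≤ (A.card : ℝ) - B.card ∧ (A.card : ℝ) - B.card ≤ 3 := by
  have h1 := card_le_card hBA
  have h2 := (card_le_card hA).trans (card_union_le _ _)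
  rw [hT] at h2
  have h1' : (B.card : ℝ) ≤ A.card := by exact_mod_cast h1
  have h2' : (A.card : ℝ) ≤ B.card + 3 := by exact_mod_cast h2
  constructor <;> linarith

lemma nb_loss {E : ES n} {T : Finset (Fin n)} (hT : T ∈ triangles E) (x : Fin n) :
    0 ≤ ((nb E x).card : ℝ) - (nb (E \ T.sym2) x).card ∧
      ((nb E x).card : ℝ) - (nb (E \ T.sym2) x).card ≤ 3 := by
  refine loss_bound (card_tri hT) ?_ ?_
  · intro z hz
    simp only [mem_nb, mem_sdiff] at hz ⊢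
    exact hz.1
  · intro z hz
    simp only [mem_nb, mem_sdiff, mem_union, Finset.mk_mem_sym2_iff] at hz ⊢
    tauto

lemma cod_loss {E : ES n} {T : Finset (Fin n)} (hT : T ∈ triangles E) (x y : Fin n) :
    0 ≤ ((cod E x y).card : ℝ) - (cod (E \ T.sym2) x y).card ∧
      ((cod E x y).card : ℝ) - (cod (E \ T.sym2) x y).card ≤ 3 := by
  refine loss_bound (card_tri hT) ?_ ?_
  · intro z hz
    simp only [mem_cod, mem_sdiff] at hz ⊢
    exact ⟨hz.1.1, hz.2.1⟩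
  · intro z hz
    simp only [mem_cod, mem_sdiff, mem_union, Finset.mk_mem_sym2_iff] at hz ⊢
    tauto

lemma hit_single {E : ES n} {e : Sym2 (Fin n)} (he : e ∈ E) : hit E {e} = tdeg E e := by
  unfold hit tdeg
  congr 1
  refine filter_congr fun T _ => ?_
  simp [he]

lemma card_cod {E : ES n} (hD : 0 < DD E) (x y : Fin n) :
    ((cod E x y).card : ℝ) = DD E * (1 + eta E x y) := by
  unfold eta; field_simp; ring

lemma expect_nb_loss {E : ES n} (h : Simple E) (hD : 0 < DD E) (x : Fin n) :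
    𝔼 T ∈ triangles E, (((nb E x).card : ℝ) - (nb (E \ T.sym2) x).card) =
      DD E * ((nb E x).card + ∑ z ∈ nb E x, eta E x z) / (triangles E).card := by
  have key : ∀ E' : ES n, (univ.filter fun z : Fin n => ({s(x, z)} : ES n) ⊆ E') = nb E' x := by
    intro E'; ext z; simp
  have := expect_loss E univ (fun z : Fin n => ({s(x, z)} : ES n))
  simp only [key] at this
  rw [this]
  congr 1
  rw [card_eq_sum_ones (nb E x), Nat.cast_sum, ← sum_add_distrib, mul_sum]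
  refine sum_congr rfl fun z hz => ?_
  rw [mem_nb] at hz
  rw [hit_single hz, tdeg_eq h hz, card_cod hD]
  simp

lemma expect_cod_loss {E : ES n} (h : Simple E) (hD : 0 < DD E) {x y : Fin n}
    (hxy : s(x, y) ∈ E) : ∃ ε : ℝ, 0 ≤ ε ∧ ε ≤ 4 * (cod E x y).card ∧
    𝔼 T ∈ triangles E, (((cod E x y).card : ℝ) - (cod (E \ T.sym2) x y).card) =
      (DD E * (2 * (cod E x y).card + ∑ z ∈ cod E x y, eta E x z + ∑ z ∈ cod E x y, eta E y z) - ε)
        / (triangles E).card := by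
  have key : ∀ E' : ES n,
      (univ.filter fun z : Fin n => ({s(x, z), s(y, z)} : ES n) ⊆ E') = cod E' x y := by
    intro E'; ext z; simp [insert_subset_iff]
  have := expect_loss E univ (fun z : Fin n => ({s(x, z), s(y, z)} : ES n))
  simp only [key] at this
  have hne := h.ne hxy
  have hz : ∀ z ∈ cod E x y,
      0 ≤ DD E * (2 + eta E x z + eta E y z) - (hit E {s(x, z), s(y, z)} : ℝ) ∧
      DD E * (2 + eta E x z + eta E y z) - (hit E {s(x, z), s(y, z)} : ℝ) ≤ 4 := by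
    intro z hz
    rw [mem_cod] at hz
    have hsub : ({s(x, z), s(y, z)} : ES n) ⊆ E := by simp [insert_subset_iff, hz.1, hz.2]
    have hne' : s(x, z) ≠ s(y, z) := by
      intro h'
      rcases Sym2.eq_iff.1 h' with ⟨h1, _⟩ | ⟨h1, h2⟩
      · exact hne h1
      · exact hne (h1.trans h2)
    have h1 := hit_le hsub
    have h2 := le_hit h hsub
    rw [sum_pair hne', tdeg_eq h hz.1, tdeg_eq h hz.2] at h1 h2
    rw [card_pair hne'] at h2
    have h1' : (hit E {s(x, z), s(y, z)} : ℝ) ≤ (cod E x z).card + (cod E y z).card := by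
      exact_mod_cast h1
    have h2' : ((cod E x z).card : ℝ) + (cod E y z).card ≤ hit E {s(x, z), s(y, z)} + 4 := by
      exact_mod_cast h2
    rw [card_cod hD, card_cod hD] at h1' h2'
    constructor <;> linarith
  refine ⟨∑ z ∈ cod E x y, (DD E * (2 + eta E x z + eta E y z) - (hit E {s(x, z), s(y, z)} : ℝ)),
    sum_nonneg fun z hz' => (hz z hz').1, ?_, ?_⟩
  · refine (sum_le_sum fun z hz' => (hz z hz').2).trans ?_
    simp [mul_comm]
  · rw [this]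
    congr 1
    rw [sum_sub_distrib, ← mul_sum, sum_add_distrib, sum_add_distrib]
    simp only [sum_const, nsmul_eq_mul]
    ring

lemma abs_sum_le {s : Finset (Fin n)} {f : Fin n → ℝ} {δ : ℝ} (h : ∀ z ∈ s, |f z| ≤ δ) :
    |∑ z ∈ s, f z| ≤ s.card * δ :=
  (abs_sum_le_sum_abs _ _).trans (by simpa using sum_le_card_nsmul s _ δ h)

lemma alg_deg {β θ η δ : ℝ} (hδ : 0 < δ) (hδ2 : δ ≤ 1 / 2) (hβ : |β| ≤ δ) (hθ : |θ| ≤ δ)
    (hη : |η| ≤ δ) : |(1 + β) * (1 + θ) / (1 + η)| ≤ 10 ∧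
      |(1 + β) - (1 + β) * (1 + θ) / (1 + η) + (θ - η)| ≤ 8 * δ ^ 2 := by
  obtain ⟨b1, b2⟩ := abs_le.1 hβ
  obtain ⟨t1, t2⟩ := abs_le.1 hθ
  obtain ⟨e1, e2⟩ := abs_le.1 hη
  have hpos : 0 < 1 + η := by linarith
  constructor
  · rw [abs_div, abs_of_pos hpos, div_le_iff₀ hpos, abs_mul]
    have h1 : |1 + β| ≤ 3 / 2 := abs_le.2 ⟨by linarith, by linarith⟩
    have h2 : |1 + θ| ≤ 3 / 2 := abs_le.2 ⟨by linarith, by linarith⟩
    have : |1 + β| * |1 + θ| ≤ 3 / 2 * (3 / 2) := by gcongr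
    linarith
  · have : (1 + β) - (1 + β) * (1 + θ) / (1 + η) + (θ - η) = (θ - η) * (η - β) / (1 + η) := by
      field_simp; ring
    rw [this, abs_div, abs_of_pos hpos, div_le_iff₀ hpos, abs_mul]
    have h1 : |θ - η| ≤ 2 * δ := abs_le.2 ⟨by linarith, by linarith⟩
    have h2 : |η - β| ≤ 2 * δ := abs_le.2 ⟨by linarith, by linarith⟩
    have : |θ - η| * |η - β| ≤ (2 * δ) * (2 * δ) := by gcongr
    nlinarith [sq_nonneg δ]

lemma alg_cod {η e a b ε δ : ℝ} (hδ : 0 < δ) (hδ2 : δ ≤ 1 / 2) (hη : |η| ≤ δ) (he : |e| ≤ δ)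
    (ha : |a| ≤ 3 / 2 * δ) (hb : |b| ≤ 3 / 2 * δ) (hε0 : 0 ≤ ε) (hε : ε ≤ 6 * δ ^ 4) :
    |(2 * (1 + η) + a + b - ε) / (1 + e)| ≤ 10 ∧
      |2 * (1 + η) - (2 * (1 + η) + a + b - ε) / (1 + e) - (2 * e - a - b)| ≤ 26 * δ ^ 2 := by
  obtain ⟨h1, h2⟩ := abs_le.1 hη
  obtain ⟨e1, e2⟩ := abs_le.1 he
  obtain ⟨a1, a2⟩ := abs_le.1 ha
  obtain ⟨b1, b2⟩ := abs_le.1 hb
  have hpos : 0 < 1 + e := by linarith
  have hδ4 : δ ^ 4 ≤ δ ^ 2 := by
    have : δ ^ 2 ≤ 1 := by nlinarith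
    nlinarith [sq_nonneg δ, pow_pos hδ 2]
  have hδ16 : δ ^ 4 ≤ 1 / 16 := by
    have : δ ^ 2 ≤ 1 / 4 := by nlinarith
    nlinarith [pow_pos hδ 2]
  constructor
  · rw [abs_div, abs_of_pos hpos, div_le_iff₀ hpos]
    exact abs_le.2 ⟨by linarith, by linarith⟩
  · have : 2 * (1 + η) - (2 * (1 + η) + a + b - ε) / (1 + e) - (2 * e - a - b) =
        (e * (2 * η - 2 * e + a + b) + ε) / (1 + e) := by
      field_simp; ring
    rw [this, abs_div, abs_of_pos hpos, div_le_iff₀ hpos]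
    have h3 : |2 * η - 2 * e + a + b| ≤ 7 * δ := abs_le.2 ⟨by linarith, by linarith⟩
    have h4 : |e * (2 * η - 2 * e + a + b)| ≤ δ * (7 * δ) := by
      rw [abs_mul]; gcongr
    have h5 : |e * (2 * η - 2 * e + a + b) + ε| ≤ δ * (7 * δ) + ε :=
      (abs_add_le _ _).trans (by rw [abs_of_nonneg hε0]; linarith)
    nlinarith [sq_nonneg δ]

lemma alg_e1 {D d c β θ η : ℝ} (hD : 0 < D) (hc : 0 < c) (hη : 0 < 1 + η) :
    D * (d * (1 + β) + d * (1 + β) * θ) / (c * D * (1 + η) / 3) =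
      3 / c * d * ((1 + β) * (1 + θ) / (1 + η)) := by
  field_simp

lemma alg_e2 {D c β a b ε η : ℝ} (hD : 0 < D) (hc : 0 < c) (hη : 0 < 1 + η) :
    (D * (2 * (D * (1 + β)) + D * a + D * b) - ε) / (c * D * (1 + η) / 3) =
      3 / c * D * ((2 * (1 + β) + a + b - ε / D ^ 2) / (1 + η)) := by
  field_simp

/-- the common numerical facts -/
lemma basic {E : ES n} {δ : ℝ} (hE : Reg δ E) (hδ : 0 < δ) (hδ2 : δ ≤ 1 / 2)
    (hD : 1 ≤ δ ^ 4 * DD E) : 0 < DD E ∧ 0 < dbar E ∧ (0 : ℝ) < E.card ∧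
      3 / (E.card : ℝ) ≤ 6 * δ ^ 4 ∧ 1 ≤ δ ^ 4 * dbar E ∧ |etabar E| ≤ δ ∧
      (triangles E).Nonempty ∧
      ((triangles E).card : ℝ) = E.card * DD E * (1 + etabar E) / 3 := by
  have hp : 0 < δ ^ 4 := pow_pos hδ 4
  have hD0 : 0 < DD E := by
    by_contra h
    push Not at h
    nlinarith
  have hle := DD_le_dbar hE.simple
  have hne := triangles_nonempty hE (by linarith) hD0
  have hc := card_triangles hE.simple hD0
  have hcard : (0 : ℝ) < E.card := by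
    have h1 : (0 : ℝ) < (triangles E).card := by exact_mod_cast hne.card_pos
    rcases (Nat.cast_nonneg (α := ℝ) E.card).eq_or_lt with h | h
    · rw [← h] at hc; simp at hc; simp [hc] at h1
    · exact h
  refine ⟨hD0, by linarith, hcard, (rho_le hE.simple hD0).trans ?_, by nlinarith,
    abs_etabar_le hE hD0, hne, by linarith⟩
  rw [div_le_iff₀ hD0]; nlinarith

lemma drift_deg : ∃ C : ℝ, 0 < C ∧ ∀ (n : ℕ) (E : ES n) (δ : ℝ), Reg δ E → 0 < δ → δ ≤ 1 / 2 →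
    1 ≤ δ ^ 4 * DD E → ∀ x,
    |(𝔼 T ∈ triangles E, (beta (E \ T.sym2) x - beta E x)) +
      3 / E.card * ((∑ z ∈ nb E x, eta E x z) / (nb E x).card - etabar E)| ≤
        3 / E.card * (C * δ ^ 2) ∧
    (∀ T ∈ triangles E, |beta (E \ T.sym2) x - beta E x| ≤ C * δ ^ 2) ∧
      𝔼 T ∈ triangles E, (beta (E \ T.sym2) x - beta E x) ^ 2 ≤ 3 / E.card * (C * δ ^ 4) := by
  obtain ⟨C, hC, H⟩ := norm_step' 1
  refine ⟨C + 8, by positivity, fun n E δ hE hδ hδ2 hD x => ?_⟩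
  obtain ⟨hD0, hd0, hc0, hρ, hdδ, hη, hne, htri⟩ := basic hE hδ hδ2 hD
  have hβ := hE.deg x
  have hρ0 : 0 ≤ 3 / (E.card : ℝ) := by positivity
  have hZ : ((nb E x).card : ℝ) = dbar E * (1 + beta E x) := by
    unfold beta; field_simp; ring
  have hβ1 : 0 < 1 + beta E x := by linarith [(abs_le.1 hβ).1]
  have hη1 : 0 < 1 + etabar E := by linarith [(abs_le.1 hη).1]
  have hZ0 : (0 : ℝ) < (nb E x).card := by rw [hZ]; positivity
  set θ := (∑ z ∈ nb E x, eta E x z) / (nb E x).card with hθdef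
  have hθ : |θ| ≤ δ := by
    rw [hθdef, abs_div, abs_of_pos hZ0, div_le_iff₀ hZ0, mul_comm]
    exact abs_sum_le fun z hz => hE.codeg x z (mem_nb.1 hz)
  have hS : ∑ z ∈ nb E x, eta E x z = (nb E x).card * θ := by
    rw [hθdef]; field_simp
  obtain ⟨hh, herr⟩ := alg_deg hδ hδ2 hβ hθ hη
  obtain ⟨H1, H2, H3⟩ := H _ (triangles E) (nb E x).card (dbar E) (3 / E.card)
    ((1 + beta E x) * (1 + θ) / (1 + etabar E)) δ
    (fun T => ((nb E x).card : ℝ) - (nb (E \ T.sym2) x).card)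
    (fun T => beta (E \ T.sym2) x - beta E x) hne hd0 hρ0 hδ hδ2 hρ hdδ
    (hβ.trans (by linarith)) hh (fun T hT => nb_loss hT x)
    (by rw [expect_nb_loss hE.simple hD0, htri, hS, hZ]; exact alg_e1 hD0 hc0 hη1)
    (fun T hT => by
      simp only [beta, dbar_sdiff hE.simple hT, pow_one, sub_sub_cancel])
  have hp2 : 0 < δ ^ 2 := pow_pos hδ 2
  have hp4 : 0 < δ ^ 4 := pow_pos hδ 4
  refine ⟨?_, fun T hT => (H2 T hT).trans (by nlinarith), H3.trans ?_⟩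
  · have hZN : ((nb E x).card : ℝ) / dbar E = 1 + beta E x := by unfold beta; ring
    rw [hZN] at H1
    simp only [Nat.cast_one, one_mul] at H1
    set ρ := 3 / (E.card : ℝ)
    set m := 𝔼 T ∈ triangles E, (beta (E \ T.sym2) x - beta E x)
    have : m + ρ * (θ - etabar E) =
        (m - ρ * (1 + beta E x - (1 + beta E x) * (1 + θ) / (1 + etabar E))) +
          ρ * (1 + beta E x - (1 + beta E x) * (1 + θ) / (1 + etabar E) + (θ - etabar E)) := by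
      ring
    rw [this]
    refine (abs_add_le _ _).trans ?_
    rw [abs_mul ρ, abs_of_nonneg hρ0]
    have : ρ * |1 + beta E x - (1 + beta E x) * (1 + θ) / (1 + etabar E) + (θ - etabar E)| ≤
        ρ * (8 * δ ^ 2) := mul_le_mul_of_nonneg_left herr hρ0
    nlinarith
  · exact mul_le_mul_of_nonneg_left (by nlinarith) hρ0

lemma drift_cod : ∃ C : ℝ, 0 < C ∧ ∀ (n : ℕ) (E : ES n) (δ : ℝ), Reg δ E → 0 < δ → δ ≤ 1 / 2 →
    1 ≤ δ ^ 4 * DD E → ∀ x y, s(x, y) ∈ E →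
    |(𝔼 T ∈ triangles E, (eta (E \ T.sym2) x y - eta E x y)) -
      3 / E.card * (2 * etabar E - (∑ z ∈ cod E x y, eta E x z) / DD E -
        (∑ z ∈ cod E x y, eta E y z) / DD E)| ≤ 3 / E.card * (C * δ ^ 2) ∧
    (∀ T ∈ triangles E, |eta (E \ T.sym2) x y - eta E x y| ≤ C * δ ^ 2) ∧
      𝔼 T ∈ triangles E, (eta (E \ T.sym2) x y - eta E x y) ^ 2 ≤ 3 / E.card * (C * δ ^ 4) := by
  obtain ⟨C, hC, H⟩ := norm_step' 2
  refine ⟨C + 26, by positivity, fun n E δ hE hδ hδ2 hD x y hxy => ?_⟩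
  obtain ⟨hD0, hd0, hc0, hρ, hdδ, hη, hne, htri⟩ := basic hE hδ hδ2 hD
  have hβ := hE.codeg x y hxy
  have hρ0 : 0 ≤ 3 / (E.card : ℝ) := by positivity
  have hZ := card_cod hD0 x y
  have hη1 : 0 < 1 + etabar E := by linarith [(abs_le.1 hη).1]
  have hZle : ((cod E x y).card : ℝ) ≤ 3 / 2 * DD E := by
    rw [hZ]; nlinarith [(abs_le.1 hβ).2]
  obtain ⟨ε, hε0, hε, hexp⟩ := expect_cod_loss hE.simple hD0 hxy
  have hab : ∀ f : Fin n → ℝ, (∀ z ∈ cod E x y, |f z| ≤ δ) →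
      |(∑ z ∈ cod E x y, f z) / DD E| ≤ 3 / 2 * δ := by
    intro f hf
    rw [abs_div, abs_of_pos hD0, div_le_iff₀ hD0]
    refine (abs_sum_le hf).trans ?_
    nlinarith
  set a := (∑ z ∈ cod E x y, eta E x z) / DD E with hadef
  set b := (∑ z ∈ cod E x y, eta E y z) / DD E with hbdef
  have ha : |a| ≤ 3 / 2 * δ := hab _ fun z hz => hE.codeg x z (mem_cod.1 hz).1
  have hb : |b| ≤ 3 / 2 * δ := hab _ fun z hz => hE.codeg y z (mem_cod.1 hz).2
  have hSa : ∑ z ∈ cod E x y, eta E x z = DD E * a := by rw [hadef]; field_simp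
  have hSb : ∑ z ∈ cod E x y, eta E y z = DD E * b := by rw [hbdef]; field_simp
  have hε' : ε / DD E ^ 2 ≤ 6 * δ ^ 4 := by
    rw [div_le_iff₀ (by positivity)]
    nlinarith
  obtain ⟨hh, herr⟩ := alg_cod hδ hδ2 hβ hη ha hb (by positivity : 0 ≤ ε / DD E ^ 2) hε'
  obtain ⟨H1, H2, H3⟩ := H _ (triangles E) (cod E x y).card (DD E) (3 / E.card)
    ((2 * (1 + eta E x y) + a + b - ε / DD E ^ 2) / (1 + etabar E)) δ
    (fun T => ((cod E x y).card : ℝ) - (cod (E \ T.sym2) x y).card)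
    (fun T => eta (E \ T.sym2) x y - eta E x y) hne hD0 hρ0 hδ hδ2 hρ hD
    (hβ.trans (by linarith)) hh (fun T hT => cod_loss hT x y)
    (by rw [hexp, htri, hSa, hSb, hZ]; exact alg_e2 hD0 hc0 hη1)
    (fun T hT => by
      simp only [eta, DD_sdiff hE.simple hT, sub_sub_cancel])
  have hp2 : 0 < δ ^ 2 := pow_pos hδ 2
  have hp4 : 0 < δ ^ 4 := pow_pos hδ 4
  refine ⟨?_, fun T hT => (H2 T hT).trans (by nlinarith), H3.trans ?_⟩
  · have hZN : ((cod E x y).card : ℝ) / DD E = 1 + eta E x y := by unfold eta; ring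
    rw [hZN] at H1
    simp only [Nat.cast_ofNat] at H1
    set ρ := 3 / (E.card : ℝ)
    set m := 𝔼 T ∈ triangles E, (eta (E \ T.sym2) x y - eta E x y)
    set h := (2 * (1 + eta E x y) + a + b - ε / DD E ^ 2) / (1 + etabar E)
    have : m - ρ * (2 * etabar E - a - b) =
        (m - ρ * (2 * (1 + eta E x y) - h)) +
          ρ * (2 * (1 + eta E x y) - h - (2 * etabar E - a - b)) := by
      ring
    rw [this]
    refine (abs_add_le _ _).trans ?_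
    rw [abs_mul ρ, abs_of_nonneg hρ0]
    have : ρ * |2 * (1 + eta E x y) - h - (2 * etabar E - a - b)| ≤ ρ * (26 * δ ^ 2) :=
      mul_le_mul_of_nonneg_left herr hρ0
    nlinarith
  · exact mul_le_mul_of_nonneg_left (by nlinarith) hρ0

end Drift

open Drift in
theorem drift_xi : ∃ C : ℝ, 0 < C ∧ ∀ (n : ℕ) (E : ES n) (δ : ℝ), Reg δ E → 0 < δ → C * δ ≤ 1 →
    1 ≤ δ ^ 4 * DD E →
    (∀ x y, s(x, y) ∈ E → |(𝔼 T ∈ triangles E, (xi (E \ T.sym2) x y - xi E x y)) +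
      3 / E.card * (Eop E x (eta E x) y + Eop E y (eta E y) x)| ≤ 3 / E.card * (C * δ ^ 2)) ∧
    (∀ x, |(𝔼 T ∈ triangles E, (beta (E \ T.sym2) x - beta E x)) +
      3 / E.card * ((∑ z ∈ nb E x, eta E x z) / (nb E x).card - etabar E)| ≤
        3 / E.card * (C * δ ^ 2)) ∧
    (∀ x y, s(x, y) ∈ E → (∀ T ∈ triangles E, |xi (E \ T.sym2) x y - xi E x y| ≤ C * δ ^ 2) ∧
      𝔼 T ∈ triangles E, (xi (E \ T.sym2) x y - xi E x y) ^ 2 ≤ 3 / E.card * (C * δ ^ 2) ^ 2) ∧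
    (∀ x, (∀ T ∈ triangles E, |beta (E \ T.sym2) x - beta E x| ≤ C * δ ^ 2) ∧
      𝔼 T ∈ triangles E, (beta (E \ T.sym2) x - beta E x) ^ 2 ≤
        3 / E.card * (C * δ ^ 2) ^ 2) := by
  obtain ⟨C₁, hC₁, H₁⟩ := drift_deg
  obtain ⟨C₂, hC₂, H₂⟩ := drift_cod
  refine ⟨2 * C₁ + C₂ + 3, by positivity, fun n E δ hE hδ hCδ hD => ?_⟩
  have hδ2 : δ ≤ 1 / 2 := by nlinarith
  have hρ0 : 0 ≤ 3 / (E.card : ℝ) := by positivity
  have hp2 : 0 < δ ^ 2 := pow_pos hδ 2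
  have hp4 : 0 < δ ^ 4 := pow_pos hδ 4
  have G₁ := H₁ n E δ hE hδ hδ2 hD
  have G₂ := H₂ n E δ hE hδ hδ2 hD
  have hxi : ∀ (T : Finset (Fin n)) x y, xi (E \ T.sym2) x y - xi E x y =
      (eta (E \ T.sym2) x y - eta E x y) - (beta (E \ T.sym2) x - beta E x) -
        (beta (E \ T.sym2) y - beta E y) := fun T x y => by unfold xi; ring
  have hsq : 3 * ((2 * C₁ + C₂) * δ ^ 4) ≤ ((2 * C₁ + C₂ + 3) * δ ^ 2) ^ 2 := by
    have : 3 * (2 * C₁ + C₂) ≤ (2 * C₁ + C₂ + 3) ^ 2 := by nlinarith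
    nlinarith
  refine ⟨fun x y hxy => ?_, fun x => (G₁ x).1.trans ?_, fun x y hxy => ⟨fun T hT => ?_, ?_⟩,
    fun x => ⟨fun T hT => ((G₁ x).2.1 T hT).trans (by nlinarith), (G₁ x).2.2.trans ?_⟩⟩
  · simp only [hxi]
    rw [expect_sub_distrib, expect_sub_distrib (triangles E)
      (fun T : Finset (Fin n) => eta (E \ T.sym2) x y - eta E x y)]
    have h1 := abs_le.1 (G₁ x).1
    have h2 := abs_le.1 (G₁ y).1
    have h3 := abs_le.1 (G₂ x y hxy).1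
    unfold Eop
    rw [cod_comm E y x]
    have h4 : 0 ≤ 3 / (E.card : ℝ) * δ ^ 2 := by positivity
    refine abs_le.2 ⟨?_, ?_⟩ <;> nlinarith [h1.1, h1.2, h2.1, h2.2, h3.1, h3.2]
  · exact mul_le_mul_of_nonneg_left (by nlinarith) hρ0
  · rw [hxi]
    have h1 := abs_le.1 ((G₁ x).2.1 T hT)
    have h2 := abs_le.1 ((G₁ y).2.1 T hT)
    have h3 := abs_le.1 ((G₂ x y hxy).2.1 T hT)
    refine abs_le.2 ⟨?_, ?_⟩ <;> nlinarith [h1.1, h1.2, h2.1, h2.2, h3.1, h3.2]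
  · have h1 := (G₁ x).2.2
    have h2 := (G₁ y).2.2
    have h3 := (G₂ x y hxy).2.2
    have : 𝔼 T ∈ triangles E, (xi (E \ T.sym2) x y - xi E x y) ^ 2 ≤
        𝔼 T ∈ triangles E, 3 * ((eta (E \ T.sym2) x y - eta E x y) ^ 2 +
          (beta (E \ T.sym2) x - beta E x) ^ 2 + (beta (E \ T.sym2) y - beta E y) ^ 2) := by
      refine expect_le_expect fun T _ => ?_
      rw [hxi]
      generalize eta (E \ T.sym2) x y - eta E x y = a
      generalize beta (E \ T.sym2) x - beta E x = b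
      generalize beta (E \ T.sym2) y - beta E y = c
      nlinarith [sq_nonneg (a + b), sq_nonneg (a + c), sq_nonneg (b - c)]
    refine this.trans ?_
    rw [← mul_expect, expect_add_distrib, expect_add_distrib]
    have := mul_le_mul_of_nonneg_left hsq hρ0
    nlinarith
  · refine mul_le_mul_of_nonneg_left (le_trans ?_ hsq) hρ0
    nlinarith [mul_pos hC₁ hp4, mul_pos hC₂ hp4]

end Crest.Agent.R30
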