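import Crest.Agent.R30.Count

/-! One-step drift of the cycle counts in the links. -/

set_option autoImplicit false

namespace Crest.Agent.R30

open Finset Crest.CombinatoricsR.TriangleRemoval
open scoped BigOperators

namespace DriftCyc

variable {n : ℕ}

lemma wheel_subset {c : ℕ} {E : ES n} {x : Fin n} {f : Fin (c + 1) → Fin n} :
    wheel x f ⊆ E ↔ (∀ i, s(x, f i) ∈ E) ∧ ∀ i, s(f i, f (i + 1)) ∈ E := by
  simp only [wheel, union_subset_iff, image_subset_iff, mem_univ, forall_true_left]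

lemma card_wheel {c : ℕ} (hc : 2 ≤ c) {E : ES n} (h : Simple E) {x : Fin n}
    {f : Fin (c + 1) → Fin n} (hf : Function.Injective f) (hw : wheel x f ⊆ E) :
    (wheel x f).card = 2 * (c + 1) := by
  have hx : ∀ i, x ≠ f i := fun i => h.ne ((wheel_subset.1 hw).1 i)
  rw [wheel, card_union_of_disjoint, card_image_of_injective, card_image_of_injective]
  · simp only [card_univ, Fintype.card_fin]; ring
  · intro i j hij
    simp only [Sym2.eq_iff] at hij
    rcases hij with ⟨h1, -⟩ | ⟨h1, h2⟩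
    · exact hf h1
    · exfalso
      have e1 := hf h1
      have e2 := hf h2
      rw [e1, add_assoc, add_eq_left] at e2
      have e3 := congrArg Fin.val e2
      obtain ⟨k, rfl⟩ : ∃ k, c = k + 2 := ⟨c - 2, by omega⟩
      simp [Fin.val_add, Nat.mod_eq_of_lt] at e3
  · intro i j hij
    exact hf (Sym2.congr_right.1 hij)
  · rw [disjoint_left]
    intro e he1 he2
    simp only [mem_image, mem_univ, true_and] at he1 he2
    obtain ⟨i, rfl⟩ := he1
    obtain ⟨j, hj⟩ := he2
    simp only [Sym2.eq_iff] at hj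
    rcases hj with ⟨h1, -⟩ | ⟨-, h2⟩
    · exact hx _ h1.symm
    · exact hx _ h2.symm

/-- paths in the link of `x` with a given starting point -/
def paths (E : ES n) (x : Fin n) (m : ℕ) (v : Fin n) : Finset (Fin (m + 1) → Fin n) :=
  univ.filter fun g => g 0 = v ∧ (∀ i, s(x, g i) ∈ E) ∧
    ∀ i : Fin m, s(g i.castSucc, g i.succ) ∈ E

lemma card_paths (E : ES n) (x : Fin n) (B : ℝ) (hB0 : 0 ≤ B)
    (hB : ∀ y, s(x, y) ∈ E → ((cod E x y).card : ℝ) ≤ B) (m : ℕ) (v : Fin n) :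
    ((paths E x m v).card : ℝ) ≤ B ^ m := by
  induction m generalizing v with
  | zero =>
    rw [pow_zero]
    have : (paths E x 0 v).card ≤ 1 := by
      rw [card_le_one]
      intro a ha b hb
      simp only [paths, mem_filter] at ha hb
      funext i
      rw [Fin.fin_one_eq_zero i, ha.2.1, hb.2.1]
    exact_mod_cast this
  | succ m ih =>
    by_cases hv : s(x, v) ∈ E
    · have h1 : (paths E x (m + 1) v).card ≤ ((cod E x v).biUnion fun w => paths E x m w).card := by
        apply card_le_card_of_injOn (fun g => Fin.tail g)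
        · intro g hg
          simp only [paths, coe_filter, mem_univ, true_and, Set.mem_ofPred_eq] at hg
          obtain ⟨h0, h1, h2⟩ := hg
          simp only [coe_biUnion, Set.mem_iUnion, mem_coe]
          refine ⟨g 1, ?_, ?_⟩
          · rw [mem_cod]
            refine ⟨h1 1, ?_⟩
            have := h2 0
            rwa [Fin.castSucc_zero, h0] at this
          · simp only [paths, mem_filter, mem_univ, true_and]
            exact ⟨rfl, fun i => h1 _, fun i => h2 i.succ⟩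
        · intro g hg g' hg' hh
          simp only [paths, coe_filter, mem_univ, true_and, Set.mem_ofPred_eq] at hg hg'
          rw [← Fin.cons_self_tail g, ← Fin.cons_self_tail g', hg.1, hg'.1]
          exact congrArg _ hh
      have h2 : (((cod E x v).biUnion fun w => paths E x m w).card : ℝ) ≤
          ∑ w ∈ cod E x v, ((paths E x m w).card : ℝ) := by
        exact_mod_cast card_biUnion_le
      calc ((paths E x (m + 1) v).card : ℝ) ≤ _ := Nat.cast_le.2 h1
        _ ≤ _ := h2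
        _ ≤ ∑ w ∈ cod E x v, B ^ m := sum_le_sum fun w _ => ih w
        _ = (cod E x v).card * B ^ m := by rw [sum_const, nsmul_eq_mul]
        _ ≤ B * B ^ m := by gcongr; exact hB v hv
        _ = B ^ (m + 1) := by ring
    · have : paths E x (m + 1) v = ∅ := by
        rw [paths, filter_eq_empty_iff]
        rintro g - ⟨h0, h1, -⟩
        exact hv (h0 ▸ h1 0)
      rw [this, card_empty, Nat.cast_zero]
      positivity

lemma card_fix (E : ES n) (x : Fin n) (c : ℕ) (i : Fin (c + 1)) (v : Fin n) :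
    (univ.filter fun f : Fin (c + 1) → Fin n => wheel x f ⊆ E ∧ f i = v).card ≤
      (paths E x c v).card := by
  apply card_le_card_of_injOn (fun f j => f (i + j))
  · intro f hf
    simp only [coe_filter, mem_univ, true_and, Set.mem_ofPred_eq, wheel_subset] at hf
    simp only [paths, coe_filter, mem_univ, true_and, Set.mem_ofPred_eq, add_zero]
    refine ⟨hf.2, fun j => hf.1.1 _, fun j => ?_⟩
    rw [← Fin.coeSucc_eq_succ, ← add_assoc]
    exact hf.1.2 _
  · intro f _ g _ h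
    funext j
    have := congrFun h (j - i)
    simpa using this

lemma loss_le (E : ES n) (x : Fin n) (B : ℝ) (hB0 : 0 ≤ B)
    (hB : ∀ y, s(x, y) ∈ E → ((cod E x y).card : ℝ) ≤ B) (c : ℕ) {T : Finset (Fin n)}
    (hT : T ∈ triangles E) :
    0 ≤ (cyc E x c : ℝ) - cyc (E \ T.sym2) x c ∧
      (cyc E x c : ℝ) - cyc (E \ T.sym2) x c ≤ 3 * (c + 1) * B ^ c := by
  constructor
  · rw [sub_nonneg, Nat.cast_le]
    apply card_le_card
    intro f hf
    simp only [mem_filter] at hf ⊢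
    exact ⟨hf.1, hf.2.1, hf.2.2.trans sdiff_subset⟩
  · have hT3 : T.card = 3 := by
      simp only [triangles, mem_filter, mem_powersetCard] at hT
      exact hT.1.2
    have h1 : (univ.filter fun f : Fin (c + 1) → Fin n => Function.Injective f ∧ wheel x f ⊆ E) ⊆
        (univ.filter fun f : Fin (c + 1) → Fin n =>
          Function.Injective f ∧ wheel x f ⊆ E \ T.sym2) ∪
        (univ ×ˢ T).biUnion fun q : Fin (c + 1) × Fin n =>
          univ.filter fun f : Fin (c + 1) → Fin n => wheel x f ⊆ E ∧ f q.1 = q.2 := by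
      intro f hf
      simp only [mem_filter, mem_univ, true_and, mem_union, mem_biUnion, mem_product] at hf ⊢
      by_cases h : ∃ i, f i ∈ T
      · obtain ⟨i, hi⟩ := h
        exact Or.inr ⟨(i, f i), hi, hf.2, rfl⟩
      · push Not at h
        refine Or.inl ⟨hf.1, ?_⟩
        have h2 := wheel_subset.1 hf.2
        rw [wheel_subset]
        simp only [mem_sdiff, mk_mem_sym2_iff]
        exact ⟨fun i => ⟨h2.1 i, fun h3 => h i h3.2⟩, fun i => ⟨h2.2 i, fun h3 => h i h3.1⟩⟩
    have h2 := (card_le_card h1).trans ((card_union_le _ _).trans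
      (Nat.add_le_add_left card_biUnion_le _))
    have h3 : (cyc E x c : ℝ) ≤ cyc (E \ T.sym2) x c + ∑ q ∈ (univ ×ˢ T : Finset (Fin (c + 1) × Fin n)),
        ((univ.filter fun f : Fin (c + 1) → Fin n => wheel x f ⊆ E ∧ f q.1 = q.2).card : ℝ) := by
      exact_mod_cast h2
    have h4 : ∑ q ∈ (univ ×ˢ T : Finset (Fin (c + 1) × Fin n)),
        ((univ.filter fun f : Fin (c + 1) → Fin n => wheel x f ⊆ E ∧ f q.1 = q.2).card : ℝ) ≤
        ∑ q ∈ (univ ×ˢ T : Finset (Fin (c + 1) × Fin n)), B ^ c :=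
      sum_le_sum fun q _ => (Nat.cast_le.2 (card_fix E x c q.1 q.2)).trans
        (card_paths E x B hB0 hB c q.2)
    rw [sum_const, card_product, card_univ, Fintype.card_fin, hT3, nsmul_eq_mul] at h4
    push_cast at h4
    linarith

lemma abs_cod_sub {E : ES n} {δ : ℝ} (h : Reg δ E) (hD : 0 < DD E) {x y : Fin n}
    (hxy : s(x, y) ∈ E) : |((cod E x y).card : ℝ) - DD E| ≤ δ * DD E := by
  have h1 := h.codeg x y hxy
  have h2 : ((cod E x y).card : ℝ) - DD E = eta E x y * DD E := by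
    rw [eta]; field_simp
  rw [h2, abs_mul, abs_of_pos hD]
  gcongr

lemma abs_hit_sub {E F : ES n} {δ : ℝ} (h : Reg δ E) (hD : 0 < DD E) (hF : F ⊆ E) :
    |(hit E F : ℝ) - F.card * DD E| ≤ F.card * (δ * DD E) + (F.card : ℝ) ^ 2 := by
  have h1 : ∀ e ∈ F, |(tdeg E e : ℝ) - DD E| ≤ δ * DD E := by
    intro e he
    induction e using Sym2.ind with
    | _ x y =>
      rw [tdeg_eq h.simple (hF he)]
      exact abs_cod_sub h hD (hF he)
  have h2 : |∑ e ∈ F, (tdeg E e : ℝ) - F.card * DD E| ≤ F.card * (δ * DD E) := by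
    have : ∑ e ∈ F, (tdeg E e : ℝ) - F.card * DD E = ∑ e ∈ F, ((tdeg E e : ℝ) - DD E) := by
      rw [sum_sub_distrib, sum_const, nsmul_eq_mul]
    rw [this]
    refine (abs_sum_le_sum_abs _ _).trans ((sum_le_sum h1).trans ?_)
    rw [sum_const, nsmul_eq_mul]
  have h3 : (hit E F : ℝ) ≤ ∑ e ∈ F, (tdeg E e : ℝ) := by exact_mod_cast hit_le hF
  have h4 : ∑ e ∈ F, (tdeg E e : ℝ) ≤ hit E F + (F.card : ℝ) ^ 2 := by
    exact_mod_cast le_hit h.simple hF
  rw [abs_le] at h2 ⊢
  constructor <;> nlinarith [sq_nonneg (F.card : ℝ)]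

end DriftCyc

set_option maxHeartbeats 1600000 in
open DriftCyc in
theorem drift_zeta (c : ℕ) (hc : 2 ≤ c) : ∃ C : ℝ, 0 < C ∧
    ∀ (n : ℕ) (E : ES n) (δ : ℝ) (x : Fin n), Reg δ E → 0 < δ → C * δ ≤ 1 → 1 ≤ δ ^ 4 * DD E →
      |zeta E x c| ≤ 1 →
      |𝔼 T ∈ triangles E, (zeta (E \ T.sym2) x c - zeta E x c)| ≤ 3 / E.card * (C * δ) ∧
      (∀ T ∈ triangles E, |zeta (E \ T.sym2) x c - zeta E x c| ≤ C * δ ^ 2) ∧
      𝔼 T ∈ triangles E, (zeta (E \ T.sym2) x c - zeta E x c) ^ 2 ≤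
        3 / E.card * (C * δ ^ 2) ^ 2 := by
  obtain ⟨C₀, hC₀, hstep⟩ := norm_step (2 * (c + 1))
  set k : ℝ := ((2 * (c + 1) : ℕ) : ℝ) with hk
  have hk0 : 0 ≤ k := Nat.cast_nonneg _
  set K1 : ℝ := 8 * k + 4 * k ^ 2 with hK1
  set K2 : ℝ := 2 * k + K1 with hK2
  set K3 : ℝ := 3 * (c + 1) * 2 ^ c with hK3
  have hK10 : 0 ≤ K1 := by positivity
  have hK20 : 0 ≤ K2 := by positivity
  have hK30 : 0 ≤ K3 := by positivity
  have hA : 0 ≤ 6 * C₀ * (1 + K2) := by positivity
  have hB : 0 ≤ C₀ * (6 + K3) := by positivity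
  have hB' : 0 ≤ C₀ * (6 + K2 * K3) := by positivity
  set C : ℝ := 2 + K1 + 6 * C₀ * (1 + K2) + C₀ * (6 + K3) + C₀ * (6 + K2 * K3) with hC
  refine ⟨C, by positivity, fun n E δ x hreg hδ hCδ hD4 hz => ?_⟩
  have hC2 : 2 ≤ C := by linarith
  have hCa : 6 * C₀ * (1 + K2) + K1 ≤ C := by linarith
  have hCb : C₀ * (6 + K3) ≤ C := by linarith
  have hCc : C₀ * (6 + K2 * K3) ≤ C ^ 2 := by nlinarith
  clear_value C K1 K2 K3
  clear hC hA hB hB'
  have hδ2 : δ ≤ 1 / 2 := by nlinarith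
  have hδ4 : 0 < δ ^ 4 := by positivity
  have hD : 0 < DD E := by
    by_contra h
    push Not at h
    nlinarith
  set D := DD E with hDdef
  have hδ22 : δ ^ 2 ≤ 1 / 4 := by nlinarith
  have hδ42 : δ ^ 4 ≤ δ ^ 2 / 4 := by nlinarith [sq_nonneg δ]
  have hδ21 : δ ^ 2 ≤ δ := by nlinarith
  have hδ41 : δ ^ 4 ≤ δ := by nlinarith
  have hDinv : 1 / D ≤ δ ^ 4 := by rw [div_le_iff₀ hD]; exact hD4
  set ρ : ℝ := 3 / E.card with hρ
  have hρ0 : 0 ≤ ρ := by positivity
  have hρ6 : ρ ≤ 6 * δ ^ 4 := by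
    have := rho_le hreg.simple hD
    rw [← hDdef, ← hρ] at this
    calc ρ ≤ 6 / D := this
      _ = 6 * (1 / D) := by ring
      _ ≤ _ := by gcongr
  have hne := triangles_nonempty hreg (by linarith) hD
  have htri := card_triangles hreg.simple hD
  have hη := abs_le.1 (abs_etabar_le hreg hD)
  set η := etabar E with hηdef
  have hη1 : 1 / 2 ≤ 1 + η := by linarith
  have htpos : (0 : ℝ) < (triangles E).card := by exact_mod_cast hne.card_pos
  have hm : (0 : ℝ) < E.card := by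
    rcases (Nat.cast_nonneg (α := ℝ) E.card).eq_or_lt with h | h
    · rw [← h] at htri; linarith
    · exact h
  set N : ℝ := D ^ (c + 1) with hN
  have hN0 : 0 < N := by positivity
  set Z : ℝ := (cyc E x c : ℝ) with hZ
  have hZ0 : 0 ≤ Z := Nat.cast_nonneg _
  set I := (univ.filter fun f : Fin (c + 1) → Fin n => Function.Injective f) with hI
  have hcyc : ∀ E' : ES n, cyc E' x c = (I.filter fun f => wheel x f ⊆ E').card := by
    intro E'; rw [hI, filter_filter, cyc]
  set S : ℝ := ∑ f ∈ I.filter fun f => wheel x f ⊆ E, (hit E (wheel x f) : ℝ) with hS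
  set h : ℝ := S / (N * D * (1 + η)) with hh
  have hexp : 𝔼 T ∈ triangles E, (Z - cyc (E \ T.sym2) x c) = ρ * N * h := by
    have := expect_loss E I (fun f => wheel x f)
    simp only [← hcyc] at this
    rw [hZ, this, ← hS, hh, hρ]
    have e : ((triangles E).card : ℝ) = E.card * D * (1 + η) / 3 := by linarith
    rw [e]
    field_simp
  have hSZ : |S - Z * (k * D)| ≤ Z * (δ * D * (k + k ^ 2)) := by
    have e : S - Z * (k * D) =
        ∑ f ∈ I.filter fun f => wheel x f ⊆ E, ((hit E (wheel x f) : ℝ) - k * D) := by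
      rw [sum_sub_distrib, sum_const, nsmul_eq_mul, ← hcyc]
    rw [e]
    refine (abs_sum_le_sum_abs _ _).trans ?_
    rw [hZ, hcyc]
    refine (sum_le_card_nsmul _ _ (δ * D * (k + k ^ 2)) fun f hf => ?_).trans
      (le_of_eq (nsmul_eq_mul _ _))
    rw [mem_filter, hI, mem_filter] at hf
    have h1 := abs_hit_sub hreg hD hf.2
    rw [card_wheel hc hreg.simple hf.1.2 hf.2, ← hk, ← hDdef] at h1
    refine h1.trans ?_
    have h2 : 1 ≤ δ * D := hD4.trans (by gcongr)
    nlinarith [sq_nonneg k]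
  have hz' : |Z / N - 1| ≤ 1 := hz
  clear_value S I η
  set z : ℝ := Z / N with hzdef
  have hz0 : 0 ≤ z := by positivity
  have hz2 : z ≤ 2 := by linarith [(abs_le.1 hz').2]
  have hh1 : |h * (1 + η) - k * z| ≤ z * (δ * (k + k ^ 2)) := by
    have e : h * (1 + η) - k * z = (S - Z * (k * D)) / (N * D) := by
      rw [hh, hzdef]; field_simp
    rw [e, abs_div, abs_of_pos (mul_pos hN0 hD), div_le_iff₀ (mul_pos hN0 hD)]
    refine hSZ.trans (le_of_eq ?_)
    rw [hzdef]; field_simp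
  have hh2 : |k * z - h| ≤ K1 * δ := by
    have h1 : |(k * z - h) * (1 + η)| ≤ 2 * (δ * (k + k ^ 2)) + k * 2 * δ := by
      have e : (k * z - h) * (1 + η) = k * z * η - (h * (1 + η) - k * z) := by ring
      rw [e]
      refine (abs_sub _ _).trans ?_
      have h2 : |k * z * η| ≤ k * 2 * δ := by
        rw [abs_mul, abs_of_nonneg (mul_nonneg hk0 hz0)]
        have : |η| ≤ δ := abs_le.2 hη
        gcongr
      have h3 : z * (δ * (k + k ^ 2)) ≤ 2 * (δ * (k + k ^ 2)) := by gcongr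
      linarith
    rw [abs_mul, abs_of_pos (by linarith : (0 : ℝ) < 1 + η)] at h1
    have h2 : |k * z - h| * (1 / 2) ≤ |k * z - h| * (1 + η) := by gcongr
    rw [hK1]
    linarith
  have hh3 : |h| ≤ K2 := by
    have h1 : |h| ≤ |k * z| + |k * z - h| := by
      have := abs_sub (k * z) (k * z - h)
      rwa [sub_sub_cancel] at this
    rw [abs_of_nonneg (mul_nonneg hk0 hz0)] at h1
    have h2 : k * z ≤ k * 2 := by gcongr
    have h3 : K1 * δ ≤ K1 * 1 := by gcongr; linarith
    linarith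
  have hcod : ∀ y, s(x, y) ∈ E → ((cod E x y).card : ℝ) ≤ 2 * D := by
    intro y hy
    have h1 := (abs_le.1 (abs_cod_sub hreg hD hy)).2
    have h2 : δ * D ≤ 1 * D := by gcongr; linarith
    linarith
  have hJ : 3 * (c + 1) * (2 * D) ^ c / N ≤ K3 * δ ^ 4 := by
    have e : 3 * (c + 1) * (2 * D) ^ c / N = K3 * (1 / D) := by
      rw [hN, hK3, mul_pow, pow_succ]; field_simp
    rw [e]; gcongr
  have hJ0 : 0 ≤ 3 * (c + 1) * (2 * D) ^ c / N := by positivity
  obtain ⟨s1, s2, s3⟩ := hstep _ (triangles E) Z N ρ (3 * (c + 1) * (2 * D) ^ c) h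
    (fun T => Z - cyc (E \ T.sym2) x c) hne hN0 hρ0 (by linarith) hz'
    (fun T hT => loss_le E x (2 * D) (by positivity) hcod c hT) hexp
  set J := 3 * (c + 1) * (2 * D) ^ c / N with hJdef
  clear_value J h
  clear hstep
  have hzeta : ∀ T ∈ triangles E, zeta (E \ T.sym2) x c - zeta E x c =
      ((Z - (Z - cyc (E \ T.sym2) x c)) / (N * (1 - ρ) ^ (2 * (c + 1))) - 1) - (z - 1) := by
    intro T hT
    rw [zeta, zeta, DD_sdiff hreg.simple hT, sub_sub_cancel, mul_pow, ← pow_mul]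
  refine ⟨?_, fun T hT => ?_, ?_⟩
  · rw [expect_congr rfl hzeta]
    set X := 𝔼 T ∈ triangles E,
      (((Z - (Z - cyc (E \ T.sym2) x c)) / (N * (1 - ρ) ^ (2 * (c + 1))) - 1) - (z - 1)) with hX
    have h1 : |X| ≤ |X - ρ * (k * z - h)| + |ρ * (k * z - h)| := by
      have := abs_add_le (X - ρ * (k * z - h)) (ρ * (k * z - h))
      rwa [sub_add_cancel] at this
    rw [abs_mul, abs_of_nonneg hρ0] at h1
    have h2 : C₀ * ρ ^ 2 * (1 + |h|) ≤ ρ * (6 * C₀ * (1 + K2) * δ) := by
      calc C₀ * ρ ^ 2 * (1 + |h|) = ρ * (C₀ * ρ * (1 + |h|)) := by ring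
        _ ≤ ρ * (C₀ * (6 * δ) * (1 + K2)) := by gcongr; linarith
        _ = _ := by ring
    have h3 : ρ * |k * z - h| ≤ ρ * (K1 * δ) := by gcongr
    have h4 : ρ * ((6 * C₀ * (1 + K2) + K1) * δ) ≤ ρ * (C * δ) := by gcongr
    linarith
  · rw [hzeta T hT]
    refine (s2 T hT).trans ?_
    calc C₀ * (ρ + J) ≤ C₀ * (6 * δ ^ 4 + K3 * δ ^ 4) := by gcongr
      _ = C₀ * (6 + K3) * δ ^ 4 := by ring
      _ ≤ C * δ ^ 2 :=
        mul_le_mul hCb (by linarith [sq_nonneg δ]) hδ4.le (by linarith)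
  · rw [expect_congr rfl fun T hT => by rw [hzeta T hT]]
    refine s3.trans ?_
    calc C₀ * (ρ ^ 2 + ρ * |h| * J) = ρ * (C₀ * (ρ + |h| * J)) := by ring
      _ ≤ ρ * (C₀ * (6 * δ ^ 4 + K2 * (K3 * δ ^ 4))) := by gcongr
      _ = ρ * (C₀ * (6 + K2 * K3) * δ ^ 4) := by ring
      _ ≤ ρ * (C ^ 2 * δ ^ 4) := by gcongr
      _ = _ := by ring

end Crest.Agent.R30
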