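import Crest.Agent.R30.Phase1

/-! Choice of the parameters. -/

set_option autoImplicit false

namespace Crest.Agent.R30

open Finset Crest.CombinatoricsR.TriangleRemoval
open scoped BigOperators

namespace Final

lemma mono {y c i j : ℝ} (hy : 1 ≤ y) (hc : c ≤ y) (h : i + 1 ≤ j) : c * y ^ i ≤ y ^ j := by
  have hy0 : 0 < y := by linarith
  calc c * y ^ i ≤ y * y ^ i := by gcongr
    _ = y ^ (i + 1) := by rw [Real.rpow_add hy0, Real.rpow_one]; ring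
    _ ≤ y ^ j := Real.rpow_le_rpow_of_exponent_le hy h

/-- choice of the number of edges at the end of the first phase -/
lemma exists_m (m0 : ℕ) (X : ℝ) (hX : 0 ≤ X) (h : X + 3 ≤ m0) :
    ∃ m k : ℕ, m0 = m + 3 * k ∧ X ≤ m ∧ (m : ℝ) ≤ X + 3 := by
  have h1 : (⌈X⌉₊ : ℝ) < X + 1 := Nat.ceil_lt_add_one hX
  have h2 : ⌈X⌉₊ ≤ m0 := by
    have : (⌈X⌉₊ : ℝ) ≤ m0 := by linarith
    exact_mod_cast this
  refine ⟨⌈X⌉₊ + (m0 - ⌈X⌉₊) % 3, (m0 - ⌈X⌉₊) / 3, by omega, ?_, ?_⟩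
  · push_cast
    have := Nat.le_ceil X
    have : (0 : ℝ) ≤ (((m0 - ⌈X⌉₊) % 3 : ℕ) : ℝ) := by positivity
    linarith
  · push_cast
    have : (m0 - ⌈X⌉₊) % 3 ≤ 2 := by omega
    have : (((m0 - ⌈X⌉₊) % 3 : ℕ) : ℝ) ≤ 2 := by exact_mod_cast this
    linarith

lemma ann_sum {n : ℕ} (E : ES n) (s D : ℝ) (L : ℕ) (hs : 0 ≤ s) (hs1 : s ≤ 1) (hD1 : 1 ≤ D)
    (hD : n * s ^ 2 ≤ 9 / 2 * D) (hL : (2 * L + 5 : ℝ) ≤ D / 2) :
    ∑ l ∈ Icc 1 (2 * L + 2), (20 * D)⁻¹ ^ l * ClS s E l ≤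
      (2 * L + 5) ^ 3 * (41 * D ^ 2 * n) := by
  have h1 : ∀ l ∈ Icc 1 (2 * L + 2), (20 * D)⁻¹ ^ l * ClS s E l ≤
      (2 * L + 5) ^ 2 * (41 * D ^ 2 * n) := by
    intro l hl
    obtain ⟨hl1, hl2⟩ := mem_Icc.1 hl
    have hl3 : (l : ℝ) ≤ 2 * L + 2 := by exact_mod_cast hl2
    have h2 := ClS_le E s D l hl1 hs hs1 hD (by linarith)
    have h3 : (20 * D)⁻¹ ^ l * (10 * D) ^ (l - 1) ≤ 1 := by
      have h4 : (10 * D) ^ (l - 1) ≤ (20 * D) ^ l :=
        (pow_le_pow_left₀ (by positivity) (by linarith) _).trans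
          (pow_le_pow_right₀ (by linarith) (Nat.sub_le _ _))
      rw [inv_pow, inv_mul_le_iff₀ (by positivity), mul_one]
      exact h4
    have h5 : (n : ℝ) ^ 3 * s ^ 4 ≤ (9 / 2 * D) ^ 2 * n := by
      calc (n : ℝ) ^ 3 * s ^ 4 = (n * s ^ 2) ^ 2 * n := by ring
        _ ≤ _ := by gcongr
    calc (20 * D)⁻¹ ^ l * ClS s E l
        ≤ (20 * D)⁻¹ ^ l * (2 * l * (l + 3) * n ^ 3 * s ^ 4 * (10 * D) ^ (l - 1)) := by gcongr
      _ = ((20 * D)⁻¹ ^ l * (10 * D) ^ (l - 1)) * (l * (l + 3)) * (2 * (n ^ 3 * s ^ 4)) := by ring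
      _ ≤ 1 * ((2 * L + 5) * (2 * L + 5)) * (2 * ((9 / 2 * D) ^ 2 * n)) := by
          have h6 : (l : ℝ) * (l + 3) ≤ (2 * L + 5) * (2 * L + 5) :=
            mul_le_mul (by linarith) (by linarith) (by positivity) (by positivity)
          gcongr
      _ ≤ _ := by
          have : (0 : ℝ) ≤ (2 * L + 5) ^ 2 * (D ^ 2 * n) := by positivity
          nlinarith
  refine (sum_le_card_nsmul _ _ _ h1).trans ?_
  rw [Nat.card_Icc, nsmul_eq_mul, pow_succ' (2 * (L : ℝ) + 5) 2, mul_assoc (2 * (L : ℝ) + 5)]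
  refine mul_le_mul_of_nonneg_right ?_ (by positivity)
  push_cast [Nat.add_sub_cancel]
  linarith

/-- the powers of `y`, kept opaque -/
structure YS (y : ℝ) (Y : ℝ → ℝ) : Prop where
  big : 1000 ≤ y
  le : ∀ {i j : ℝ}, i ≤ j → Y i ≤ Y j
  pow : ∀ (i : ℝ) (k : ℕ), Y i ^ k = Y (i * k)
  rpow : ∀ i k : ℝ, Y i ^ k = Y (i * k)
  mul : ∀ i j : ℝ, Y i * Y j = Y (i + j)
  pos : ∀ i : ℝ, 0 < Y i
  neg : ∀ i : ℝ, (Y i)⁻¹ = Y (-i)
  zero : Y 0 = 1
  one : Y 1 = y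
  two : Y 2 = y * y
  mo : ∀ {c i j : ℝ}, c ≤ y → i + 1 ≤ j → c * Y i ≤ Y j

lemma ys {y : ℝ} (h : 1000 ≤ y) : YS y fun i => y ^ i := by
  have hy : 1 ≤ y := by linarith
  have hy0 : 0 < y := by linarith
  exact ⟨h, fun h => Real.rpow_le_rpow_of_exponent_le hy h,
    fun i k => by rw [← Real.rpow_natCast, ← Real.rpow_mul hy0.le],
    fun i k => by rw [← Real.rpow_mul hy0.le], fun i j => by rw [Real.rpow_add hy0],
    fun i => Real.rpow_pos_of_pos hy0 i, fun i => by rw [Real.rpow_neg hy0.le],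
    Real.rpow_zero y, Real.rpow_one y, by rw [Real.rpow_two, sq], fun hc h => mono hy hc h⟩

variable {y : ℝ} {Y : ℝ → ℝ}

lemma YS.le_one (h : YS y Y) {c i : ℝ} (hc : c ≤ y) (hi : i + 1 ≤ 0) : c * Y i ≤ 1 :=
  (h.mo hc hi).trans h.zero.le

lemma YS.le_inv (h : YS y Y) {c i : ℝ} (hc : c ≤ y) (hi : i + 2 ≤ 0) : c * Y i ≤ 1 / y := by
  refine (h.mo (j := -1) hc (by linarith)).trans (le_of_eq ?_)
  rw [← h.neg, h.one, one_div]

lemma YS.le_Y (h : YS y Y) {i : ℝ} (hi : 1 ≤ i) : y ≤ Y i := h.one.ge.trans (h.le hi)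

lemma YS.one_le (h : YS y Y) {i : ℝ} (hi : 0 ≤ i) : 1 ≤ Y i := h.zero.ge.trans (h.le hi)

lemma YS.le_one' (h : YS y Y) {i : ℝ} (hi : i ≤ 0) : Y i ≤ 1 := (h.le hi).trans h.zero.le

lemma choose_m (h : YS y Y) {n : ℕ} (hn : (n : ℝ) = Y 8000000000) :
    ∃ m k : ℕ, (allEdges n).card = m + 3 * k ∧ 0 < m ∧ 2 * (m : ℝ) ≤ (allEdges n).card ∧
      Y 40000000 ≤ 4 * (m : ℝ) ^ 2 / n ^ 3 ∧ 4 * (m : ℝ) ^ 2 / n ^ 3 ≤ Y 40000001 := by
  have hy := h.big
  have hyn : y ≤ n := hn ▸ h.le_Y (by norm_num)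
  have hn0 : (0 : ℝ) < n := by linarith
  have hm0 := card_allEdges n
  have hnn : (n : ℝ) ^ 2 / 4 ≤ (allEdges n).card := by nlinarith
  have hn2 : (n : ℝ) ^ 2 = Y 16000000000 := by rw [hn, h.pow]; norm_num
  have hn3 : (n : ℝ) ^ 3 = Y 24000000000 := by rw [hn, h.pow]; norm_num
  have hX1 : y ≤ Y 12020000000 := h.le_Y (by norm_num)
  have hX2 : 1000 * Y 12020000000 ≤ (n : ℝ) ^ 2 := by rw [hn2]; exact h.mo hy (by norm_num)
  obtain ⟨m, k, hmk, hm1, hm2⟩ := exists_m (allEdges n).card (Y 12020000000 / 2)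
    (by linarith) (by linarith)
  have hm0' : (0 : ℝ) < m := by linarith
  refine ⟨m, k, hmk, by exact_mod_cast hm0', by linarith, ?_, ?_⟩
  · rw [le_div_iff₀ (by positivity), hn3, h.mul]
    calc _ = (Y 12020000000) ^ 2 := by rw [h.pow]; norm_num
      _ = 4 * (Y 12020000000 / 2) ^ 2 := by ring
      _ ≤ _ := by gcongr; linarith
  · rw [div_le_iff₀ (by positivity), hn3, h.mul]
    calc 4 * (m : ℝ) ^ 2 ≤ 4 * (Y 12020000000) ^ 2 := by gcongr; linarith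
      _ ≤ _ := by rw [h.pow]; exact h.mo (by linarith) (by norm_num)

lemma choose_L {n : ℕ} (hy : 1000 ≤ y) (hn : (1 : ℝ) ≤ n) (hlog : Real.log n ≤ y) :
    ∃ L : ℕ, (L : ℝ) ≤ 40 * y ∧ (n : ℝ) ^ 8 / 2 ^ L ≤ 1 := by
  have h1 := Nat.le_ceil y
  have h2 := Nat.ceil_lt_add_one (by linarith : 0 ≤ y)
  refine ⟨20 * ⌈y⌉₊, by push_cast; linarith, ?_⟩
  rw [div_le_one (by positivity)]
  have h3 : (n : ℝ) ^ 8 = Real.exp ((8 : ℕ) * Real.log n) := by
    rw [Real.exp_nat_mul, Real.exp_log (by linarith)]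
  have h4 : (2 : ℝ) ^ (20 * ⌈y⌉₊) = Real.exp ((20 * ⌈y⌉₊ : ℕ) * Real.log 2) := by
    rw [Real.exp_nat_mul, Real.exp_log two_pos]
  rw [h3, h4, Real.exp_le_exp]
  have := Real.log_two_gt_d9
  push_cast
  nlinarith

lemma H_le_two {n m k : ℕ} (hmk : (allEdges n).card = m + 3 * k) (hm : 0 < m)
    (hlog : Real.log n ≤ y) : Phase1.H m k ≤ 2 * y := by
  refine (Phase1.H_le hm k).trans ?_
  have hmk' : (m : ℝ) + 3 * k = (allEdges n).card := by rw [hmk]; push_cast; ring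
  have hm' : (1 : ℝ) ≤ m := by exact_mod_cast hm
  have h3 : ((m : ℝ) + 3 * k) / m ≤ n ^ 2 := by
    refine le_trans (div_le_self (by positivity) hm') ?_
    rw [hmk']; exact Phase1.card_le_sq (simple_allEdges n)
  refine (Real.log_le_log (by positivity) h3).trans ?_
  rw [Real.log_pow]; push_cast; linarith

lemma weight_le {n m k : ℕ} (hn : (1000 : ℝ) ≤ n) (hmk : (allEdges n).card = m + 3 * k)
    (hm : 2 * (m : ℝ) ≤ (allEdges n).card) {x : ℝ} (hx : x ≤ 1 / 2) :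
    m / (m + 3 * k) * Real.exp x ≤ 1 ∧
      n * (m / (m + 3 * k) * Real.exp x) ^ 2 ≤ 9 / 2 * (4 * (m : ℝ) ^ 2 / n ^ 3) := by
  have hmk' : (m : ℝ) + 3 * k = (allEdges n).card := by rw [hmk]; push_cast; ring
  have hm0 := card_allEdges n
  have h4 : (0 : ℝ) < n - 1 := by linarith
  have hn0 : (0 : ℝ) < n := by linarith
  have hc0 : (0 : ℝ) < (allEdges n).card := by nlinarith
  have h5 : Real.exp x ≤ 2 := by
    refine (Real.exp_le_exp.2 hx).trans ?_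
    rw [← Real.le_log_iff_exp_le two_pos]
    have := Real.log_two_gt_d9
    linarith
  have hs1 : m / (m + 3 * k) * Real.exp x ≤ 2 * m / (allEdges n).card := by
    rw [hmk', mul_div_assoc, mul_comm 2]
    gcongr
  refine ⟨hs1.trans (by rwa [div_le_one hc0]), ?_⟩
  have h3 : 2 * (m : ℝ) / (allEdges n).card = 4 * m / (n * (n - 1)) := by
    rw [← hm0]; field_simp; ring
  calc n * (m / (m + 3 * k) * Real.exp x) ^ 2 ≤ n * (4 * m / (n * (n - 1))) ^ 2 := by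
        rw [← h3]; gcongr
    _ = (4 * (n / (n - 1)) ^ 2) * (4 * (m : ℝ) ^ 2 / n ^ 3) := by field_simp
    _ ≤ _ := by
      gcongr
      have h5 : (n : ℝ) / (n - 1) ≤ 1.01 := by rw [div_le_iff₀ h4]; linarith
      have h6 : ((n : ℝ) / (n - 1)) ^ 2 ≤ 1.01 ^ 2 := by gcongr
      linarith

lemma last_term (h : YS y Y) {n : ℕ} (hn : (n : ℝ) = Y 8000000000) {C D S t : ℝ} {L : ℕ}
    (hC0 : 0 ≤ C) (hC : C ≤ y) (hD0 : 0 < D) (hD : D ≤ Y 40000001) (hL : (L : ℝ) ≤ 40 * y)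
    (hS0 : 0 ≤ S) (hS : S ≤ (2 * L + 5) ^ 3 * (41 * D ^ 2 * n)) (ht : t ≤ 1) :
    C * D ^ 81 / (n : ℝ) ^ ((3 : ℝ) / 2) * (((L : ℝ) + 1) * S + t + 1) ≤ 1 / y := by
  have hy := h.big
  have hn0 : (0 : ℝ) < n := hn ▸ h.pos _
  have hW : C * D ^ 81 / (n : ℝ) ^ ((3 : ℝ) / 2) ≤ Y (-8759999900) := by
    rw [div_le_iff₀ (by positivity), hn, h.rpow, h.mul]
    refine le_trans (mul_le_mul_of_nonneg_left (pow_le_pow_left₀ hD0.le hD _) hC0) ?_
    rw [h.pow]; exact h.mo hC (by norm_num)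
  have hL4 : (2 * L + 5 : ℝ) ≤ Y 2 := by rw [h.two]; nlinarith
  have t5 : ((L : ℝ) + 1) * S ≤ Y 8100000000 := by
    calc _ ≤ (2 * L + 5) * ((2 * L + 5) ^ 3 * (41 * D ^ 2 * n)) :=
          mul_le_mul (by linarith [Nat.cast_nonneg (α := ℝ) L]) hS hS0 (by positivity)
      _ = 41 * ((2 * L + 5) ^ 4 * (D ^ 2 * n)) := by ring
      _ ≤ 41 * ((Y 2) ^ 4 * ((Y 40000001) ^ 2 * n)) := by
          have := h.pos 2
          gcongr
      _ ≤ _ := by rw [hn, h.pow, h.pow, h.mul, h.mul]; exact h.mo (by linarith) (by norm_num)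
  have h3 : 1 ≤ Y 8100000000 := h.one_le (by norm_num)
  calc _ ≤ C * D ^ 81 / (n : ℝ) ^ ((3 : ℝ) / 2) * (3 * Y 8100000000) :=
        mul_le_mul_of_nonneg_left (by linarith) (by positivity)
    _ ≤ Y (-8759999900) * (3 * Y 8100000000) := mul_le_mul_of_nonneg_right hW (by linarith)
    _ = 3 * (Y (-8759999900) * Y 8100000000) := by ring
    _ ≤ _ := by rw [h.mul]; exact h.le_inv (by linarith) (by norm_num)

lemma first_terms (h : YS y Y) {n p : ℕ} (hp : (p : ℝ) = 5000) (hn : (n : ℝ) = Y 8000000000)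
    {C1 C2 P Hk : ℝ} (hC1 : 0 ≤ C1) (hC1y : 1000 * C1 ≤ y) (hC2y : 1000 * C2 ≤ y) (hH0 : 0 ≤ Hk)
    (hH : Hk ≤ 2 * y) (hP0 : 0 ≤ P)
    (hP : P ≤ C2 * Y 2 ^ p * n ^ 2 * (1 / (n * Y (-5000000) ^ 2)) ^ p) :
    n * Real.exp (C1 * Hk / Y 2) *
      (P + Hk * (C1 * Y 2 ^ (2 * p) * n ^ 2 * Y (-5000000) ^ p)) ≤ 2 * (1 / y) := by
  have hy := h.big
  have hn0 : (0 : ℝ) < n := hn ▸ h.pos _
  have hn2 : (n : ℝ) ^ 2 = Y 16000000000 := by rw [hn, h.pow]; norm_num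
  have p4 := h.pos 2
  have p5 := h.pos (-5000000)
  have hexp : Real.exp (C1 * Hk / Y 2) ≤ 3 := by
    have h3 : C1 * Hk / Y 2 ≤ 1 := by
      rw [div_le_one p4, h.two]; nlinarith
    have := Real.exp_one_lt_d9
    exact (Real.exp_le_exp.2 h3).trans (by linarith)
  have t1 : n * Real.exp (C1 * Hk / Y 2) * P ≤ 1 / y := by
    refine le_trans (mul_le_mul (mul_le_mul_of_nonneg_left hexp hn0.le) hP hP0 (by positivity)) ?_
    rw [hn2, hn, h.pow (-5000000), h.mul, one_div, h.neg, h.pow, h.pow,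
      show ∀ a b c d : ℝ, a * 3 * (C2 * b * c * d) = 3 * C2 * (a * (b * (c * d))) from
        fun a b c d => by ring, h.mul, h.mul, h.mul]
    exact h.le_inv (by linarith) (by rw [hp]; norm_num)
  have t2 : n * Real.exp (C1 * Hk / Y 2) *
      (Hk * (C1 * Y 2 ^ (2 * p) * n ^ 2 * Y (-5000000) ^ p)) ≤ 1 / y := by
    refine le_trans (mul_le_mul (mul_le_mul_of_nonneg_left hexp hn0.le)
      (mul_le_mul_of_nonneg_right hH (by positivity)) (by positivity) (by positivity)) ?_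
    rw [hn2, hn, h.pow, h.pow,
      show ∀ a b c d : ℝ, a * 3 * (2 * y * (C1 * b * c * d)) =
        6 * C1 * (a * (b * (c * (d * Y 1)))) from
        fun a b c d => by rw [h.one]; ring, h.mul, h.mul, h.mul, h.mul]
    exact h.le_inv (by linarith) (by push_cast; rw [hp]; norm_num)
  rw [mul_add]
  linarith

end Final

open Final Phase1

theorem main_bound : ∃ C : ℝ, 1000 ≤ C ∧ ∀ (n : ℕ) (y : ℝ) (Y : ℝ → ℝ), YS y Y → C ≤ y →
    Real.log n ≤ y → (n : ℝ) = Y 8000000000 →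
    expectFinal (phi n) (n ^ 2) (allEdges n) ≤ 5 / y := by
  obtain ⟨p, hpe, hp3, hp⟩ : ∃ p : ℕ, Even p ∧ 3 ≤ p ∧ (p : ℝ) = 5000 :=
    ⟨5000, by decide, by norm_num, by norm_num⟩
  obtain ⟨C1, hC1, h1⟩ := phase1 p 201 hpe hp3 (by norm_num)
  obtain ⟨C2, hC2, h2⟩ := pot_init p 201 hpe
  obtain ⟨A, hA⟩ : ∃ A : ℝ, A = 3 ^ p := ⟨_, rfl⟩
  have hA1 : 1 ≤ A := hA ▸ one_le_pow₀ (by norm_num)
  have hCA : C1 ≤ C1 * A := le_mul_of_one_le_right hC1.le hA1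
  refine ⟨1000 * (C1 * A + C2 + 1), by linarith, fun n y Y h hC hlog hn => ?_⟩
  have hy := h.big
  have hy0 : 0 < y := by linarith
  have hC1y : 1000 * C1 ≤ y := by linarith
  have hC1y' : C1 ≤ y := by linarith
  have hC1A : C1 * A ≤ y := by linarith
  have hC2y : 1000 * C2 ≤ y := by linarith
  have hyn : y ≤ n := hn ▸ h.le_Y (by norm_num)
  have hn0 : (0 : ℝ) < n := by linarith
  have hn2 : (n : ℝ) ^ 2 = Y 16000000000 := by rw [hn, h.pow]; norm_num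
  obtain ⟨m, k, hmk, hm0, hm, hD1, hD2⟩ := choose_m h hn
  obtain ⟨L, hL, hL'⟩ := choose_L hy (by linarith) hlog
  obtain ⟨D, hD⟩ : ∃ D : ℝ, D = 4 * (m : ℝ) ^ 2 / n ^ 3 := ⟨_, rfl⟩
  rw [← hD] at hD1 hD2
  have hD0 : 0 < D := (h.pos _).trans_le hD1
  have hyD : y * y ≤ D := h.two.ge.trans ((h.le (by norm_num)).trans hD1)
  have hDn : D ≤ n := hn ▸ hD2.trans (h.le (by norm_num))
  have hyy : 1000 * y ≤ y * y := mul_le_mul_of_nonneg_right hy hy0.le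
  have hw2 : Y (-5000000) ^ 2 = Y (-10000000) := by rw [h.pow]; norm_num
  have hw2D : Y 2 ≤ Y (-5000000) ^ 2 * D := by
    refine le_trans ?_ (mul_le_mul_of_nonneg_left hD1 (sq_nonneg _))
    rw [hw2, h.mul]; exact h.le (by norm_num)
  have hfuel : (allEdges n).card ≤ n ^ 2 := by
    have := card_le_sq (simple_allEdges n)
    exact_mod_cast this
  have key := h1 n m (n ^ 8) L (Y 2) (Y (-5000000)) (Y (-10001)) D hD (h.pos _)
    (h.le_one hC1y' (by norm_num)) (h.one_le (by norm_num))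
    (by rw [hw2, h.mul]; exact h.le_one' (by norm_num))
    (by
      refine le_trans ?_ (mul_le_mul_of_nonneg_left hD1 (pow_nonneg (h.pos _).le _))
      rw [h.pow, h.mul]; exact h.one_le (by norm_num))
    (by
      refine le_trans ?_ (mul_le_mul_of_nonneg_left (pow_le_pow_left₀ (h.pos _).le hD1 _)
        (h.pos _).le)
      rw [h.pow, h.mul, hn]; exact h.le (by norm_num))
    (h.le (by norm_num))
    (by rw [h.pow]; exact h.mo hC1y' (by norm_num))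
    (by
      rw [← hA, h.pow, h.pow, show ∀ a b : ℝ, C1 * a * (A * b) = C1 * A * (a * b) from
        fun a b => by ring, h.mul]
      exact h.le_one hC1A (by push_cast; rw [hp]; norm_num))
    (by
      have h3 : 1 + Real.log D ≤ 2 * y := by linarith [Real.log_le_log hD0 hDn]
      have h4 := mul_le_mul_of_nonneg_left h3 hC1.le
      have h5 := mul_le_mul_of_nonneg_right hC1y hy0.le
      have h6 := mul_pos hC1 hy0
      rw [h.two]; linarith)
    hw2D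
    (by
      rw [Nat.cast_pow, hn, h.pow, h.pow, h.mul]
      exact hD2.trans (h.le (by norm_num)))
    (by
      rw [hn2, h.pow, h.pow, mul_assoc, mul_assoc, h.mul, h.mul]
      exact h.le_one hC1y' (by push_cast; rw [hp]; norm_num))
    (by refine le_trans ?_ hw2D; rw [h.two]; linarith)
    k (allEdges n) (n ^ 2) (simple_allEdges n) hmk hfuel
  refine key.trans ?_
  clear key h1
  have hH0 := H_nonneg m k
  have hH := H_le_two hmk hm0 hlog
  have h3 : 6 * Y (-5000000) ^ 2 * H m k ≤ 1 / 2 := by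
    have h4 : 24 * Y (-10000000) ≤ 1 / y := h.le_inv (by linarith) (by norm_num)
    rw [le_div_iff₀ hy0] at h4
    have h5 := mul_le_mul_of_nonneg_left hH (h.pos (-10000000)).le
    rw [hw2]; linarith
  obtain ⟨hs2, hs3⟩ := weight_le (hy.trans hyn) hmk hm h3
  rw [← hD] at hs3
  have hs0 : 0 ≤ m / (m + 3 * k) * Real.exp (6 * Y (-5000000) ^ 2 * H m k) := by positivity
  have hann := ann_sum (allEdges n) _ D L hs0 hs2 (by linarith) hs3 (by linarith)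
  have hpot := h2 n (Y 2) (Y (-5000000)) (by linarith) (h.one_le (by norm_num)) (h.pos _)
    (h.le_one' (by norm_num))
  have t1 := first_terms h hp hn hC1.le hC1y hC2y hH0 hH (pot_nonneg p 201 hpe _ _ _) hpot
  have t3 : C1 * Y (-5000000) ≤ 1 / y := h.le_inv hC1y' (by norm_num)
  have t4 : (n : ℝ) ^ 7 / ((n ^ 8 : ℕ) : ℝ) ≤ 1 / y := by
    rw [Nat.cast_pow, pow_succ _ 7, div_mul_eq_div_div, div_self (pow_pos hn0 _).ne']
    exact one_div_le_one_div_of_le hy0 hyn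
  have t7 := last_term h hn hC1.le hC1y' hD0 hD2 hL
    (sum_nonneg fun l _ => mul_nonneg (by positivity) (ClS_nonneg _ _ hs0 _)) hann hL'
  have h6 : 5 / y = 5 * (1 / y) := by ring
  rw [h6]
  linarith only [t1, t3, t4, t7]

open Filter in
theorem tendsto_final :
    Tendsto (fun n : ℕ => expectFinal (phi n) (n ^ 2) (allEdges n)) atTop (nhds 0) := by
  obtain ⟨C, hC, h⟩ := main_bound
  obtain ⟨ε, hε0, hε⟩ : ∃ ε : ℝ, 0 < ε ∧ ε * 8000000000 = 1 := ⟨1 / 8000000000, by norm_num,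
    by norm_num⟩
  have h1 : Tendsto (fun n : ℕ => (n : ℝ) ^ ε) atTop atTop :=
    (tendsto_rpow_atTop hε0).comp tendsto_natCast_atTop_atTop
  have h2 : ∀ᶠ n : ℕ in atTop, Real.log n ≤ (n : ℝ) ^ ε := by
    have h3 := (isLittleO_log_rpow_atTop hε0).bound one_pos
    filter_upwards [tendsto_natCast_atTop_atTop.eventually h3] with n hn
    rw [one_mul, Real.norm_of_nonneg (Real.rpow_nonneg (Nat.cast_nonneg n) _)] at hn
    exact (le_abs_self _).trans hn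
  refine squeeze_zero' (Eventually.of_forall fun n => expectFinal_nonneg _ (phi_nonneg n) _ _) ?_
    (h1.const_div_atTop 5)
  filter_upwards [h2, h1.eventually_ge_atTop C] with n hn hn'
  refine h n _ _ (ys (hC.trans hn')) hn' hn ?_
  rw [← Real.rpow_mul (Nat.cast_nonneg n), hε, Real.rpow_one]

end Crest.Agent.R30
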