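import Crest.Agent.R30.Defs

/-! The `ℓ²` spectral gap from a trace bound, and Marcinkiewicz interpolation. -/

set_option autoImplicit false
set_option linter.unusedVariables false

namespace Crest.Agent.R30

open Finset Crest.CombinatoricsR.TriangleRemoval
open scoped BigOperators

namespace GapL2

open Matrix

variable {W : Type} [Fintype W] [DecidableEq W]

theorem logconv {a : ℕ → ℝ} (h0 : ∀ j, 0 ≤ a j) (h : ∀ j, a (j + 1) ^ 2 ≤ a j * a (j + 2))
    (k : ℕ) : a 1 ^ (k + 1) ≤ a 0 ^ k * a (k + 1) := by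
  have h1 : ∀ j, a 1 * a j ≤ a 0 * a (j + 1) := by
    intro j
    induction j with
    | zero => rw [mul_comm]
    | succ j ih =>
      rcases (h0 (j + 1)).eq_or_lt with e | e
      · rw [← e, mul_zero]
        exact mul_nonneg (h0 _) (h0 _)
      · refine le_of_mul_le_mul_right ?_ e
        calc a 1 * a (j + 1) * a (j + 1) = a 1 * a (j + 1) ^ 2 := by ring
          _ ≤ a 1 * (a j * a (j + 2)) := mul_le_mul_of_nonneg_left (h j) (h0 _)
          _ = a 1 * a j * a (j + 2) := by ring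
          _ ≤ a 0 * a (j + 1) * a (j + 2) := mul_le_mul_of_nonneg_right ih (h0 _)
          _ = _ := by ring
  induction k with
  | zero => simp
  | succ k ih =>
    calc a 1 ^ (k + 1 + 1) = a 1 * a 1 ^ (k + 1) := by ring
      _ ≤ a 1 * (a 0 ^ k * a (k + 1)) := mul_le_mul_of_nonneg_left ih (h0 _)
      _ = a 0 ^ k * (a 1 * a (k + 1)) := by ring
      _ ≤ a 0 ^ k * (a 0 * a (k + 1 + 1)) := mul_le_mul_of_nonneg_left (h1 _) (pow_nonneg (h0 _) _)
      _ = _ := by ring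

theorem pow_logconv (A : Matrix W W ℝ) (hA : Aᵀ = A) (v : W → ℝ) (k : ℕ) :
    (∑ y, (A *ᵥ v) y ^ 2) ^ (k + 1) ≤ (∑ y, v y ^ 2) ^ k * ∑ y, ((A ^ (k + 1)) *ᵥ v) y ^ 2 := by
  have := logconv (a := fun j => ∑ y, ((A ^ j) *ᵥ v) y ^ 2)
    (fun j => Finset.sum_nonneg fun _ _ => sq_nonneg _) (fun j => by
      have e : ∑ y, ((A ^ (j + 1)) *ᵥ v) y ^ 2 =
          ∑ y, ((A ^ j) *ᵥ v) y * ((A ^ (j + 2)) *ᵥ v) y := by
        have h1 : (A ^ (j + 2)) *ᵥ v = A *ᵥ ((A ^ (j + 1)) *ᵥ v) := by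
          rw [mulVec_mulVec, ← pow_succ']
        have h2 : (A ^ (j + 1)) *ᵥ v = ((A ^ j) *ᵥ v) ᵥ* A := by
          rw [← hA, vecMul_transpose, hA, mulVec_mulVec, ← pow_succ']
        change _ = ((A ^ j) *ᵥ v) ⬝ᵥ ((A ^ (j + 2)) *ᵥ v)
        rw [h1, dotProduct_mulVec, ← h2]
        simp [dotProduct, sq]
      simp only [e]
      rw [← e, e]
      exact Finset.sum_mul_sq_le_sq_mul_sq _ _ _) k
  simpa using this

omit [DecidableEq W] in
theorem sum_sub_mean_sq [Nonempty W] (r : W → ℝ) :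
    ∑ y, (r y - (∑ z, r z) / Fintype.card W) ^ 2 =
      ∑ y, r y ^ 2 - (∑ z, r z) ^ 2 / Fintype.card W := by
  have hN : (Fintype.card W : ℝ) ≠ 0 := by exact_mod_cast Fintype.card_ne_zero
  simp only [sub_sq, Finset.sum_add_distrib, Finset.sum_sub_distrib, ← Finset.sum_mul,
    ← Finset.mul_sum, Finset.sum_const, Finset.card_univ, nsmul_eq_mul]
  field_simp
  ring

omit [DecidableEq W] in
theorem bessel [Nonempty W] (r v : W → ℝ) (hv : ∑ y, v y = 0) :
    (∑ y, r y * v y) ^ 2 ≤ (∑ y, r y ^ 2 - (∑ z, r z) ^ 2 / Fintype.card W) * ∑ y, v y ^ 2 := by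
  rw [← sum_sub_mean_sq]
  have : ∑ y, r y * v y = ∑ y, (r y - (∑ z, r z) / Fintype.card W) * v y := by
    simp only [sub_mul, Finset.sum_sub_distrib, ← Finset.mul_sum, hv, mul_zero, sub_zero]
  rw [this]
  exact Finset.sum_mul_sq_le_sq_mul_sq _ _ _

theorem rowsum_ge (G : SimpleGraph W) [DecidableRel G.Adj] {c : ℝ} (hc : 0 ≤ c)
    (h : ∀ v, c ≤ G.degree v) (k : ℕ) (x : W) : c ^ k ≤ ∑ y, (G.adjMatrix ℝ ^ k) x y := by
  have key : ∀ x, c ^ k ≤ ((G.adjMatrix ℝ ^ k) *ᵥ fun _ => (1 : ℝ)) x := by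
    induction k with
    | zero => simp
    | succ k ih =>
      intro x
      rw [pow_succ' (G.adjMatrix ℝ), ← mulVec_mulVec, SimpleGraph.adjMatrix_mulVec_apply]
      calc c ^ (k + 1) = c * c ^ k := by ring
        _ ≤ G.degree x * c ^ k := mul_le_mul_of_nonneg_right (h x) (pow_nonneg hc _)
        _ = ∑ _u ∈ G.neighborFinset x, c ^ k := by simp
        _ ≤ _ := Finset.sum_le_sum fun u _ => ih u
  simpa [mulVec, dotProduct] using key x

theorem gap0 [Nonempty W] (G : SimpleGraph W) [DecidableRel G.Adj]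
    (K : ℕ) (hK : 1 ≤ K) (D δ t s : ℝ) (hD : 0 < D) (hδ1 : δ ≤ 1)
    (hdeg : ∀ v, |(G.degree v : ℝ) / D - 1| ≤ δ)
    (htr : (G.adjMatrix ℝ ^ (2 * K)).trace ≤ (1 + t) * D ^ (2 * K))
    (hst : t + 2 * K * δ ≤ s ^ (2 * K)) (v : W → ℝ) (hv : ∑ y, v y = 0) :
    ∑ y, (G.adjMatrix ℝ *ᵥ v) y ^ 2 ≤ (s * D) ^ 2 * ∑ y, v y ^ 2 := by
  obtain ⟨k, rfl⟩ : ∃ k, K = k + 1 := ⟨K - 1, by omega⟩
  set A := G.adjMatrix ℝ with hAdef
  have hA : Aᵀ = A := G.transpose_adjMatrix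
  have hN : (0 : ℝ) < Fintype.card W := by exact_mod_cast Fintype.card_pos
  have hc : 0 ≤ D * (1 - δ) := mul_nonneg hD.le (by linarith)
  have hrow := rowsum_ge G hc (fun v => by
    have := (abs_le.1 (hdeg v)).1
    have h2 : 1 - δ ≤ (G.degree v : ℝ) / D := by linarith
    rwa [le_div_iff₀ hD, mul_comm] at h2) (k + 1)
  have ha0 : 0 ≤ ∑ y, v y ^ 2 := Finset.sum_nonneg fun _ _ => sq_nonneg _
  have e1 : (A ^ (2 * (k + 1))).trace = ∑ x, ∑ y, (A ^ (k + 1)) x y ^ 2 := by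
    have hT : (A ^ (k + 1))ᵀ = A ^ (k + 1) := by rw [transpose_pow, hA]
    rw [two_mul, pow_add]
    simp only [trace, diag_apply, mul_apply, sq]
    refine Finset.sum_congr rfl fun x _ => Finset.sum_congr rfl fun y _ => ?_
    conv_lhs => rw [← transpose_apply (A ^ (k + 1)) x y, hT]
  have e2 : ∑ x, ((A ^ (k + 1)) *ᵥ v) x ^ 2 ≤
      ((A ^ (2 * (k + 1))).trace - (D * (1 - δ)) ^ (2 * (k + 1))) * ∑ y, v y ^ 2 := by
    have : (D * (1 - δ)) ^ (2 * (k + 1)) =
        ∑ _x : W, ((D * (1 - δ)) ^ (k + 1)) ^ 2 / Fintype.card W := by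
      rw [Finset.sum_const, Finset.card_univ, nsmul_eq_mul, ← pow_mul, mul_comm (k + 1)]
      field_simp
    rw [e1, this, ← Finset.sum_sub_distrib, Finset.sum_mul]
    refine Finset.sum_le_sum fun x _ => (bessel _ v hv).trans ?_
    refine mul_le_mul_of_nonneg_right (sub_le_sub_left ?_ _) ha0
    exact div_le_div_of_nonneg_right (pow_le_pow_left₀ (pow_nonneg hc _) (hrow x) 2) hN.le
  have e3 : (A ^ (2 * (k + 1))).trace - (D * (1 - δ)) ^ (2 * (k + 1)) ≤
      ((s * D) ^ 2) ^ (k + 1) := by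
    have hb := one_add_mul_le_pow (a := -δ) (by linarith) (2 * (k + 1))
    have hDp : 0 ≤ D ^ (2 * (k + 1)) := pow_nonneg hD.le _
    rw [← pow_mul, mul_pow, mul_pow]
    push_cast at hb hst
    have h1 := mul_le_mul_of_nonneg_left hb hDp
    have h2 := mul_le_mul_of_nonneg_left hst hDp
    rw [← sub_eq_add_neg] at h1
    nlinarith
  have e4 := pow_logconv A hA v k
  refine le_of_pow_le_pow_left₀ (n := k + 1) (by omega) (mul_nonneg (sq_nonneg _) ha0) ?_
  calc _ ≤ _ := e4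
    _ ≤ (∑ y, v y ^ 2) ^ k * (((s * D) ^ 2) ^ (k + 1) * ∑ y, v y ^ 2) :=
      mul_le_mul_of_nonneg_left (e2.trans (mul_le_mul_of_nonneg_right e3 ha0)) (pow_nonneg ha0 _)
    _ = _ := by ring

theorem geomA {q : ℕ} (hq : 1 ≤ q) (J : ℕ) {R : ℝ} (hR : 0 ≤ R) :
    ∑ j ∈ range J, (R / 2 ^ j) ^ q ≤ 2 * R ^ q := by
  induction J generalizing R with
  | zero => simp only [range_zero, sum_empty]; positivity
  | succ J ih =>
    rw [Finset.sum_range_succ']
    have h1 := ih (R := R / 2) (by positivity)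
    have h2 : 2 * (R / 2) ^ q ≤ R ^ q := by
      rw [div_pow, ← mul_div_assoc, div_le_iff₀ (by positivity), mul_comm]
      exact mul_le_mul_of_nonneg_left (le_self_pow₀ (by norm_num) (by omega)) (by positivity)
    have h3 : ∑ j ∈ range J, (R / 2 ^ (j + 1)) ^ q = ∑ j ∈ range J, (R / 2 / 2 ^ j) ^ q :=
      Finset.sum_congr rfl fun j _ => by rw [pow_succ', div_div]
    simp only [pow_zero, div_one]
    linarith

theorem geomB {q : ℕ} (hq : 1 ≤ q) (J : ℕ) {R b : ℝ} (hR : 0 ≤ R) (hb : 0 ≤ b) :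
    ∑ j ∈ range J, (if R / 2 ^ j < b then (R / 2 ^ j) ^ q else 0) ≤ 2 * b ^ q := by
  induction J generalizing R with
  | zero => simp only [range_zero, sum_empty]; positivity
  | succ J ih =>
    by_cases h : R < b
    · calc _ ≤ ∑ j ∈ range (J + 1), (R / 2 ^ j) ^ q :=
            Finset.sum_le_sum fun j _ => by split_ifs <;> [exact le_rfl; positivity]
        _ ≤ 2 * R ^ q := geomA hq _ hR
        _ ≤ _ := by gcongr
    · rw [Finset.sum_range_succ']
      have h1 := ih (R := R / 2) (by positivity)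
      simp only [pow_zero, div_one, h, if_false, add_zero]
      refine le_trans (le_of_eq ?_) h1
      exact Finset.sum_congr rfl fun j _ => by rw [pow_succ', div_div]

theorem layer (p : ℕ) (hp : p ≠ 0) {R a : ℝ} (hR : 0 < R) (ha : 0 ≤ a) (haR : a ≤ R) :
    ∀ᶠ J in Filter.atTop,
      a ^ p ≤ ∑ j ∈ range J, (if R / 2 ^ (j + 1) < a then (R / 2 ^ j) ^ p else 0) := by
  have hnn : ∀ j : ℕ, 0 ≤ (if R / 2 ^ (j + 1) < a then (R / 2 ^ j) ^ p else 0) := fun j => by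
    split_ifs <;> positivity
  rcases ha.eq_or_lt with e | e
  · refine Filter.Eventually.of_forall fun J => ?_
    have : a ^ p = 0 := by rw [← e, zero_pow hp]
    rw [this]
    exact Finset.sum_nonneg fun j _ => hnn j
  · have hex : ∃ j : ℕ, R / 2 ^ (j + 1) < a := by
      obtain ⟨j, hj⟩ := pow_unbounded_of_one_lt (R / a) (one_lt_two (α := ℝ))
      refine ⟨j, ?_⟩
      rw [div_lt_iff₀ e] at hj
      rw [div_lt_iff₀ (by positivity), pow_succ]
      nlinarith [pow_pos (zero_lt_two (α := ℝ)) j]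
    have h1 := Nat.find_spec hex
    have h2 : a ≤ R / 2 ^ Nat.find hex := by
      rcases h : Nat.find hex with _ | i
      · simpa using haR
      · exact not_lt.1 (Nat.find_min hex (by omega))
    filter_upwards [Filter.eventually_gt_atTop (Nat.find hex)] with J hJ
    refine le_trans ?_ (Finset.single_le_sum (fun j _ => hnn j) (Finset.mem_range.2 hJ))
    rw [if_pos h1]
    exact pow_le_pow_left₀ ha h2 p

theorem weak {W : Type} [Fintype W] (T : (W → ℝ) →ₗ[ℝ] (W → ℝ)) (ε : ℝ)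
    (h1 : ∀ (f : W → ℝ) (a : ℝ), (∀ y, |f y| ≤ a) → ∀ y, |T f y| ≤ 3 * a)
    (h2 : ∀ f : W → ℝ, ∑ y, T f y ^ 2 ≤ ε * ∑ y, f y ^ 2) (f : W → ℝ) {t : ℝ} (ht : 0 < t) :
    ∑ y, (if t < |T f y| then t ^ 2 else 0) ≤
      4 * ε * ∑ z, (if t < 6 * |f z| then f z ^ 2 else 0) := by
  let g : W → ℝ := fun z => if t < 6 * |f z| then f z else 0
  have hs := h1 (f - g) (t / 6) fun z => by
    by_cases h : t < 6 * |f z|
    · simp only [g, Pi.sub_apply, h, if_true, sub_self, abs_zero]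
      positivity
    · simp only [g, Pi.sub_apply, h, if_false, sub_zero]
      linarith
  have hg := h2 g
  have e : ∑ z, g z ^ 2 = ∑ z, (if t < 6 * |f z| then f z ^ 2 else 0) :=
    Finset.sum_congr rfl fun z _ => by simp only [g]; split_ifs <;> simp
  rw [← e, mul_assoc]
  refine le_trans ?_ (mul_le_mul_of_nonneg_left hg (by norm_num))
  rw [Finset.mul_sum]
  refine Finset.sum_le_sum fun y _ => ?_
  split_ifs with h
  · have h3 := hs y
    rw [map_sub, Pi.sub_apply] at h3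
    have h4 := abs_sub_abs_le_abs_sub (T f y) (T g y)
    have h5 : t ≤ 2 * |T g y| := by linarith
    have := pow_le_pow_left₀ ht.le h5 2
    rwa [mul_pow, sq_abs, show (2 : ℝ) ^ 2 = 4 by norm_num] at this
  · positivity

end GapL2

open GapL2

theorem l2_gap {W : Type} [Fintype W] [DecidableEq W] (G : SimpleGraph W) [DecidableRel G.Adj]
    (K : ℕ) (hK : 1 ≤ K) (D δ t s : ℝ) (hD : 0 < D) (hδ : 0 ≤ δ) (hδ1 : δ ≤ 1) (hs : 0 ≤ s)
    (hdeg : ∀ v, |(G.degree v : ℝ) / D - 1| ≤ δ)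
    (htr : (G.adjMatrix ℝ ^ (2 * K)).trace ≤ (1 + t) * D ^ (2 * K))
    (hst : t + 2 * K * δ ≤ s ^ (2 * K)) (f : W → ℝ) :
    ∑ y, ((∑ z ∈ G.neighborFinset y, f z) / D - (∑ z, f z) / Fintype.card W) ^ 2 ≤
      2 * (s ^ 2 + δ ^ 2) * ∑ y, f y ^ 2 := by
  rcases isEmpty_or_nonempty W with hW | hW
  · simp
  have hN : (0 : ℝ) < Fintype.card W := by exact_mod_cast Fintype.card_pos
  set m := (∑ z, f z) / Fintype.card W with hm
  have hv : ∑ y, (f y - m) = 0 := by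
    rw [Finset.sum_sub_distrib, Finset.sum_const, Finset.card_univ, nsmul_eq_mul, hm]
    field_simp
    ring
  have h1 := gap0 G K hK D δ t s hD hδ1 hdeg htr hst (fun y => f y - m) hv
  have h2 : ∑ y, (f y - m) ^ 2 + Fintype.card W * m ^ 2 = ∑ y, f y ^ 2 := by
    rw [hm, sum_sub_mean_sq]
    field_simp
    ring
  have h3 : ∀ y, ((∑ z ∈ G.neighborFinset y, f z) / D - m) ^ 2 ≤
      2 / D ^ 2 * (Matrix.mulVec (G.adjMatrix ℝ) fun y => f y - m) y ^ 2 + 2 * δ ^ 2 * m ^ 2 := by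
    intro y
    rw [SimpleGraph.adjMatrix_mulVec_apply]
    have e : (∑ z ∈ G.neighborFinset y, f z) / D - m =
        (∑ z ∈ G.neighborFinset y, (f z - m)) / D + ((G.degree y : ℝ) / D - 1) * m := by
      rw [Finset.sum_sub_distrib, Finset.sum_const, nsmul_eq_mul,
        SimpleGraph.card_neighborFinset_eq_degree]
      ring
    have h4 : ((G.degree y : ℝ) / D - 1) ^ 2 ≤ δ ^ 2 := by
      rw [← sq_abs]
      exact pow_le_pow_left₀ (abs_nonneg _) (hdeg y) 2
    have h5 := mul_le_mul_of_nonneg_right h4 (sq_nonneg m)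
    rw [e]
    generalize ∑ z ∈ G.neighborFinset y, (f z - m) = a
    have e2 : 2 / D ^ 2 * a ^ 2 = 2 * (a / D) ^ 2 := by ring
    rw [e2]
    nlinarith [sq_nonneg (a / D - ((G.degree y : ℝ) / D - 1) * m)]
  refine (Finset.sum_le_sum fun y _ => h3 y).trans ?_
  rw [Finset.sum_add_distrib, ← Finset.mul_sum, Finset.sum_const, Finset.card_univ, nsmul_eq_mul,
    ← h2]
  have h6 := mul_le_mul_of_nonneg_left h1 (show 0 ≤ 2 / D ^ 2 by positivity)
  have e3 : 2 / D ^ 2 * ((s * D) ^ 2 * ∑ y, (f y - m) ^ 2) = 2 * s ^ 2 * ∑ y, (f y - m) ^ 2 := by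
    field_simp
  have h7 : 0 ≤ ∑ y, (f y - m) ^ 2 := Finset.sum_nonneg fun _ _ => sq_nonneg _
  have h8 : 0 ≤ δ ^ 2 * ∑ y, (f y - m) ^ 2 := by positivity
  have h9 : 0 ≤ s ^ 2 * (Fintype.card W * m ^ 2) := by positivity
  rw [e3] at h6
  nlinarith

theorem interp (p : ℕ) (hp : 3 ≤ p) : ∃ C : ℝ, 0 < C ∧
    ∀ (W : Type) [Fintype W] (T : (W → ℝ) →ₗ[ℝ] (W → ℝ)) (ε : ℝ), 0 ≤ ε →
      (∀ (f : W → ℝ) (a : ℝ), (∀ y, |f y| ≤ a) → ∀ y, |T f y| ≤ 3 * a) →
      (∀ f : W → ℝ, ∑ y, T f y ^ 2 ≤ ε * ∑ y, f y ^ 2) →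
      ∀ f : W → ℝ, ∑ y, |T f y| ^ p ≤ C * ε * ∑ y, |f y| ^ p := by
  obtain ⟨q, rfl⟩ : ∃ q, p = q + 2 := ⟨p - 2, by omega⟩
  have hq : 1 ≤ q := by omega
  refine ⟨32 * 12 ^ q, by positivity, fun W _ T ε hε h1 h2 f => ?_⟩
  obtain ⟨R₀, hR₀⟩ := (Set.finite_range fun y => |T f y|).bddAbove
  set R := max R₀ 1 with hRdef
  have hR : 0 < R := lt_max_of_lt_right one_pos
  have hle : ∀ y, |T f y| ≤ R := fun y => le_max_of_le_left (hR₀ ⟨y, rfl⟩)
  obtain ⟨J, hJ⟩ := (Filter.eventually_all.2 fun y =>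
    layer (q + 2) (by omega) hR (abs_nonneg (T f y)) (hle y)).exists
  calc ∑ y, |T f y| ^ (q + 2)
      ≤ ∑ y, ∑ j ∈ range J, (if R / 2 ^ (j + 1) < |T f y| then (R / 2 ^ j) ^ (q + 2) else 0) :=
        Finset.sum_le_sum fun y _ => hJ y
    _ = ∑ j ∈ range J, 4 * (R / 2 ^ j) ^ q *
          ∑ y, (if R / 2 ^ (j + 1) < |T f y| then (R / 2 ^ (j + 1)) ^ 2 else 0) := by
        rw [Finset.sum_comm]
        refine Finset.sum_congr rfl fun j _ => ?_
        rw [Finset.mul_sum]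
        refine Finset.sum_congr rfl fun y _ => ?_
        split_ifs
        · rw [pow_add, pow_succ (2 : ℝ) j, ← div_div]
          ring
        · simp
    _ ≤ ∑ j ∈ range J, 4 * (R / 2 ^ j) ^ q *
          (4 * ε * ∑ z, (if R / 2 ^ (j + 1) < 6 * |f z| then f z ^ 2 else 0)) :=
        Finset.sum_le_sum fun j _ => mul_le_mul_of_nonneg_left
          (weak T ε h1 h2 f (by positivity)) (by positivity)
    _ = ∑ z, 16 * ε * f z ^ 2 *
          ∑ j ∈ range J, (if R / 2 ^ j < 12 * |f z| then (R / 2 ^ j) ^ q else 0) := by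
        simp only [Finset.mul_sum]
        rw [Finset.sum_comm]
        refine Finset.sum_congr rfl fun z _ => Finset.sum_congr rfl fun j _ => ?_
        have : R / 2 ^ (j + 1) < 6 * |f z| ↔ R / 2 ^ j < 12 * |f z| := by
          rw [pow_succ, ← div_div]
          constructor <;> intro h <;> linarith
        simp only [this]
        split_ifs <;> ring
    _ ≤ ∑ z, 16 * ε * f z ^ 2 * (2 * (12 * |f z|) ^ q) :=
        Finset.sum_le_sum fun z _ => mul_le_mul_of_nonneg_left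
          (geomB hq J hR.le (by positivity)) (by positivity)
    _ = _ := by
        rw [Finset.mul_sum]
        refine Finset.sum_congr rfl fun z _ => ?_
        rw [← sq_abs (f z)]
        ring

end Crest.Agent.R30
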