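import Crest.Agent.R30.Trace
import Crest.Agent.R30.GapL2

/-! Row 30: the `ℓ^p` gap of the links of a good graph. -/

set_option autoImplicit false

namespace Crest.Agent.R30

open Finset Crest.CombinatoricsR.TriangleRemoval
open scoped BigOperators

namespace Gap

variable {n : ℕ}

/-- The link of a vertex as a graph on its neighbourhood. -/
def link (E : ES n) (hE : Simple E) (x : Fin n) : SimpleGraph {y // y ∈ nb E x} where
  Adj y z := s(y.1, z.1) ∈ E
  symm := ⟨fun y z h => by rwa [Sym2.eq_swap]⟩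
  loopless := ⟨fun y h => hE y.1 h⟩

instance (E : ES n) (hE : Simple E) (x : Fin n) : DecidableRel (link E hE x).Adj :=
  fun y z => inferInstanceAs (Decidable (s(y.1, z.1) ∈ E))

lemma map_neighborFinset (E : ES n) (hE : Simple E) (x : Fin n) (y : {y // y ∈ nb E x}) :
    ((link E hE x).neighborFinset y).map (Function.Embedding.subtype _) = cod E x y.1 := by
  ext z
  simp only [mem_map, SimpleGraph.mem_neighborFinset, Function.Embedding.coe_subtype, mem_cod]
  constructor
  · rintro ⟨z, hz, rfl⟩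
    exact ⟨mem_nb.1 z.2, hz⟩
  · rintro ⟨h1, h2⟩
    exact ⟨⟨z, mem_nb.2 h1⟩, h2, rfl⟩

lemma degree_link (E : ES n) (hE : Simple E) (x : Fin n) (y : {y // y ∈ nb E x}) :
    (link E hE x).degree y = (cod E x y.1).card := by
  rw [← map_neighborFinset E hE x y, card_map, SimpleGraph.card_neighborFinset_eq_degree]

lemma sum_link (E : ES n) (hE : Simple E) (x : Fin n) (y : {y // y ∈ nb E x}) (f : Fin n → ℝ) :
    ∑ z ∈ (link E hE x).neighborFinset y, f z.1 = ∑ z ∈ cod E x y.1, f z := by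
  rw [← map_neighborFinset E hE x y, sum_map]
  rfl

lemma cycG_link_le (E : ES n) (hE : Simple E) (x : Fin n) (c : ℕ) :
    cycG (link E hE x) c ≤ cyc E x c := by
  unfold cycG cyc
  refine card_le_card_of_injOn (fun f i => (f i).1) (fun f hf => ?_) fun f _ g _ h => ?_
  · simp only [coe_filter, mem_univ, true_and, Set.mem_ofPred_eq] at hf ⊢
    refine ⟨Subtype.val_injective.comp hf.1, ?_⟩
    unfold wheel
    refine union_subset (image_subset_iff.2 fun i _ => mem_nb.1 (f i).2)
      (image_subset_iff.2 fun i _ => hf.2 i)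
  · funext i
    exact Subtype.ext (congrFun h i)

/-- The normalised adjacency operator minus the averaging operator. -/
noncomputable def opT {W : Type} [Fintype W] (G : SimpleGraph W) [DecidableRel G.Adj] (D : ℝ) :
    (W → ℝ) →ₗ[ℝ] (W → ℝ) where
  toFun f y := (∑ z ∈ G.neighborFinset y, f z) / D - (∑ z, f z) / Fintype.card W
  map_add' f g := by
    funext y
    simp only [Pi.add_apply, sum_add_distrib]
    ring
  map_smul' c f := by
    funext y
    simp only [Pi.smul_apply, smul_eq_mul, RingHom.id_apply, ← mul_sum]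
    ring

lemma opT_apply {W : Type} [Fintype W] (G : SimpleGraph W) [DecidableRel G.Adj] (D : ℝ)
    (f : W → ℝ) (y : W) :
    opT G D f y = (∑ z ∈ G.neighborFinset y, f z) / D - (∑ z, f z) / Fintype.card W := rfl

lemma abs_opT_le {W : Type} [Fintype W] (G : SimpleGraph W) [DecidableRel G.Adj] (D : ℝ)
    (hD : 0 < D) (hdeg : ∀ v, (G.degree v : ℝ) ≤ 2 * D) (f : W → ℝ) (a : ℝ)
    (hf : ∀ y, |f y| ≤ a) (y : W) : |opT G D f y| ≤ 3 * a := by
  have ha : 0 ≤ a := (abs_nonneg _).trans (hf y)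
  have hsum : ∀ s : Finset W, |∑ z ∈ s, f z| ≤ s.card * a := fun s =>
    (abs_sum_le_sum_abs _ _).trans (by
      simpa using sum_le_card_nsmul s (fun z => |f z|) a fun z _ => hf z)
  have hc : (0 : ℝ) < Fintype.card W := by
    exact_mod_cast Fintype.card_pos_iff.2 ⟨y⟩
  have h1 : |(∑ z ∈ G.neighborFinset y, f z) / D| ≤ 2 * a := by
    rw [abs_div, abs_of_pos hD, div_le_iff₀ hD]
    have h := hsum (G.neighborFinset y)
    rw [SimpleGraph.card_neighborFinset_eq_degree] at h
    have := mul_le_mul_of_nonneg_right (hdeg y) ha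
    linarith
  have h2 : |(∑ z, f z) / Fintype.card W| ≤ a := by
    rw [abs_div, abs_of_pos hc, div_le_iff₀ hc, mul_comm]
    exact hsum univ
  rw [opT_apply]
  have := abs_sub ((∑ z ∈ G.neighborFinset y, f z) / D) ((∑ z, f z) / Fintype.card W)
  linarith

end Gap

open Gap in
theorem gap_of_good (p K : ℕ) (hp : 3 ≤ p) (hK : 2 ≤ K) : ∃ C : ℝ, 0 < C ∧
    ∀ (n : ℕ) (E : ES n) (w s : ℝ), Good w K E → 0 < w → w ≤ 1 / 2 → 1 ≤ w * DD E →
      (n : ℝ) ≤ w * DD E ^ K → w ≤ s → C * w ≤ s ^ (2 * K) → GapP E p (C * s ^ 2) := by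
  obtain ⟨C₁, hC₁, htr⟩ := trace_le K hK
  obtain ⟨C₂, hC₂, hint⟩ := interp p hp
  have hK0 : (0 : ℝ) ≤ K := Nat.cast_nonneg K
  refine ⟨1 + 2 * C₁ + K + 4 * C₂, by positivity, ?_⟩
  intro n E w s hG hw hw2 hwD hn hws hC x f
  set D := DD E with hDdef
  have hD0 : 0 < D := by
    by_contra h
    have := mul_nonpos_of_nonneg_of_nonpos hw.le (not_lt.1 h)
    linarith
  have hD1 : 1 ≤ D := by nlinarith
  have hw2' : w ^ 2 ≤ w / 2 := by nlinarith
  have hE := hG.reg.simple
  have hdeg : ∀ v, |(((link E hE x).degree v : ℕ) : ℝ) / D - 1| ≤ w ^ 2 := fun v => by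
    rw [degree_link]
    exact hG.reg.codeg x v.1 (mem_nb.1 v.2)
  have hdeg2 : ∀ v, (((link E hE x).degree v : ℕ) : ℝ) ≤ 2 * D := fun v => by
    have := (abs_le.1 (hdeg v)).2
    rw [← div_le_iff₀ hD0]
    linarith
  have hcyc : ∀ c, 2 ≤ c → c < 2 * K → (cycG (link E hE x) c : ℝ) ≤ (1 + w) * D ^ (c + 1) := by
    intro c h1 h2
    have h3 := (abs_le.1 (hG.cycle x c h1 h2)).2
    have h4 : (cycG (link E hE x) c : ℝ) ≤ cyc E x c := by exact_mod_cast cycG_link_le E hE x c
    refine h4.trans ?_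
    rw [← div_le_iff₀ (by positivity)]
    unfold zeta at h3
    linarith
  have h1 := htr _ (link E hE x) D hD1 hdeg2 fun c h1 h2 => (hcyc c h1 h2).trans
    (mul_le_mul_of_nonneg_right (by linarith) (by positivity))
  have hcard : (Fintype.card {y // y ∈ nb E x} : ℝ) ≤ n := by
    have := Fintype.card_subtype_le fun y => y ∈ nb E x
    rw [Fintype.card_fin] at this
    exact_mod_cast this
  have h2 : ((link E hE x).adjMatrix ℝ ^ (2 * K)).trace ≤ (1 + (1 + 2 * C₁) * w) * D ^ (2 * K) := by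
    have e1 : 2 * K - 1 + 1 = 2 * K := by omega
    have a1 := hcyc (2 * K - 1) (by omega) (by omega)
    rw [e1] at a1
    have a2 : D ^ (2 * K - 1) ≤ w * D ^ (2 * K) := by
      calc D ^ (2 * K - 1) ≤ D ^ (2 * K - 1) * (w * D) :=
            le_mul_of_one_le_right (by positivity) hwD
        _ = w * D ^ (2 * K - 1 + 1) := by ring
        _ = _ := by rw [e1]
    have a3 : (Fintype.card {y // y ∈ nb E x} : ℝ) * D ^ K ≤ w * D ^ (2 * K) := by
      calc _ ≤ w * D ^ K * D ^ K := mul_le_mul_of_nonneg_right (hcard.trans hn) (by positivity)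
        _ = _ := by ring
    have a4 := mul_le_mul_of_nonneg_left (add_le_add a2 a3) hC₁.le
    linarith
  have hs0 : 0 ≤ s := hw.le.trans hws
  have h3 := l2_gap (link E hE x) K (by omega) D (w ^ 2) ((1 + 2 * C₁) * w) s hD0 (by positivity)
    (by linarith) hs0 hdeg h2 (by
      have a1 := mul_le_mul_of_nonneg_left hw2' hK0
      have a2 : 0 ≤ C₂ * w := by positivity
      linarith)
  have h4 := hint _ (opT (link E hE x) D) (4 * s ^ 2) (by positivity)
    (abs_opT_le _ D hD0 hdeg2) (fun g => (h3 g).trans (by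
      refine mul_le_mul_of_nonneg_right ?_ (sum_nonneg fun _ _ => sq_nonneg _)
      have a1 : w ^ 2 ≤ s := by linarith
      have a2 : (w ^ 2) ^ 2 ≤ s ^ 2 := pow_le_pow_left₀ (by positivity) a1 2
      linarith)) (fun y => f y.1)
  have e1 : ∑ y ∈ nb E x, |Eop E x f y| ^ p =
      ∑ y : {y // y ∈ nb E x}, |opT (link E hE x) D (fun y => f y.1) y| ^ p := by
    rw [← sum_coe_sort (nb E x)]
    refine sum_congr rfl fun y _ => ?_
    rw [opT_apply, sum_link, sum_coe_sort (nb E x) f, Fintype.card_coe]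
    rfl
  rw [e1, ← sum_coe_sort (nb E x) fun y => |f y| ^ p]
  refine h4.trans (mul_le_mul_of_nonneg_right ?_ (sum_nonneg fun _ _ => by positivity))
  have a1 : 0 ≤ (1 + 2 * C₁ + K) * s ^ 2 := by positivity
  linarith

end Crest.Agent.R30
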