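import Crest.Agent.R30.Defs

/-! The complete graph: initial value of the potential. -/

set_option autoImplicit false

namespace Crest.Agent.R30

open Finset Crest.CombinatoricsR.TriangleRemoval
open scoped BigOperators

namespace Init

theorem mem_allEdges {n : ℕ} {x y : Fin n} : s(x, y) ∈ allEdges n ↔ x ≠ y := by
  simp [allEdges]

theorem nb_eq {n : ℕ} (x : Fin n) : nb (allEdges n) x = univ.erase x := by
  ext y
  simp [mem_allEdges, eq_comm]

theorem card_nb {n : ℕ} (x : Fin n) : ((nb (allEdges n) x).card : ℝ) = n - 1 := by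
  rw [nb_eq, card_erase_of_mem (mem_univ x), card_univ, Fintype.card_fin,
    Nat.cast_sub (Nat.succ_le_of_lt x.pos), Nat.cast_one]

theorem card_cod {n : ℕ} {x y : Fin n} (h : x ≠ y) :
    ((cod (allEdges n) x y).card : ℝ) = n - 2 := by
  have h1 : cod (allEdges n) x y = univ \ {x, y} := by
    ext z
    simp [mem_allEdges, eq_comm]
  have h2 : ({x, y} : Finset (Fin n)).card = 2 := card_pair h
  have h3 : 2 ≤ n := by
    have := card_le_univ ({x, y} : Finset (Fin n))
    rwa [h2, Fintype.card_fin] at this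
  rw [h1, card_univ_sdiff, h2, Fintype.card_fin, Nat.cast_sub h3, Nat.cast_ofNat]

theorem pow_le_lin {x : ℝ} (h0 : 0 ≤ x) (h1 : x ≤ 1) (m : ℕ) :
    (1 + x) ^ m ≤ 1 + (2 ^ m - 1) * x := by
  induction m with
  | zero => simp
  | succ m ih =>
    have h2 : (1 : ℝ) ≤ 2 ^ m := one_le_pow₀ (by norm_num)
    have h3 : (1 + x) ^ (m + 1) ≤ (1 + (2 ^ m - 1) * x) * (1 + x) := by
      rw [pow_succ]
      exact mul_le_mul_of_nonneg_right ih (by linarith)
    have h4 : (2 ^ m - 1) * x * x ≤ (2 ^ m - 1) * x :=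
      mul_le_of_le_one_right (mul_nonneg (by linarith) h0) h1
    rw [pow_succ (2 : ℝ)]
    nlinarith

theorem cyc_le {n : ℕ} (E : ES n) (x : Fin n) (c : ℕ) : cyc E x c ≤ n ^ (c + 1) := by
  unfold cyc
  refine (card_le_univ _).trans ?_
  simp

theorem le_cyc {n : ℕ} (x : Fin n) {c : ℕ} (hc : 1 ≤ c) :
    (n - (c + 1)) ^ (c + 1) ≤ cyc (allEdges n) x c := by
  obtain ⟨m, rfl⟩ : ∃ m, n = m + 1 := ⟨n - 1, by have := x.pos; omega⟩
  refine (Nat.pow_sub_le_descFactorial m (c + 1)).trans ?_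
  have h1 : m.descFactorial (c + 1) = (univ : Finset (Fin (c + 1) ↪ Fin m)).card := by
    rw [card_univ, Fintype.card_embedding_eq, Fintype.card_fin, Fintype.card_fin]
  rw [h1]
  unfold cyc
  refine card_le_card_of_injOn (fun f i => x.succAbove (f i)) ?_ ?_
  · intro f _
    have hinj : Function.Injective fun i => x.succAbove (f i) :=
      Fin.succAbove_right_injective.comp f.injective
    simp only [coe_filter, mem_univ, true_and, Set.mem_ofPred_eq]
    refine ⟨hinj, ?_⟩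
    unfold wheel
    refine union_subset ?_ ?_
    · intro e he
      obtain ⟨i, _, rfl⟩ := mem_image.1 he
      exact mem_allEdges.2 (Fin.succAbove_ne x (f i)).symm
    · intro e he
      obtain ⟨i, _, rfl⟩ := mem_image.1 he
      refine mem_allEdges.2 fun h => ?_
      have h2 : i = i + 1 := hinj h
      obtain ⟨c', rfl⟩ : ∃ c', c = c' + 1 := ⟨c - 1, by omega⟩
      have h3 : (0 : Fin (c' + 1 + 1)) = 1 := by
        have : i + 0 = i + 1 := by rw [add_zero]; exact h2
        exact add_left_cancel this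
      exact absurd h3 Fin.zero_ne_one
  · intro f _ g _ h
    ext i
    have := congrFun h i
    rw [Fin.succAbove_right_injective this]

end Init

theorem simple_allEdges (n : ℕ) : Simple (allEdges n) := fun _ hx =>
  Init.mem_allEdges.1 hx rfl

theorem card_allEdges (n : ℕ) : 2 * ((allEdges n).card : ℝ) = n * (n - 1) := by
  rw [← sum_card_nb (simple_allEdges n)]
  simp only [Init.card_nb, sum_const, nsmul_eq_mul, card_univ, Fintype.card_fin]

namespace Init

theorem dbar_eq {n : ℕ} (hn : 0 < n) : dbar (allEdges n) = n - 1 := by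
  have : (n : ℝ) ≠ 0 := by exact_mod_cast hn.ne'
  rw [dbar, card_allEdges]
  field_simp

theorem DD_eq {n : ℕ} (hn : 0 < n) : DD (allEdges n) = (n - 1) ^ 2 / n := by
  rw [DD, dbar_eq hn]

theorem beta_eq {n : ℕ} (hn : 2 ≤ n) (x : Fin n) : beta (allEdges n) x = 0 := by
  have h : (2 : ℝ) ≤ n := by exact_mod_cast hn
  rw [beta, card_nb, dbar_eq (by omega), div_self (by linarith), sub_self]

theorem abs_xi_le {n : ℕ} (hn : 3 ≤ n) {x y : Fin n} (h : x ≠ y) :
    |xi (allEdges n) x y| ≤ 1 / n := by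
  have h3 : (3 : ℝ) ≤ n := by exact_mod_cast hn
  have h1 : (n : ℝ) - 1 ≠ 0 := by linarith
  have h0 : (n : ℝ) ≠ 0 := by linarith
  have : xi (allEdges n) x y = -(1 / ((n : ℝ) - 1) ^ 2) := by
    rw [xi, beta_eq (by omega), beta_eq (by omega), eta, card_cod h, DD_eq (by omega)]
    field_simp
    ring
  rw [this, abs_neg, abs_of_nonneg (by positivity)]
  exact one_div_le_one_div_of_le (by linarith) (by nlinarith)

theorem abs_zeta_le {n K : ℕ} (hn : 2 * K + 6 ≤ n) (x : Fin n) {c : ℕ} (hc : 1 ≤ c)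
    (hcK : c < 2 * K) :
    |zeta (allEdges n) x c| ≤ ((2 * K) ^ 2 + 6 * 2 ^ (2 * K)) / n := by
  have h6 : (2 * K + 6 : ℝ) ≤ n := by exact_mod_cast hn
  have hK : (0 : ℝ) ≤ K := Nat.cast_nonneg K
  have hcK' : ((c + 1 : ℕ) : ℝ) ≤ 2 * K := by exact_mod_cast hcK
  have hn0 : (0 : ℝ) < n := by linarith
  have hD : 0 < DD (allEdges n) := by
    rw [DD_eq (by omega)]
    have : (0 : ℝ) < n - 1 := by linarith
    positivity
  have hup : (cyc (allEdges n) x c : ℝ) / DD (allEdges n) ^ (c + 1) ≤ 1 + 6 * 2 ^ (2 * K) / n := by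
    have h1 : (cyc (allEdges n) x c : ℝ) ≤ (n : ℝ) ^ (c + 1) := by exact_mod_cast cyc_le _ x c
    have h2 : (n : ℝ) / DD (allEdges n) ≤ 1 + 6 / n := by
      rw [DD_eq (by omega), div_div_eq_mul_div, div_le_iff₀ (by nlinarith), add_mul, one_mul,
        div_mul_eq_mul_div, ← sub_le_iff_le_add', le_div_iff₀ hn0]
      nlinarith
    have h3 : (2 : ℝ) ^ (c + 1) ≤ 2 ^ (2 * K) := pow_le_pow_right₀ (by norm_num) (by omega)
    calc (cyc (allEdges n) x c : ℝ) / DD (allEdges n) ^ (c + 1)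
        ≤ (n : ℝ) ^ (c + 1) / DD (allEdges n) ^ (c + 1) := by gcongr
      _ = ((n : ℝ) / DD (allEdges n)) ^ (c + 1) := by rw [div_pow]
      _ ≤ (1 + 6 / n) ^ (c + 1) := by gcongr
      _ ≤ 1 + (2 ^ (c + 1) - 1) * (6 / n) :=
          pow_le_lin (by positivity) (by rw [div_le_one hn0]; linarith) _
      _ ≤ 1 + 2 ^ (2 * K) * (6 / n) := by gcongr; linarith
      _ = _ := by ring
  have hlo : 1 - (2 * K) ^ 2 / n ≤ (cyc (allEdges n) x c : ℝ) / DD (allEdges n) ^ (c + 1) := by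
    have h1 : ((n : ℝ) - (c + 1 : ℕ)) ^ (c + 1) ≤ (cyc (allEdges n) x c : ℝ) := by
      rw [← Nat.cast_sub (by omega)]
      exact_mod_cast le_cyc x hc
    set m : ℝ := ((c + 1 : ℕ) : ℝ) with hm
    have hm0 : 0 ≤ m := Nat.cast_nonneg _
    have h2 : 1 + -(m / n) ≤ ((n : ℝ) - m) / DD (allEdges n) := by
      rw [DD_eq (by omega), div_div_eq_mul_div, le_div_iff₀ (by nlinarith)]
      have e : 1 + -(m / n) = (n - m) / n := by field_simp; ring
      rw [e, div_mul_eq_mul_div, div_le_iff₀ hn0, mul_assoc]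
      exact mul_le_mul_of_nonneg_left (by nlinarith) (by linarith)
    have h3 : m / n ≤ 1 := by rw [div_le_one hn0]; linarith
    calc 1 - (2 * K) ^ 2 / n ≤ 1 + m * -(m / n) := by
          have : m * m / n ≤ (2 * K) ^ 2 / n := by
            gcongr
            nlinarith
          have e : m * -(m / n) = -(m * m / n) := by ring
          linarith
      _ ≤ (1 + -(m / n)) ^ (c + 1) := one_add_mul_le_pow (by linarith) _
      _ ≤ (((n : ℝ) - m) / DD (allEdges n)) ^ (c + 1) := by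
          gcongr
          linarith
      _ = ((n : ℝ) - m) ^ (c + 1) / DD (allEdges n) ^ (c + 1) := by rw [div_pow]
      _ ≤ _ := by gcongr
  have a1 : (0 : ℝ) ≤ (2 * K) ^ 2 / n := by positivity
  have a2 : (0 : ℝ) ≤ 6 * 2 ^ (2 * K) / n := by positivity
  rw [zeta, add_div, abs_le]
  constructor <;> linarith

end Init

theorem pot_init (p K : ℕ) (hp : Even p) : ∃ C : ℝ, 0 < C ∧ ∀ (n : ℕ) (Λ w : ℝ), C ≤ n → 1 ≤ Λ →
    0 < w → w ≤ 1 → Pot p K Λ w (allEdges n) ≤ C * Λ ^ p * n ^ 2 * (1 / (n * w ^ 2)) ^ p := by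
  set L : ℝ := (2 * K) ^ 2 + 6 * 2 ^ (2 * K) with hL
  have hL0 : 0 ≤ L := by positivity
  have hK : (0 : ℝ) ≤ K := Nat.cast_nonneg K
  refine ⟨2 * K + 6 + 2 * 3 ^ p + 2 * K * L ^ p, by positivity, fun n Λ w hn hΛ hw hw1 => ?_⟩
  have h6 : (2 * K + 6 : ℝ) ≤ n := by
    have : (0 : ℝ) ≤ 2 * 3 ^ p + 2 * K * L ^ p := by positivity
    linarith
  have hn' : 2 * K + 6 ≤ n := by exact_mod_cast h6
  have hn0 : (0 : ℝ) < n := by linarith
  have hΛp : 1 ≤ Λ ^ p := one_le_pow₀ hΛ
  have hPhi : Phi (allEdges n) p Λ (xi (allEdges n)) (beta (allEdges n)) ≤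
      2 * (n ^ 2 * (1 / n) ^ p) := by
    have h1 : ∑ x, ∑ y ∈ nb (allEdges n) x, xi (allEdges n) x y ^ p ≤ n ^ 2 * (1 / n : ℝ) ^ p := by
      calc ∑ x, ∑ y ∈ nb (allEdges n) x, xi (allEdges n) x y ^ p
          ≤ ∑ x : Fin n, ∑ y ∈ nb (allEdges n) x, (1 / n : ℝ) ^ p := by
            refine sum_le_sum fun x _ => sum_le_sum fun y hy => ?_
            rw [← hp.pow_abs]
            exact pow_le_pow_left₀ (abs_nonneg _)
              (Init.abs_xi_le (by omega) (Init.mem_allEdges.1 (mem_nb.1 hy))) _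
        _ = n * ((n - 1) * (1 / n : ℝ) ^ p) := by
            simp only [sum_const, nsmul_eq_mul, Init.card_nb, card_univ, Fintype.card_fin]
        _ ≤ n * (n * (1 / n : ℝ) ^ p) := by gcongr; linarith
        _ = _ := by ring
    have h2 : (Λ ^ p)⁻¹ * dbar (allEdges n) * ∑ x, beta (allEdges n) x ^ p ≤
        n ^ 2 * (1 / n : ℝ) ^ p := by
      have h3 : ∑ x, beta (allEdges n) x ^ p ≤ n * (1 / n : ℝ) ^ p := by
        calc ∑ x, beta (allEdges n) x ^ p ≤ ∑ x : Fin n, (1 / n : ℝ) ^ p := by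
              refine sum_le_sum fun x _ => ?_
              rw [Init.beta_eq (by omega)]
              exact pow_le_pow_left₀ le_rfl (by positivity) _
          _ = _ := by simp only [sum_const, nsmul_eq_mul, card_univ, Fintype.card_fin]
      have h4 : 0 ≤ ∑ x, beta (allEdges n) x ^ p := sum_nonneg fun x _ => hp.pow_nonneg _
      have h5 : (Λ ^ p)⁻¹ * dbar (allEdges n) ≤ 1 * n := by
        rw [Init.dbar_eq (by omega)]
        exact mul_le_mul (inv_le_one_of_one_le₀ hΛp) (by linarith) (by linarith) zero_le_one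
      calc _ ≤ 1 * n * (n * (1 / n : ℝ) ^ p) := mul_le_mul h5 h3 h4 (by positivity)
        _ = _ := by ring
    unfold Phi
    linarith
  have hZ : ∑ x, ∑ c ∈ Ico 2 (2 * K), (zeta (allEdges n) x c / w) ^ p ≤
      n * (2 * K * (L ^ p * (1 / (n * w ^ 2)) ^ p)) := by
    calc ∑ x, ∑ c ∈ Ico 2 (2 * K), (zeta (allEdges n) x c / w) ^ p
        ≤ ∑ x : Fin n, ∑ c ∈ Ico 2 (2 * K), L ^ p * (1 / (n * w ^ 2)) ^ p := by
          refine sum_le_sum fun x _ => sum_le_sum fun c hc => ?_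
          rw [← hp.pow_abs, ← mul_pow]
          refine pow_le_pow_left₀ (abs_nonneg _) ?_ _
          have h1 := Init.abs_zeta_le hn' x (c := c) (by have := (mem_Ico.1 hc).1; omega)
            (mem_Ico.1 hc).2
          rw [abs_div, abs_of_pos hw]
          calc |zeta (allEdges n) x c| / w ≤ L / n / w := by gcongr
            _ = L * (1 / (n * w)) := by field_simp
            _ ≤ L * (1 / (n * w ^ 2)) := by
                gcongr
                nlinarith
      _ = n * ((2 * K - 2 : ℕ) * (L ^ p * (1 / (n * w ^ 2)) ^ p)) := by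
          simp only [sum_const, nsmul_eq_mul, card_univ, Fintype.card_fin, Nat.card_Ico]
      _ ≤ _ := by
          gcongr
          exact_mod_cast Nat.sub_le _ _
  have hq : (0 : ℝ) ≤ (1 / (n * w ^ 2)) ^ p := by positivity
  have e1 : (3 / w ^ 2) ^ p * (1 / n : ℝ) ^ p = 3 ^ p * (1 / (n * w ^ 2)) ^ p := by
    rw [← mul_pow, ← mul_pow]
    congr 1
    field_simp
  set q : ℝ := (1 / (n * w ^ 2)) ^ p
  have t1 : Λ ^ p * (3 / w ^ 2) ^ p * Phi (allEdges n) p Λ (xi (allEdges n)) (beta (allEdges n)) ≤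
      2 * 3 ^ p * (Λ ^ p * n ^ 2 * q) := by
    calc _ ≤ Λ ^ p * (3 / w ^ 2) ^ p * (2 * (n ^ 2 * (1 / n) ^ p)) := by gcongr
      _ = 2 * Λ ^ p * n ^ 2 * ((3 / w ^ 2) ^ p * (1 / n : ℝ) ^ p) := by ring
      _ = _ := by rw [e1]; ring
  have t2 : n * (2 * K * (L ^ p * q)) ≤ 2 * K * L ^ p * (Λ ^ p * n ^ 2 * q) := by
    have : (n : ℝ) ≤ Λ ^ p * n ^ 2 := by nlinarith
    calc n * (2 * K * (L ^ p * q)) = 2 * K * L ^ p * (n * q) := by ring
      _ ≤ _ := by gcongr
  have t3 : 0 ≤ (2 * K + 6) * (Λ ^ p * n ^ 2 * q) := by positivity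
  unfold Pot
  nlinarith

end Crest.Agent.R30
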