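import Crest.Agent.R30.Defs

/-! The `ℓ^p` Lyapunov step for the triangle removal process. -/

set_option autoImplicit false

namespace Crest.Agent.R30

open Finset Crest.CombinatoricsR.TriangleRemoval
open scoped BigOperators

namespace Lyap

/-- second order Taylor remainder of a power -/
lemma taylor_rem (z d : ℝ) (m : ℕ) :
    |(z + d) ^ (m + 2) - z ^ (m + 2) - (m + 2) * z ^ (m + 1) * d| ≤
      (m + 2) ^ 2 * (|z| + |d|) ^ m * d ^ 2 := by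
  induction m with
  | zero =>
    have : (z + d) ^ (0 + 2) - z ^ (0 + 2) - ((0 : ℕ) + 2 : ℝ) * z ^ (0 + 1) * d = d ^ 2 := by
      push_cast; ring
    rw [this, abs_of_nonneg (sq_nonneg d)]
    push_cast
    nlinarith [sq_nonneg d]
  | succ m ih =>
    have h1 : (z + d) ^ (m + 1 + 2) - z ^ (m + 1 + 2) - ((m + 1 : ℕ) + 2 : ℝ) * z ^ (m + 1 + 1) * d
        = (z + d) * ((z + d) ^ (m + 2) - z ^ (m + 2) - (m + 2) * z ^ (m + 1) * d) +
          (m + 2) * z ^ (m + 1) * d ^ 2 := by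
      push_cast; ring
    rw [h1]
    have hs : 0 ≤ |z| + |d| := by positivity
    have h2 : |(z + d) * ((z + d) ^ (m + 2) - z ^ (m + 2) - (m + 2) * z ^ (m + 1) * d)| ≤
        (|z| + |d|) * ((m + 2) ^ 2 * (|z| + |d|) ^ m * d ^ 2) := by
      rw [abs_mul]
      exact mul_le_mul (abs_add_le _ _) ih (abs_nonneg _) hs
    have h3 : |((m : ℝ) + 2) * z ^ (m + 1) * d ^ 2| ≤ (m + 2) * (|z| + |d|) ^ (m + 1) * d ^ 2 := by
      rw [abs_mul, abs_mul, abs_pow, abs_of_nonneg (sq_nonneg d),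
        abs_of_nonneg (by positivity : (0 : ℝ) ≤ m + 2)]
      gcongr
      linarith [abs_nonneg d]
    have h4 : 0 ≤ (|z| + |d|) ^ (m + 1) * d ^ 2 := by positivity
    refine (abs_add_le _ _).trans ((add_le_add h2 h3).trans ?_)
    have hm : (0 : ℝ) ≤ m := by positivity
    have h5 : (|z| + |d|) * ((m + 2) ^ 2 * (|z| + |d|) ^ m * d ^ 2) +
        (m + 2) * (|z| + |d|) ^ (m + 1) * d ^ 2 =
        ((m + 2) ^ 2 + (m + 2)) * ((|z| + |d|) ^ (m + 1) * d ^ 2) := by ring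
    rw [h5, mul_assoc]
    push_cast
    exact mul_le_mul_of_nonneg_right (by nlinarith) h4

/-- Young's inequality with a parameter -/
lemma young {a b L : ℝ} (ha : 0 ≤ a) (hb : 0 ≤ b) (hL : 1 ≤ L) (k : ℕ) :
    a ^ k * b ≤ a ^ (k + 1) / L + L ^ k * b ^ (k + 1) := by
  have hL0 : 0 < L := by linarith
  rcases le_total (b * L) a with h | h
  · have : a ^ k * b ≤ a ^ (k + 1) / L := by
      rw [le_div_iff₀ hL0, pow_succ, mul_assoc]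
      gcongr
    have h2 : 0 ≤ L ^ k * b ^ (k + 1) := by positivity
    linarith
  · have : a ^ k * b ≤ L ^ k * b ^ (k + 1) := by
      calc a ^ k * b ≤ (b * L) ^ k * b := by gcongr
        _ = _ := by ring
    have h2 : 0 ≤ a ^ (k + 1) / L := by positivity
    linarith

lemma young2 {a σ L : ℝ} (ha : 0 ≤ a) (hσ : 0 ≤ σ) (hL : 1 ≤ L) (m : ℕ) :
    (a + σ) ^ m * σ ^ 2 ≤ 2 ^ m * (a ^ (m + 2) / L + L ^ (m + 2) * σ ^ (m + 2)) := by
  have hL0 : 0 < L := by linarith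
  rcases le_total (σ * L) a with h | h
  · have hσa : σ ≤ a := by nlinarith
    have : (a + σ) ^ m * σ ^ 2 ≤ 2 ^ m * (a ^ (m + 2) / L) := by
      rw [← mul_div_assoc, le_div_iff₀ hL0]
      calc (a + σ) ^ m * σ ^ 2 * L = (a + σ) ^ m * (σ * (σ * L)) := by ring
        _ ≤ (2 * a) ^ m * (a * a) := by gcongr; linarith
        _ = _ := by ring
    have h2 : 0 ≤ 2 ^ m * (L ^ (m + 2) * σ ^ (m + 2)) := by positivity
    linarith [mul_add ((2 : ℝ) ^ m) (a ^ (m + 2) / L) (L ^ (m + 2) * σ ^ (m + 2))]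
  · have : (a + σ) ^ m * σ ^ 2 ≤ 2 ^ m * (L ^ (m + 2) * σ ^ (m + 2)) := by
      have h1 : (1 : ℝ) ≤ L ^ 2 := one_le_pow₀ hL
      calc (a + σ) ^ m * σ ^ 2 = (a + σ) ^ m * σ ^ 2 * 1 := by ring
        _ ≤ (2 * (σ * L)) ^ m * σ ^ 2 * L ^ 2 := by gcongr; nlinarith
        _ = _ := by ring
    have h2 : 0 ≤ 2 ^ m * (a ^ (m + 2) / L) := by positivity
    linarith [mul_add ((2 : ℝ) ^ m) (a ^ (m + 2) / L) (L ^ (m + 2) * σ ^ (m + 2))]

/-- weighted AM-GM -/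
lemma amgm {a b : ℝ} (ha : 0 ≤ a) (hb : 0 ≤ b) (k : ℕ) :
    (k + 1) * a ^ k * b ≤ k * a ^ (k + 1) + b ^ (k + 1) := by
  induction k with
  | zero => simp
  | succ k ih =>
    have h1 := mul_le_mul_of_nonneg_left ih hb
    have h2 : 0 ≤ (k + 1) * a ^ k * (b - a) ^ 2 := by positivity
    push_cast
    have e1 : a ^ (k + 1) = a ^ k * a := pow_succ _ _
    have e2 : a ^ (k + 1 + 1) = a ^ k * a * a := by ring
    have e3 : b ^ (k + 1 + 1) = b * b ^ (k + 1) := by ring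
    rw [e2, e3, e1]
    rw [e1] at h1
    nlinarith

/-- Jensen's inequality for averages -/
lemma jensen {ι : Type*} (s : Finset ι) (f : ι → ℝ) (k : ℕ) :
    |(∑ i ∈ s, f i) / s.card| ^ (k + 1) ≤ (∑ i ∈ s, |f i| ^ (k + 1)) / s.card := by
  rcases s.eq_empty_or_nonempty with rfl | hs
  · simp
  have hc : (0 : ℝ) < s.card := by exact_mod_cast hs.card_pos
  have h1 := pow_sum_le_card_mul_sum_pow (s := s) (f := fun i => |f i|) (fun i _ => abs_nonneg _) k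
  rw [abs_div, abs_of_pos hc, div_pow, div_le_div_iff₀ (by positivity) hc]
  calc |∑ i ∈ s, f i| ^ (k + 1) * s.card ≤ (∑ i ∈ s, |f i|) ^ (k + 1) * s.card := by
        gcongr; exact abs_sum_le_sum_abs _ _
    _ ≤ (s.card ^ k * ∑ i ∈ s, |f i| ^ (k + 1)) * s.card := by gcongr
    _ = _ := by ring

lemma three_pow (a b c : ℝ) (k : ℕ) :
    |a + b + c| ^ (k + 1) ≤ 3 ^ k * (|a| ^ (k + 1) + |b| ^ (k + 1) + |c| ^ (k + 1)) := by
  have h := pow_sum_le_card_mul_sum_pow (s := (univ : Finset (Fin 3)))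
    (f := ![|a|, |b|, |c|]) (fun i _ => by fin_cases i <;> simp) k
  simp only [Fin.sum_univ_three, Matrix.cons_val_zero, Matrix.cons_val_one, Matrix.cons_val,
    card_univ, Fintype.card_fin, Nat.cast_ofNat] at h
  refine le_trans ?_ h
  gcongr
  exact abs_add_three _ _ _

/-- the constant of the core lemma -/
def C0 (m : ℕ) : ℝ := (m + 2) ^ 2 * 2 ^ m

lemma C0_pos (m : ℕ) : 0 < C0 m := by unfold C0; positivity

lemma core (m : ℕ) {τ : Type} {𝒯 : Finset τ} {L ρ σ z : ℝ} {z' : τ → ℝ} (hne : 𝒯.Nonempty)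
    (hL : 1 ≤ L) (hρ : 0 ≤ ρ) (hσ : 0 ≤ σ) (h1 : ∀ T ∈ 𝒯, |z' T - z| ≤ σ)
    (h2 : 𝔼 T ∈ 𝒯, (z' T - z) ^ 2 ≤ ρ * σ ^ 2) :
    𝔼 T ∈ 𝒯, z' T ^ (m + 2) ≤ z ^ (m + 2) + (m + 2) * z ^ (m + 1) * (𝔼 T ∈ 𝒯, (z' T - z)) +
      C0 m * ρ * (|z| ^ (m + 2) / L + L ^ (m + 2) * σ ^ (m + 2)) := by
  have h3 : 𝔼 T ∈ 𝒯, z' T ^ (m + 2) ≤ 𝔼 T ∈ 𝒯, (z ^ (m + 2) + (m + 2) * z ^ (m + 1) * (z' T - z) +
      (m + 2) ^ 2 * (|z| + σ) ^ m * (z' T - z) ^ 2) := by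
    refine expect_le_expect fun T hT => ?_
    have h4 := (le_abs_self _).trans (taylor_rem z (z' T - z) m)
    have h5 : ((m : ℝ) + 2) ^ 2 * (|z| + |z' T - z|) ^ m * (z' T - z) ^ 2 ≤
        (m + 2) ^ 2 * (|z| + σ) ^ m * (z' T - z) ^ 2 := by
      gcongr
      exact h1 T hT
    rw [add_sub_cancel] at h4
    linarith
  rw [expect_add_distrib, expect_add_distrib, expect_const hne, ← mul_expect, ← mul_expect] at h3
  refine h3.trans (add_le_add le_rfl ?_)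
  have h6 := young2 (abs_nonneg z) hσ hL m
  calc ((m : ℝ) + 2) ^ 2 * (|z| + σ) ^ m * 𝔼 T ∈ 𝒯, (z' T - z) ^ 2
      ≤ (m + 2) ^ 2 * (|z| + σ) ^ m * (ρ * σ ^ 2) := by gcongr
    _ = (m + 2) ^ 2 * ρ * ((|z| + σ) ^ m * σ ^ 2) := by ring
    _ ≤ (m + 2) ^ 2 * ρ * (2 ^ m * (|z| ^ (m + 2) / L + L ^ (m + 2) * σ ^ (m + 2))) := by gcongr
    _ = _ := by unfold C0; ring

/-- a drift bounded by three terms -/
lemma drift3 (m : ℕ) {L ρ z D a b c : ℝ} (hL : 1 ≤ L) (hρ : 0 ≤ ρ) (ha : 0 ≤ a) (hb : 0 ≤ b)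
    (hc : 0 ≤ c) (hD : |D| ≤ ρ * (a + b + c)) :
    (m + 2) * z ^ (m + 1) * D ≤ (m + 2) * ρ * (3 * |z| ^ (m + 2) / L +
      L ^ (m + 1) * (a ^ (m + 2) + b ^ (m + 2) + c ^ (m + 2))) := by
  have h1 := young (abs_nonneg z) ha hL (m + 1)
  have h2 := young (abs_nonneg z) hb hL (m + 1)
  have h3 := young (abs_nonneg z) hc hL (m + 1)
  calc ((m : ℝ) + 2) * z ^ (m + 1) * D = (m + 2) * (z ^ (m + 1) * D) := by ring
    _ ≤ (m + 2) * (|z| ^ (m + 1) * (ρ * (a + b + c))) := by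
        refine mul_le_mul_of_nonneg_left ((le_abs_self _).trans ?_) (by positivity)
        rw [abs_mul, abs_pow]
        gcongr
    _ = (m + 2) * ρ * (|z| ^ (m + 1) * a + |z| ^ (m + 1) * b + |z| ^ (m + 1) * c) := by ring
    _ ≤ _ := by
        refine mul_le_mul_of_nonneg_left ?_ (by positivity)
        have : 3 * |z| ^ (m + 2) / L = |z| ^ (m + 2) / L + |z| ^ (m + 2) / L + |z| ^ (m + 2) / L := by
          ring
        rw [this]
        linarith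

/-- pointwise step for the edge variables -/
lemma xi_step (m : ℕ) (hm : Even (m + 2)) {τ : Type} {𝒯 : Finset τ} {L ρ r σ z u v : ℝ}
    {z' : τ → ℝ} (hne : 𝒯.Nonempty)
    (hL : 1 ≤ L) (hρ : 0 ≤ ρ) (hr : 0 ≤ r) (hσ : 0 ≤ σ) (h1 : ∀ T ∈ 𝒯, |z' T - z| ≤ σ)
    (h2 : 𝔼 T ∈ 𝒯, (z' T - z) ^ 2 ≤ ρ * σ ^ 2)
    (h3 : |(𝔼 T ∈ 𝒯, (z' T - z)) + ρ * (u + v)| ≤ ρ * r) :
    𝔼 T ∈ 𝒯, z' T ^ (m + 2) ≤ (1 + (3 * (m + 2) + C0 m) * ρ / L) * z ^ (m + 2) +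
      (m + 2) * ρ * L ^ (m + 1) * |u| ^ (m + 2) + (m + 2) * ρ * L ^ (m + 1) * |v| ^ (m + 2) +
      ((m + 2) * ρ * L ^ (m + 1) * r ^ (m + 2) + C0 m * ρ * L ^ (m + 2) * σ ^ (m + 2)) := by
  have h4 := core m hne hL hρ hσ h1 h2
  have hD : |𝔼 T ∈ 𝒯, (z' T - z)| ≤ ρ * (|u| + |v| + r) := by
    have e : 𝔼 T ∈ 𝒯, (z' T - z) = ((𝔼 T ∈ 𝒯, (z' T - z)) + ρ * (u + v)) - ρ * (u + v) := by ring
    rw [e]
    refine (abs_sub _ _).trans ?_
    have : |ρ * (u + v)| ≤ ρ * (|u| + |v|) := by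
      rw [abs_mul, abs_of_nonneg hρ]
      gcongr
      exact abs_add_le _ _
    linarith
  have h5 := drift3 m (z := z) hL hρ (abs_nonneg u) (abs_nonneg v) hr hD
  rw [hm.pow_abs] at h4 h5
  refine h4.trans (le_of_sub_nonneg ((sub_nonneg.2 h5).trans_eq ?_))
  ring

/-- pointwise step for the vertex variables -/
lemma beta_step (m : ℕ) (hm : Even (m + 2)) {τ : Type} {𝒯 : Finset τ} {L ρ r σ z a b c : ℝ}
    {z' : τ → ℝ} (hne : 𝒯.Nonempty)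
    (hL : 1 ≤ L) (hρ : 0 ≤ ρ) (hr : 0 ≤ r) (hσ : 0 ≤ σ) (h1 : ∀ T ∈ 𝒯, |z' T - z| ≤ σ)
    (h2 : 𝔼 T ∈ 𝒯, (z' T - z) ^ 2 ≤ ρ * σ ^ 2)
    (h3 : |(𝔼 T ∈ 𝒯, (z' T - z)) + ρ * (a + z + b - c)| ≤ ρ * r) :
    𝔼 T ∈ 𝒯, z' T ^ (m + 2) ≤ (1 - ρ + (3 * (m + 2) + C0 m) * ρ / L) * z ^ (m + 2) +
      ρ * |b| ^ (m + 2) + (m + 2) * ρ * L ^ (m + 1) * |a| ^ (m + 2) +
      ((m + 2) * ρ * L ^ (m + 1) * |c| ^ (m + 2) +
      (m + 2) * ρ * L ^ (m + 1) * r ^ (m + 2) + C0 m * ρ * L ^ (m + 2) * σ ^ (m + 2)) := by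
  have h4 := core m hne hL hρ hσ h1 h2
  have hD : |(𝔼 T ∈ 𝒯, (z' T - z)) + ρ * (z + b)| ≤ ρ * (|a| + |c| + r) := by
    have e : (𝔼 T ∈ 𝒯, (z' T - z)) + ρ * (z + b) =
        ((𝔼 T ∈ 𝒯, (z' T - z)) + ρ * (a + z + b - c)) - ρ * (a - c) := by ring
    rw [e]
    refine (abs_sub _ _).trans ?_
    have : |ρ * (a - c)| ≤ ρ * (|a| + |c|) := by
      rw [abs_mul, abs_of_nonneg hρ]
      gcongr
      exact abs_sub _ _
    linarith
  have h5 := drift3 m (z := z) hL hρ (abs_nonneg a) (abs_nonneg c) hr hD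
  have h6 := amgm (abs_nonneg z) (abs_nonneg b) (m + 1)
  have h7 : -(z ^ (m + 1) * b) ≤ |z| ^ (m + 1) * |b| := by
    rw [← abs_pow, ← abs_mul]; exact neg_le_abs _
  rw [hm.pow_abs] at h4 h5 h6
  push_cast at h6
  have h8 : -(((m : ℝ) + 2) * (z ^ (m + 1) * b)) ≤ (m + 1) * z ^ (m + 2) + |b| ^ (m + 2) := by
    have : ((m : ℝ) + 2) * -(z ^ (m + 1) * b) ≤ (m + 2) * (|z| ^ (m + 1) * |b|) := by gcongr
    linarith
  have h9 := mul_le_mul_of_nonneg_left h8 hρ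
  refine h4.trans (le_of_sub_nonneg
    ((add_nonneg (sub_nonneg.2 h5) (sub_nonneg.2 h9)).trans_eq ?_))
  ring

variable {n : ℕ} {E : ES n} {δ : ℝ}

lemma deg_eq (hd : 0 < dbar E) (x : Fin n) : ((nb E x).card : ℝ) = dbar E * (1 + beta E x) := by
  unfold beta; field_simp; ring

lemma deg_le (hd : 0 < dbar E) (hb : ∀ x, |beta E x| ≤ δ) (x : Fin n) :
    ((nb E x).card : ℝ) ≤ dbar E * (1 + δ) := by
  rw [deg_eq hd]; gcongr; exact (abs_le.1 (hb x)).2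

lemma le_deg (hd : 0 < dbar E) (hb : ∀ x, |beta E x| ≤ δ) (x : Fin n) :
    dbar E * (1 - δ) ≤ ((nb E x).card : ℝ) := by
  rw [deg_eq hd]; gcongr ?_ * ?_; linarith [(abs_le.1 (hb x)).1]

lemma card_nb_le (x : Fin n) : ((nb E x).card : ℝ) ≤ n := by
  have := card_le_univ (nb E x)
  rw [Fintype.card_fin] at this
  exact_mod_cast this

lemma sum_card_le : ∑ x, ((nb E x).card : ℝ) ≤ n ^ 2 := by
  calc ∑ x, ((nb E x).card : ℝ) ≤ ∑ _x : Fin n, (n : ℝ) := sum_le_sum fun x _ => card_nb_le x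
    _ = n ^ 2 := by simp [sq]

lemma n_dbar_le (hs : Simple E) : n * dbar E ≤ n ^ 2 := by
  rcases Nat.eq_zero_or_pos n with rfl | hn
  · simp
  have hn' : (0 : ℝ) < n := by exact_mod_cast hn
  have : n * dbar E = 2 * E.card := by unfold dbar; field_simp
  rw [this, ← sum_card_nb hs]
  exact sum_card_le

/-- the averaging operator almost preserves `ℓ^1` norms -/
lemma sum_avg_le (hd : 0 < dbar E) (hb : ∀ x, |beta E x| ≤ δ) (hδ : δ ≤ 1 / 2)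
    (g : Fin n → ℝ) (hg : ∀ x, 0 ≤ g x) :
    ∑ x, (∑ z ∈ nb E x, g z) / (nb E x).card ≤ (1 + 4 * δ) * ∑ x, g x := by
  have h1 : ∀ x, (∑ z ∈ nb E x, g z) / (nb E x).card ≤
      (dbar E * (1 - δ))⁻¹ * ∑ z ∈ nb E x, g z := by
    intro x
    rw [div_eq_inv_mul]
    refine mul_le_mul_of_nonneg_right ?_ (sum_nonneg fun z _ => hg z)
    exact inv_anti₀ (mul_pos hd (by linarith)) (le_deg hd hb x)
  refine (sum_le_sum fun x _ => h1 x).trans ?_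
  rw [← mul_sum, sum_nb_comm E (fun _ z => g z), mul_sum, mul_sum]
  refine sum_le_sum fun x _ => ?_
  rw [sum_const, nsmul_eq_mul, ← mul_assoc]
  refine mul_le_mul_of_nonneg_right ?_ (hg x)
  have hδ0 : 0 ≤ δ := (abs_nonneg _).trans (hb x)
  rw [inv_mul_le_iff₀ (mul_pos hd (by linarith)), mul_assoc]
  refine (deg_le hd hb x).trans (mul_le_mul_of_nonneg_left ?_ hd.le)
  nlinarith

lemma dbar_sum_avg_le (hd : 0 < dbar E) (hb : ∀ x, |beta E x| ≤ δ) (hδ : δ ≤ 1 / 2)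
    (g : Fin n → Fin n → ℝ) (hg : ∀ x y, 0 ≤ g x y) :
    dbar E * ∑ x, (∑ z ∈ nb E x, g x z) / (nb E x).card ≤ 2 * ∑ x, ∑ z ∈ nb E x, g x z := by
  rw [mul_sum, mul_sum]
  refine sum_le_sum fun x _ => ?_
  have h1 := le_deg hd hb x
  have h2 : dbar E ≤ 2 * (nb E x).card := by nlinarith
  have h3 : (0 : ℝ) < (nb E x).card := by linarith
  have h4 : 0 ≤ ∑ z ∈ nb E x, g x z := sum_nonneg fun z _ => hg x z
  rw [← mul_div_assoc, div_le_iff₀ h3]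
  nlinarith

lemma sum_eta_le (hd : 0 < dbar E) (hb : ∀ x, |beta E x| ≤ δ) (hδ : δ ≤ 1 / 2) (m : ℕ)
    (hm : Even (m + 2)) (ξ : Fin n → Fin n → ℝ) (β : Fin n → ℝ) :
    ∑ x, ∑ y ∈ nb E x, |ξ x y + β x + β y| ^ (m + 2) ≤
      3 ^ (m + 2) * (∑ x, ∑ y ∈ nb E x, ξ x y ^ (m + 2) + dbar E * ∑ x, β x ^ (m + 2)) := by
  have h1 : ∑ x, ∑ y ∈ nb E x, |ξ x y + β x + β y| ^ (m + 2) ≤
      ∑ x, ∑ y ∈ nb E x, 3 ^ (m + 1) * (ξ x y ^ (m + 2) + β x ^ (m + 2) + β y ^ (m + 2)) := by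
    refine sum_le_sum fun x _ => sum_le_sum fun y _ => ?_
    have := three_pow (ξ x y) (β x) (β y) (m + 1)
    rwa [hm.pow_abs (ξ x y), hm.pow_abs (β x), hm.pow_abs (β y)] at this
  refine h1.trans ?_
  simp only [← mul_sum, sum_add_distrib]
  rw [sum_nb_comm E (fun _ y => β y ^ (m + 2))]
  have h2 : ∑ x, ∑ _y ∈ nb E x, β x ^ (m + 2) ≤ 3 / 2 * (dbar E * ∑ x, β x ^ (m + 2)) := by
    rw [mul_sum, mul_sum]
    refine sum_le_sum fun x _ => ?_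
    rw [sum_const, nsmul_eq_mul, ← mul_assoc]
    refine mul_le_mul_of_nonneg_right ((deg_le hd hb x).trans ?_) (hm.pow_nonneg _)
    nlinarith
  have h3 : 0 ≤ ∑ x, ∑ y ∈ nb E x, ξ x y ^ (m + 2) :=
    sum_nonneg fun x _ => sum_nonneg fun y _ => hm.pow_nonneg _
  rw [pow_succ (3 : ℝ) (m + 1), mul_assoc]
  refine mul_le_mul_of_nonneg_left ?_ (by positivity)
  linarith

lemma sum_xi (f g : Fin n → Fin n → ℝ) (a b k : ℝ) :
    ∑ x, ∑ y ∈ nb E x, (a * f x y + b * g x y + b * g y x + k) =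
      a * ∑ x, ∑ y ∈ nb E x, f x y + 2 * b * ∑ x, ∑ y ∈ nb E x, g x y +
        (∑ x, ((nb E x).card : ℝ)) * k := by
  simp only [sum_add_distrib, ← mul_sum, sum_const, nsmul_eq_mul, sum_mul]
  rw [sum_nb_comm E (fun x y => g y x)]
  ring

lemma sum_beta (f g h : Fin n → ℝ) (a b b' k : ℝ) :
    ∑ x, (a * f x + b * g x + b' * h x + k) =
      a * ∑ x, f x + b * ∑ x, g x + b' * ∑ x, h x + n * k := by
  simp only [sum_add_distrib, ← mul_sum, sum_const, nsmul_eq_mul, card_univ, Fintype.card_fin]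

end Lyap

theorem pow_step (p : ℕ) (hp : Even p) (hp2 : 2 ≤ p) : ∃ C : ℝ, 0 < C ∧
    ∀ (τ : Type) (𝒯 : Finset τ) (Λ ρ r σ z : ℝ) (z' : τ → ℝ), 𝒯.Nonempty → 1 ≤ Λ → 0 ≤ ρ →
      0 ≤ r → 0 ≤ σ → |𝔼 T ∈ 𝒯, (z' T - z)| ≤ ρ * r → (∀ T ∈ 𝒯, |z' T - z| ≤ σ) →
      𝔼 T ∈ 𝒯, (z' T - z) ^ 2 ≤ ρ * σ ^ 2 →
      𝔼 T ∈ 𝒯, z' T ^ p ≤ (1 + C * ρ / Λ) * z ^ p + C * ρ * Λ ^ p * (r ^ p + σ ^ p) := by
  obtain ⟨m, rfl⟩ : ∃ m, p = m + 2 := ⟨p - 2, by omega⟩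
  have hC := Lyap.C0_pos m
  refine ⟨3 * (m + 2) + Lyap.C0 m, by positivity, ?_⟩
  intro τ 𝒯 L ρ r σ z z' hne hL hρ hr hσ h3 h1 h2
  have h := Lyap.xi_step m hp (u := 0) (v := 0) hne hL hρ hr hσ h1 h2 (by simpa using h3)
  refine h.trans ?_
  have e0 : |(0 : ℝ)| ^ (m + 2) = 0 := by simp
  rw [e0, mul_zero, add_zero, add_zero]
  refine add_le_add le_rfl ?_
  have h4 : L ^ (m + 1) ≤ L ^ (m + 2) := pow_le_pow_right₀ hL (by omega)
  have hL0 : 0 ≤ L := by linarith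
  rw [mul_add _ (r ^ (m + 2))]
  have h5 : ((m : ℝ) + 2) ≤ 3 * (m + 2) + Lyap.C0 m := by
    linarith [show (0 : ℝ) ≤ m by positivity]
  have h6 : Lyap.C0 m ≤ 3 * (m + 2) + Lyap.C0 m := by
    linarith [show (0 : ℝ) ≤ m by positivity]
  refine add_le_add ?_ ?_
  · exact mul_le_mul_of_nonneg_right (mul_le_mul (mul_le_mul_of_nonneg_right h5 hρ) h4
      (by positivity) (by positivity)) (by positivity)
  · exact mul_le_mul_of_nonneg_right (mul_le_mul_of_nonneg_right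
      (mul_le_mul_of_nonneg_right h6 hρ) (by positivity)) (by positivity)

theorem lyap_step (p : ℕ) (hp : Even p) (hp2 : 2 ≤ p) : ∃ C : ℝ, 0 < C ∧
    ∀ (n : ℕ) (E : ES n) (τ : Type) (𝒯 : Finset τ) (Λ δ e ρ r σ c : ℝ)
      (ξ : Fin n → Fin n → ℝ) (β : Fin n → ℝ) (ξ' : τ → Fin n → Fin n → ℝ) (β' : τ → Fin n → ℝ),
      𝒯.Nonempty → Simple E → 0 < dbar E → (∀ x, |beta E x| ≤ δ) → δ ≤ 1 / 2 → 1 ≤ Λ →
      δ * Λ ≤ 1 → GapP E p e → e * (3 ^ p * Λ ^ (2 * p)) ≤ 1 → 0 ≤ ρ → 0 ≤ r → 0 ≤ σ →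
      (∀ x y, ξ x y = ξ y x) →
      n * dbar E * |c| ^ p ≤ 2 ^ p * (∑ x, ∑ y ∈ nb E x, ξ x y ^ p + n ^ 2 * r ^ p) →
      (∀ x y, s(x, y) ∈ E → |(𝔼 T ∈ 𝒯, (ξ' T x y - ξ x y)) +
        ρ * (Eop E x (fun z => ξ x z + β x + β z) y + Eop E y (fun z => ξ y z + β y + β z) x)| ≤
          ρ * r) →
      (∀ x, |(𝔼 T ∈ 𝒯, (β' T x - β x)) +
        ρ * ((∑ z ∈ nb E x, (ξ x z + β x + β z)) / (nb E x).card - c)| ≤ ρ * r) →
      (∀ x y, s(x, y) ∈ E → (∀ T ∈ 𝒯, |ξ' T x y - ξ x y| ≤ σ) ∧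
        𝔼 T ∈ 𝒯, (ξ' T x y - ξ x y) ^ 2 ≤ ρ * σ ^ 2) →
      (∀ x, (∀ T ∈ 𝒯, |β' T x - β x| ≤ σ) ∧ 𝔼 T ∈ 𝒯, (β' T x - β x) ^ 2 ≤ ρ * σ ^ 2) →
      𝔼 T ∈ 𝒯, Phi E p Λ (ξ' T) (β' T) ≤
        (1 + C * ρ / Λ) * Phi E p Λ ξ β + C * ρ * Λ ^ p * n ^ 2 * (r ^ p + σ ^ p) := by
  obtain ⟨m, rfl⟩ : ∃ m, p = m + 2 := ⟨p - 2, by omega⟩
  have hC := Lyap.C0_pos m
  have hm0 : (0 : ℝ) ≤ m := by positivity
  refine ⟨7 * (m + 2) + 2 * Lyap.C0 m + (m + 2) * 2 ^ (m + 2) + 4, by positivity, ?_⟩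
  intro n E τ 𝒯 L δ e ρ r σ c ξ β ξ' β' hne hs hd hb hδ hL hδL hgap he hρ hr hσ _ hc hξ hβ
    hξ2 hβ2
  have hL0 : 0 < L := by linarith
  set P : ℝ := m + 2 with hP
  have hP0 : 0 < P := by positivity
  set C0 := Lyap.C0 m with hC0
  set A := ∑ x, ∑ y ∈ nb E x, ξ x y ^ (m + 2) with hA
  set S := ∑ x, β x ^ (m + 2) with hS
  have hA0 : 0 ≤ A := sum_nonneg fun x _ => sum_nonneg fun y _ => hp.pow_nonneg _
  have hS0 : 0 ≤ S := sum_nonneg fun x _ => hp.pow_nonneg _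
  set u : Fin n → Fin n → ℝ := fun x y => Eop E x (fun z => ξ x z + β x + β z) y with hu
  set U := ∑ x, ∑ y ∈ nb E x, |u x y| ^ (m + 2) with hU
  set N : ℝ := n ^ 2 with hN
  set R := r ^ (m + 2) with hR
  set Sg := σ ^ (m + 2) with hSg
  set Q := L ^ (m + 2) with hQ
  set Q' := L ^ (m + 1) with hQ'
  have hQQ : Q = Q' * L := pow_succ _ _
  have hQ1 : 1 ≤ Q := one_le_pow₀ hL
  have hQ'0 : 0 < Q' := by positivity
  have hQ0 : 0 < Q := by positivity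
  have hR0 : 0 ≤ R := by positivity
  have hSg0 : 0 ≤ Sg := by positivity
  have hN0 : 0 ≤ N := by positivity
  have hQ'Q : Q' ≤ Q := by rw [hQQ]; nlinarith
  set B := Q⁻¹ * dbar E * S with hB
  have hB0 : 0 ≤ B := by positivity
  -- the spectral gap
  have hU1 : Q' * U ≤ (A + B) / L := by
    have h1 : U ≤ e * ∑ x, ∑ y ∈ nb E x, |ξ x y + β x + β y| ^ (m + 2) := by
      rw [mul_sum]
      exact sum_le_sum fun x _ => hgap x _
    have h2 := Lyap.sum_eta_le hd hb hδ m hp ξ β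
    have h3 : 0 ≤ ∑ x, ∑ y ∈ nb E x, |ξ x y + β x + β y| ^ (m + 2) :=
      sum_nonneg fun x _ => sum_nonneg fun y _ => by positivity
    have h4 : e ≤ (3 ^ (m + 2) * Q ^ 2)⁻¹ := by
      rw [inv_eq_one_div, le_div_iff₀ (by positivity), hQ, ← pow_mul, mul_comm (m + 2) 2]
      exact he
    have h5 : U ≤ (3 ^ (m + 2) * Q ^ 2)⁻¹ * (3 ^ (m + 2) * (A + dbar E * S)) :=
      h1.trans (mul_le_mul h4 h2 h3 (by positivity))
    have h6 : (3 ^ (m + 2) * Q ^ 2)⁻¹ * (3 ^ (m + 2) * (A + dbar E * S)) =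
        Q⁻¹ * (Q⁻¹ * A + B) := by
      rw [hB]; field_simp
    have h7 : Q⁻¹ * A ≤ A := mul_le_of_le_one_left hA0 (inv_le_one_of_one_le₀ hQ1)
    calc Q' * U ≤ Q' * (Q⁻¹ * (A + B)) := by
          rw [h6] at h5
          exact mul_le_mul_of_nonneg_left (h5.trans (by gcongr)) hQ'0.le
      _ = (A + B) / L := by rw [hQQ]; field_simp
  -- edge part
  have hX : ∑ x, ∑ y ∈ nb E x, 𝔼 T ∈ 𝒯, ξ' T x y ^ (m + 2) ≤
      (1 + (3 * P + C0) * ρ / L) * A + 2 * P * ρ * ((A + B) / L) +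
        N * (P * ρ * Q * R + C0 * ρ * Q * Sg) := by
    have h1 : ∑ x, ∑ y ∈ nb E x, 𝔼 T ∈ 𝒯, ξ' T x y ^ (m + 2) ≤ ∑ x, ∑ y ∈ nb E x,
        ((1 + (3 * P + C0) * ρ / L) * ξ x y ^ (m + 2) + P * ρ * Q' * |u x y| ^ (m + 2) +
          P * ρ * Q' * |u y x| ^ (m + 2) + (P * ρ * Q' * R + C0 * ρ * Q * Sg)) :=
      sum_le_sum fun x _ => sum_le_sum fun y hy =>
        Lyap.xi_step m hp hne hL hρ hr hσ (hξ2 x y (mem_nb.1 hy)).1 (hξ2 x y (mem_nb.1 hy)).2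
          (hξ x y (mem_nb.1 hy))
    refine h1.trans ?_
    rw [Lyap.sum_xi (fun x y => ξ x y ^ (m + 2)) (fun x y => |u x y| ^ (m + 2))]
    refine add_le_add (add_le_add le_rfl ?_) ?_
    · calc 2 * (P * ρ * Q') * U = 2 * P * ρ * (Q' * U) := by ring
        _ ≤ _ := by gcongr
    · refine mul_le_mul Lyap.sum_card_le ?_ (by positivity) hN0
      gcongr
  -- vertex part
  set a : Fin n → ℝ := fun x => (∑ z ∈ nb E x, ξ x z) / (nb E x).card with ha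
  set b : Fin n → ℝ := fun x => (∑ z ∈ nb E x, β z) / (nb E x).card with hb'
  have hsplit : ∀ x, (∑ z ∈ nb E x, (ξ x z + β x + β z)) / (nb E x).card = a x + β x + b x := by
    intro x
    have h1 := Lyap.le_deg hd hb x
    have h3 : (0 : ℝ) < (nb E x).card := by nlinarith
    simp only [sum_add_distrib, sum_const, nsmul_eq_mul, ha, hb']
    field_simp
  have ha1 : dbar E * ∑ x, |a x| ^ (m + 2) ≤ 2 * A := by
    have h1 := Lyap.dbar_sum_avg_le hd hb hδ (fun x y => ξ x y ^ (m + 2))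
      (fun x y => hp.pow_nonneg _)
    refine le_trans (mul_le_mul_of_nonneg_left (sum_le_sum fun x _ => ?_) hd.le) h1
    have := Lyap.jensen (nb E x) (ξ x) (m + 1)
    simp only [hp.pow_abs (ξ x _)] at this
    exact this
  have hb1 : ∑ x, |b x| ^ (m + 2) ≤ (1 + 4 / L) * S := by
    have h1 := Lyap.sum_avg_le hd hb hδ (fun x => β x ^ (m + 2)) (fun x => hp.pow_nonneg _)
    have h2 : (1 + 4 * δ) * S ≤ (1 + 4 / L) * S := by
      refine mul_le_mul_of_nonneg_right ?_ hS0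
      have : 4 * δ ≤ 4 / L := by rw [le_div_iff₀ hL0]; linarith
      linarith
    refine le_trans (sum_le_sum fun x _ => ?_) (h1.trans h2)
    have := Lyap.jensen (nb E x) β (m + 1)
    simp only [hp.pow_abs (β _)] at this
    exact this
  have hnd : n * dbar E ≤ N := Lyap.n_dbar_le hs
  have hY : Q⁻¹ * dbar E * ∑ x, 𝔼 T ∈ 𝒯, β' T x ^ (m + 2) ≤
      (1 + (3 * P + C0 + 4) * ρ / L) * B + P * ρ / L * (2 * A) +
        (P * ρ / L * (2 ^ (m + 2) * (A + N * R)) + P * ρ / L * (N * R) + C0 * ρ * (N * Sg)) := by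
    have h1 : ∑ x, 𝔼 T ∈ 𝒯, β' T x ^ (m + 2) ≤ ∑ x,
        ((1 - ρ + (3 * P + C0) * ρ / L) * β x ^ (m + 2) + ρ * |b x| ^ (m + 2) +
          P * ρ * Q' * |a x| ^ (m + 2) +
          (P * ρ * Q' * |c| ^ (m + 2) + P * ρ * Q' * R + C0 * ρ * Q * Sg)) :=
      sum_le_sum fun x _ =>
        Lyap.beta_step m hp hne hL hρ hr hσ (hβ2 x).1 (hβ2 x).2 (hsplit x ▸ hβ x)
    rw [Lyap.sum_beta (fun x => β x ^ (m + 2)) (fun x => |b x| ^ (m + 2))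
      (fun x => |a x| ^ (m + 2))] at h1
    refine (mul_le_mul_of_nonneg_left h1 (by positivity)).trans ?_
    have e1 : Q⁻¹ * dbar E * ((1 - ρ + (3 * P + C0) * ρ / L) * S + ρ * ∑ x, |b x| ^ (m + 2) +
        P * ρ * Q' * ∑ x, |a x| ^ (m + 2) +
        n * (P * ρ * Q' * |c| ^ (m + 2) + P * ρ * Q' * R + C0 * ρ * Q * Sg)) =
        Q⁻¹ * dbar E * ((1 - ρ + (3 * P + C0) * ρ / L) * S + ρ * ∑ x, |b x| ^ (m + 2)) +
        P * ρ / L * (dbar E * ∑ x, |a x| ^ (m + 2)) +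
        (P * ρ / L * (n * dbar E * |c| ^ (m + 2)) + P * ρ / L * (n * dbar E * R) +
          C0 * ρ * (n * dbar E * Sg)) := by
      rw [hQQ]; field_simp
    rw [e1]
    refine add_le_add (add_le_add ?_ ?_) (add_le_add (add_le_add ?_ ?_) ?_)
    · calc _ ≤ Q⁻¹ * dbar E * ((1 - ρ + (3 * P + C0) * ρ / L) * S + ρ * ((1 + 4 / L) * S)) := by
            gcongr
        _ = _ := by rw [hB]; ring
    · gcongr
    · gcongr
    · gcongr
    · gcongr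
  -- assembly
  have hPhi : 𝔼 T ∈ 𝒯, Phi E (m + 2) L (ξ' T) (β' T) =
      ∑ x, ∑ y ∈ nb E x, 𝔼 T ∈ 𝒯, ξ' T x y ^ (m + 2) +
        Q⁻¹ * dbar E * ∑ x, 𝔼 T ∈ 𝒯, β' T x ^ (m + 2) := by
    simp only [Phi, expect_add_distrib, ← mul_expect, expect_sum_comm, hQ]
  have hPhi0 : Phi E (m + 2) L ξ β = A + B := rfl
  rw [hPhi, hPhi0]
  refine (add_le_add hX hY).trans ?_
  set t := ρ / L with ht
  have ht0 : 0 ≤ t := by positivity
  have htρ : t ≤ ρ * Q := by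
    calc t ≤ ρ := div_le_self hρ hL
      _ ≤ ρ * Q := le_mul_of_one_le_right hρ hQ1
  set W : ℝ := 2 ^ (m + 2) with hW
  have hW0 : 0 < W := by positivity
  have k1 : 0 ≤ t * A := by positivity
  have k2 : 0 ≤ t * B := by positivity
  have k3 : 0 ≤ ρ * Q * (N * R) := by positivity
  have k4 : 0 ≤ ρ * Q * (N * Sg) := by positivity
  have k5 : t * (N * R) ≤ ρ * Q * (N * R) := by gcongr
  have k6 : ρ * (N * Sg) ≤ ρ * Q * (N * Sg) := by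
    gcongr; exact le_mul_of_one_le_right hρ hQ1
  have e1 : (1 + (3 * P + C0) * ρ / L) * A + 2 * P * ρ * ((A + B) / L) +
        N * (P * ρ * Q * R + C0 * ρ * Q * Sg) +
      ((1 + (3 * P + C0 + 4) * ρ / L) * B + P * ρ / L * (2 * A) +
        (P * ρ / L * (W * (A + N * R)) + P * ρ / L * (N * R) + C0 * ρ * (N * Sg))) =
      A + B + (7 * P + C0 + P * W) * (t * A) + (5 * P + C0 + 4) * (t * B) +
        P * (ρ * Q * (N * R)) + (P * W + P) * (t * (N * R)) + C0 * (ρ * Q * (N * Sg)) +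
        C0 * (ρ * (N * Sg)) := by
    rw [ht]; ring
  have e2 : (1 + (7 * P + 2 * C0 + P * W + 4) * ρ / L) * (A + B) +
      (7 * P + 2 * C0 + P * W + 4) * ρ * Q * N * (R + Sg) =
      A + B + (7 * P + 2 * C0 + P * W + 4) * (t * A) + (7 * P + 2 * C0 + P * W + 4) * (t * B) +
        (7 * P + 2 * C0 + P * W + 4) * (ρ * Q * (N * R)) +
        (7 * P + 2 * C0 + P * W + 4) * (ρ * Q * (N * Sg)) := by
    rw [ht]; ring
  rw [e1, e2]
  have hPW : 0 < P * W := by positivity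
  have j1 : (7 * P + C0 + P * W) * (t * A) ≤ (7 * P + 2 * C0 + P * W + 4) * (t * A) :=
    mul_le_mul_of_nonneg_right (by linarith) k1
  have j2 : (5 * P + C0 + 4) * (t * B) ≤ (7 * P + 2 * C0 + P * W + 4) * (t * B) :=
    mul_le_mul_of_nonneg_right (by linarith) k2
  have j3 : (P * W + P) * (t * (N * R)) ≤ (P * W + P) * (ρ * Q * (N * R)) :=
    mul_le_mul_of_nonneg_left k5 (by positivity)
  have j4 : C0 * (ρ * (N * Sg)) ≤ C0 * (ρ * Q * (N * Sg)) := mul_le_mul_of_nonneg_left k6 hC.le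
  have j5 : (P + (P * W + P)) * (ρ * Q * (N * R)) ≤
      (7 * P + 2 * C0 + P * W + 4) * (ρ * Q * (N * R)) :=
    mul_le_mul_of_nonneg_right (by linarith) k3
  have j6 : (C0 + C0) * (ρ * Q * (N * Sg)) ≤
      (7 * P + 2 * C0 + P * W + 4) * (ρ * Q * (N * Sg)) :=
    mul_le_mul_of_nonneg_right (by linarith) k4
  linarith

end Crest.Agent.R30
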