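import Crest.Agent.R30.OdeMain
import Crest.Agent.R30.Lyap

/-! The tree recursion stays close to `(1 + 2 D u / M) ^ (-1/2)`. -/

set_option autoImplicit false

namespace Crest.Agent.R30

open Finset Crest.CombinatoricsR.TriangleRemoval
open scoped BigOperators

theorem ode (p : ℕ) (hp : Even p) (hp2 : 2 ≤ p) : ∃ C : ℝ, 0 < C ∧
    ∀ (n : ℕ) (E : ES n) (M : ℕ) (Λ w e : ℝ), Reg (w ^ 2) E → GapP E p e →
      e * (3 ^ p * Λ ^ (2 * p)) ≤ 1 → 0 < w → C * w ≤ 1 → 1 ≤ Λ → w ^ 2 * Λ ≤ 1 → 1 ≤ DD E →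
      C * (1 + Real.log (DD E)) ≤ Λ → Λ ≤ w ^ 2 * DD E → DD E ≤ w ^ 4 * M →
      C * Λ ^ (2 * p + 1) * n ^ 2 * w ^ p ≤ 1 →
      (∀ x y, s(x, y) ∈ E →
        Real.exp (-w) ≤ (∏ ν ∈ Rt E x y, (1 - II (Ch E) M M ν)) * √(1 + 2 * DD E) ∧
        (∏ ν ∈ Rt E x y, (1 - II (Ch E) M M ν)) * √(1 + 2 * DD E) ≤ Real.exp w) ∧
      ∀ ν, valid E ν → ∀ ν' ∈ Ch E ν, ∀ s < M,
        ∏ ν'' ∈ (Ch E ν).erase ν', (1 - II (Ch E) M s ν'') ≤ vis (DD E) M s :=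
  ode_of p hp hp2 (lyap_step p hp hp2)

end Crest.Agent.R30
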