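import Crest.Agent.R30.Defs

/-! One step of the tree recursion. -/

set_option autoImplicit false

namespace Crest.Agent.R30

open Finset Crest.CombinatoricsR.TriangleRemoval
open scoped BigOperators

namespace Ode

variable {n : ℕ}

lemma abs_log_one_sub {y : ℝ} (hy : |y| ≤ 1 / 2) : |y + Real.log (1 - y)| ≤ 2 * y ^ 2 := by
  have h := Real.abs_log_sub_add_sum_range_le (x := y) (by linarith) 1
  simp only [range_one, sum_singleton, zero_add, pow_one, Nat.cast_zero, div_one] at h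
  refine h.trans ?_
  rw [div_le_iff₀ (by linarith), show (1 + 1 : ℕ) = 2 from rfl, sq_abs]
  nlinarith [sq_nonneg y]

lemma ratio_bound {w s a b c : ℝ} (hw : 0 < w) (hw1 : w ≤ 1 / 100) (hs : |s| ≤ 2 * w)
    (ha : 0 ≤ a) (ha' : a ≤ w ^ 2) (hb : 0 ≤ b) (hb' : b ≤ w ^ 2) (hc : 0 ≤ c) (hc' : c ≤ w ^ 2) :
    |Real.exp s / ((1 - a) * (1 - b) * (1 - c)) - 1 - s| ≤ 9 * w ^ 2 := by
  have hw2 : w ^ 2 ≤ 1 / 10000 := by nlinarith
  have h1 := Real.abs_exp_sub_one_sub_id_le (x := s) (by linarith)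
  have hs2 : s ^ 2 ≤ 4 * w ^ 2 := by
    rw [← sq_abs]; nlinarith [abs_nonneg s]
  have hab : 1 - 2 * w ^ 2 ≤ (1 - a) * (1 - b) := by nlinarith [mul_nonneg ha hb]
  have hab' : (1 - a) * (1 - b) ≤ 1 := by nlinarith
  have hP : 1 - 3 * w ^ 2 ≤ (1 - a) * (1 - b) * (1 - c) := by nlinarith
  have hP' : (1 - a) * (1 - b) * (1 - c) ≤ 1 := by nlinarith
  set P := (1 - a) * (1 - b) * (1 - c) with hPdef
  have hP0 : 0 < P := by linarith
  obtain ⟨h2, h3⟩ := abs_le.1 h1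
  obtain ⟨h4, h5⟩ := abs_le.1 hs
  have he : Real.exp s ≤ 11 / 10 := by linarith
  have he0 := Real.exp_pos s
  have h6 : Real.exp s ≤ Real.exp s / P := le_div_self he0.le hP0 hP'
  have h7 : Real.exp s / P ≤ Real.exp s + 5 * w ^ 2 := by
    rw [div_le_iff₀ hP0]
    nlinarith [sq_nonneg w]
  rw [abs_le]
  constructor <;> linarith

lemma II_swap (E : ES n) (M : ℕ) : ∀ (u : ℕ) (a b c : Fin n),
    II (Ch E) M u (a, b, c) = II (Ch E) M u (b, a, c)
  | 0, _, _, _ => rfl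
  | u + 1, a, b, c => by
    have : Ch E (a, b, c) = Ch E (b, a, c) := by simp only [Ch]; rw [union_comm]
    rw [II, II, II_swap E M u a b c, this]

lemma valid_of_mem_Ch {E : ES n} {ν ν' : Nd n} (h : valid E ν) (h' : ν' ∈ Ch E ν) :
    valid E ν' := by
  obtain ⟨a, b, c⟩ := ν
  simp only [Ch, mem_union, mem_image, mem_erase, mem_cod] at h'
  rcases h' with ⟨z, ⟨-, h1, h2⟩, rfl⟩ | ⟨z, ⟨-, h1, h2⟩, rfl⟩
  · exact ⟨h.2.1, h1, h2⟩
  · exact ⟨h.2.2, h1, h2⟩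

/-- survival probability of an edge on the tree -/
noncomputable def Qf (E : ES n) (M u : ℕ) (x y : Fin n) : ℝ :=
  ∏ z ∈ cod E x y, (1 - II (Ch E) M u (x, y, z))

lemma Qf_comm (E : ES n) (M u : ℕ) (x y : Fin n) : Qf E M u x y = Qf E M u y x := by
  rw [Qf, Qf, cod_comm]
  exact prod_congr rfl fun z _ => by rw [II_swap]

lemma prod_Rt (E : ES n) (M u : ℕ) (x y : Fin n) :
    ∏ ν ∈ Rt E x y, (1 - II (Ch E) M u ν) = Qf E M u x y := by
  rw [Rt, prod_image (fun z _ z' _ h => by simpa using h), Qf]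

lemma prod_Ch {E : ES n} (hE : Simple E) (M u : ℕ) {a b c : Fin n} (h : valid E (a, b, c)) :
    (∏ ν ∈ Ch E (a, b, c), (1 - II (Ch E) M u ν)) *
      ((1 - II (Ch E) M u (a, c, b)) * (1 - II (Ch E) M u (b, c, a))) =
      Qf E M u a c * Qf E M u b c := by
  obtain ⟨h1, h2, h3⟩ := h
  have hab : a ≠ b := hE.ne h1
  have hb : b ∈ cod E a c := mem_cod.2 ⟨h1, Sym2.eq_swap ▸ h3⟩
  have ha : a ∈ cod E b c := mem_cod.2 ⟨Sym2.eq_swap ▸ h1, Sym2.eq_swap ▸ h2⟩
  rw [Ch, prod_union, prod_image (fun z _ z' _ h => by simpa using h),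
    prod_image (fun z _ z' _ h => by simpa using h), Qf, Qf, ← mul_prod_erase _ _ hb,
    ← mul_prod_erase _ _ ha]
  · ring
  · rw [disjoint_left]
    intro ν k1 k2
    simp only [mem_image] at k1 k2
    obtain ⟨z, -, rfl⟩ := k1
    obtain ⟨z', -, e⟩ := k2
    exact hab (congrArg Prod.fst e).symm

/-- `M + 2 D u` -/
noncomputable def gg (E : ES n) (M u : ℕ) : ℝ := M + 2 * DD E * u

/-- step size -/
noncomputable def lam (E : ES n) (M u : ℕ) : ℝ := DD E / gg E M u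

/-- logarithmic deviation -/
noncomputable def ell (E : ES n) (M u : ℕ) (x y : Fin n) : ℝ :=
  Real.log (Qf E M u x y) + Real.log (gg E M u / M) / 2

/-- vertex modes -/
noncomputable def bb (E : ES n) (M : ℕ) : ℕ → Fin n → ℝ
  | 0, _ => 0
  | u + 1, x => bb E M u x - lam E M u * ((∑ z ∈ nb E x, ell E M u x z) / (nb E x).card)

/-- deviation with the vertex modes removed -/
noncomputable def xx (E : ES n) (M u : ℕ) (x y : Fin n) : ℝ :=
  ell E M u x y - bb E M u x - bb E M u y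

lemma ell_comm (E : ES n) (M u : ℕ) (x y : Fin n) : ell E M u x y = ell E M u y x := by
  rw [ell, ell, Qf_comm]

lemma xx_comm (E : ES n) (M u : ℕ) (x y : Fin n) : xx E M u x y = xx E M u y x := by
  rw [xx, xx, ell_comm]; ring

/-- the standing assumptions -/
structure Hyp (E : ES n) (M : ℕ) (w : ℝ) : Prop where
  reg : Reg (w ^ 2) E
  w0 : 0 < w
  w1 : w ≤ 1 / 100
  D1 : 1 ≤ DD E
  DM : DD E ≤ w ^ 4 * M

/-- the bounds at time `u` -/
structure Bd (E : ES n) (M : ℕ) (w : ℝ) (u : ℕ) : Prop where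
  I : ∀ ν, valid E ν → 0 ≤ II (Ch E) M u ν ∧ II (Ch E) M u ν ≤ w ^ 2
  l : ∀ x y, s(x, y) ∈ E → |ell E M u x y| ≤ w

variable {E : ES n} {M u : ℕ} {w : ℝ}

lemma Hyp.w2 (H : Hyp E M w) : w ^ 2 ≤ 1 / 10000 := by nlinarith [H.w0, H.w1]

lemma Hyp.w4 (H : Hyp E M w) : w ^ 4 ≤ w ^ 2 / 10000 := by
  have := H.w2
  have h0 : 0 ≤ w ^ 2 := sq_nonneg w
  nlinarith

lemma Hyp.M0 (H : Hyp E M w) : (0 : ℝ) < M := by
  have h1 := H.D1
  have h2 := H.DM
  by_contra h
  have : (M : ℝ) = 0 := le_antisymm (not_lt.1 h) (Nat.cast_nonneg M)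
  rw [this] at h2
  linarith

lemma Hyp.gg_ge (H : Hyp E M w) (u : ℕ) : (M : ℝ) ≤ gg E M u := by
  have := H.D1
  have : 0 ≤ 2 * DD E * u := by positivity
  rw [gg]; linarith

lemma Hyp.gg_pos (H : Hyp E M w) (u : ℕ) : 0 < gg E M u := H.M0.trans_le (H.gg_ge u)

lemma Hyp.lam_nonneg (H : Hyp E M w) (u : ℕ) : 0 ≤ lam E M u :=
  div_nonneg (by linarith [H.D1]) (H.gg_pos u).le

lemma Hyp.lam_le (H : Hyp E M w) (u : ℕ) : lam E M u ≤ w ^ 4 := by
  rw [lam, div_le_iff₀ (H.gg_pos u)]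
  exact H.DM.trans (mul_le_mul_of_nonneg_left (H.gg_ge u) (by positivity))

lemma Hyp.inv_gg_le (H : Hyp E M w) (u : ℕ) : (gg E M u)⁻¹ ≤ w ^ 4 := by
  refine le_trans ?_ (H.lam_le u)
  rw [lam, div_eq_mul_inv]
  exact le_mul_of_one_le_left (inv_pos.2 (H.gg_pos u)).le H.D1

lemma Hyp.card_cod (H : Hyp E M w) {x y : Fin n} (h : s(x, y) ∈ E) :
    |((cod E x y).card : ℝ) / DD E - 1| ≤ w ^ 2 := H.reg.codeg x y h

lemma Hyp.card_cod_le (H : Hyp E M w) {x y : Fin n} (h : s(x, y) ∈ E) :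
    ((cod E x y).card : ℝ) ≤ 2 * DD E := by
  have h1 := (abs_le.1 (H.card_cod h)).2
  have h2 := H.w2
  rw [← div_le_iff₀ (by linarith [H.D1])]
  linarith

lemma Qf_pos (H : Hyp E M w) (B : Bd E M w u) {x y : Fin n} (h : s(x, y) ∈ E) :
    0 < Qf E M u x y := by
  refine prod_pos fun z hz => ?_
  have := (B.I (x, y, z) ⟨h, (mem_cod.1 hz).1, (mem_cod.1 hz).2⟩).2
  linarith [H.w2]

lemma Qf_mul (H : Hyp E M w) (B : Bd E M w u) {x y x' y' : Fin n} (h : s(x, y) ∈ E)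
    (h' : s(x', y') ∈ E) : Qf E M u x y * Qf E M u x' y' * (gg E M u / M) =
      Real.exp (ell E M u x y + ell E M u x' y') := by
  have h1 := Qf_pos H B h
  have h2 := Qf_pos H B h'
  have h3 : 0 < gg E M u / M := div_pos (H.gg_pos u) H.M0
  rw [← Real.exp_log (mul_pos (mul_pos h1 h2) h3), Real.log_mul (by positivity) h3.ne',
    Real.log_mul h1.ne' h2.ne', ell, ell]
  congr 1
  ring

lemma ratio (H : Hyp E M w) (B : Bd E M w u) {a b c : Fin n} (h : valid E (a, b, c)) {t : ℝ}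
    (ht : 0 ≤ t) (ht' : t ≤ w ^ 2) :
    |(∏ ν ∈ Ch E (a, b, c), (1 - II (Ch E) M u ν)) / (1 - t) * (gg E M u / M) - 1 -
      (ell E M u a c + ell E M u b c)| ≤ 9 * w ^ 2 := by
  have v1 : valid E (a, c, b) := ⟨h.2.1, h.1, Sym2.eq_swap ▸ h.2.2⟩
  have v2 : valid E (b, c, a) := ⟨h.2.2, Sym2.eq_swap ▸ h.1, Sym2.eq_swap ▸ h.2.1⟩
  obtain ⟨a1, a2⟩ := B.I _ v1
  obtain ⟨b1, b2⟩ := B.I _ v2
  have hw2 := H.w2
  have hs : |ell E M u a c + ell E M u b c| ≤ 2 * w :=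
    (abs_add_le _ _).trans (by linarith [B.l a c h.2.1, B.l b c h.2.2])
  have h1 := ratio_bound H.w0 H.w1 hs a1 a2 b1 b2 ht ht'
  rw [← Qf_mul H B h.2.1 h.2.2, ← prod_Ch H.reg.simple M u h] at h1
  convert h1 using 4
  have : 1 - II (Ch E) M u (a, c, b) ≠ 0 := by linarith
  have : 1 - II (Ch E) M u (b, c, a) ≠ 0 := by linarith
  have : 1 - t ≠ 0 := by linarith
  field_simp

lemma ratio_le (H : Hyp E M w) (B : Bd E M w u) {ν : Nd n} (h : valid E ν) {t : ℝ}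
    (ht : 0 ≤ t) (ht' : t ≤ w ^ 2) :
    0 ≤ (∏ ν' ∈ Ch E ν, (1 - II (Ch E) M u ν')) / (1 - t) ∧
      (∏ ν' ∈ Ch E ν, (1 - II (Ch E) M u ν')) / (1 - t) ≤ 2 * M / gg E M u := by
  obtain ⟨a, b, c⟩ := ν
  have h1 := abs_le.1 (ratio H B h ht ht')
  have h2 := abs_le.1 (B.l a c h.2.1)
  have h3 := abs_le.1 (B.l b c h.2.2)
  have hw1 := H.w1
  have hw2 := H.w2
  have h4 : 0 < gg E M u / M := div_pos (H.gg_pos u) H.M0
  constructor
  · refine nonneg_of_mul_nonneg_left ?_ h4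
    linarith [h1.1]
  · have h5 : (∏ ν ∈ Ch E (a, b, c), (1 - II (Ch E) M u ν)) / (1 - t) * (gg E M u / M) ≤ 2 := by
      linarith [h1.2]
    rw [← le_div_iff₀ h4] at h5
    refine h5.trans (le_of_eq ?_)
    have := H.M0
    have := H.gg_pos u
    field_simp

lemma II_step (H : Hyp E M w) (B : Bd E M w u) {ν : Nd n} (h : valid E ν) :
    II (Ch E) M u ν ≤ II (Ch E) M (u + 1) ν ∧
      II (Ch E) M (u + 1) ν ≤ II (Ch E) M u ν + 2 * lam E M u / DD E := by
  obtain ⟨h1, h2⟩ := ratio_le H B h le_rfl (sq_nonneg w)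
  rw [sub_zero, div_one] at h1 h2
  have hM := H.M0
  rw [II]
  refine ⟨le_add_of_nonneg_right (div_nonneg h1 hM.le), add_le_add_right ?_ _⟩
  rw [div_le_iff₀ hM]
  refine h2.trans (le_of_eq ?_)
  have := H.gg_pos u
  have : DD E ≠ 0 := by linarith [H.D1]
  rw [lam]
  field_simp

lemma log_gg_step (H : Hyp E M w) (u : ℕ) :
    Real.log (gg E M (u + 1) / M) = Real.log (gg E M u / M) + Real.log (1 + 2 * lam E M u) := by
  have h1 := H.gg_pos u
  have h2 := H.M0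
  have h3 := H.lam_nonneg u
  rw [← Real.log_mul (by positivity) (by positivity)]
  congr 1
  rw [lam]
  field_simp
  simp only [gg]
  push_cast
  ring

lemma ell_step (H : Hyp E M w) (B : Bd E M w u) {x y : Fin n} (h : s(x, y) ∈ E) :
    |ell E M (u + 1) x y - ell E M u x y + lam E M u *
      ((∑ z ∈ cod E x y, ell E M u x z) / DD E + (∑ z ∈ cod E x y, ell E M u y z) / DD E)| ≤
      lam E M u * (20 * w ^ 2) := by
  have hg := H.gg_pos u
  have hM := H.M0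
  have hD := H.D1
  have hw2 := H.w2
  have hw4 := H.w4
  have hl0 := H.lam_nonneg u
  have hl1 := H.lam_le u
  have hig := H.inv_gg_le u
  have hw0 : 0 ≤ w ^ 2 := sq_nonneg w
  -- the ratios
  set R : Fin n → ℝ := fun z => (∏ ν ∈ Ch E (x, y, z), (1 - II (Ch E) M u ν)) /
    (1 - II (Ch E) M u (x, y, z)) * (gg E M u / M) with hR
  have hv : ∀ z ∈ cod E x y, valid E (x, y, z) :=
    fun z hz => ⟨h, (mem_cod.1 hz).1, (mem_cod.1 hz).2⟩
  have hR1 : ∀ z ∈ cod E x y, |R z - 1 - (ell E M u x z + ell E M u y z)| ≤ 9 * w ^ 2 :=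
    fun z hz => ratio H B (hv z hz) (B.I _ (hv z hz)).1 (B.I _ (hv z hz)).2
  have hR2 : ∀ z ∈ cod E x y, |R z / gg E M u| ≤ 2 * (gg E M u)⁻¹ := by
    intro z hz
    have h1 := abs_le.1 (hR1 z hz)
    have h2 := abs_le.1 (B.l x z (hv z hz).2.1)
    have h3 := abs_le.1 (B.l y z (hv z hz).2.2)
    have hw1 := H.w1
    rw [abs_div, abs_of_pos hg, div_eq_mul_inv]
    gcongr
    rw [abs_le]
    constructor <;> linarith [h1.1, h1.2]
  have hR3 : ∀ z ∈ cod E x y, |R z / gg E M u| ≤ 1 / 2 := fun z hz => by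
    linarith [hR2 z hz]
  have hI : ∀ z ∈ cod E x y, 1 - II (Ch E) M (u + 1) (x, y, z) =
      (1 - II (Ch E) M u (x, y, z)) * (1 - R z / gg E M u) := by
    intro z hz
    have : 1 - II (Ch E) M u (x, y, z) ≠ 0 := by linarith [(B.I _ (hv z hz)).2]
    rw [II, hR]
    field_simp
    ring
  have hQ : Real.log (Qf E M (u + 1) x y) =
      Real.log (Qf E M u x y) + ∑ z ∈ cod E x y, Real.log (1 - R z / gg E M u) := by
    have hne : ∀ z ∈ cod E x y, 1 - R z / gg E M u ≠ 0 := fun z hz => by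
      linarith [(abs_le.1 (hR3 z hz)).2]
    rw [Qf, prod_congr rfl hI, prod_mul_distrib, ← Real.log_prod hne]
    exact Real.log_mul (Qf_pos H B h).ne' (prod_ne_zero_iff.2 hne)
  have hc := H.card_cod_le h
  have e1 : |∑ z ∈ cod E x y, (R z / gg E M u + Real.log (1 - R z / gg E M u))| ≤
      lam E M u * (16 * w ^ 4) := by
    refine (abs_sum_le_sum_abs _ _).trans ?_
    refine (sum_le_card_nsmul _ _ (8 * (gg E M u)⁻¹ ^ 2) fun z hz => ?_).trans ?_
    · refine (abs_log_one_sub (hR3 z hz)).trans ?_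
      have := pow_le_pow_left₀ (abs_nonneg _) (hR2 z hz) 2
      rw [sq_abs] at this
      nlinarith
    · rw [nsmul_eq_mul, lam, div_eq_mul_inv]
      have h0 : 0 ≤ (gg E M u)⁻¹ := (inv_pos.2 hg).le
      calc ((cod E x y).card : ℝ) * (8 * (gg E M u)⁻¹ ^ 2)
          ≤ 2 * DD E * (8 * (gg E M u)⁻¹ ^ 2) := by gcongr
        _ = DD E * (gg E M u)⁻¹ * (16 * (gg E M u)⁻¹) := by ring
        _ ≤ _ := by gcongr
  have e2 : |∑ z ∈ cod E x y, (R z - 1 - (ell E M u x z + ell E M u y z))| ≤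
      DD E * (18 * w ^ 2) := by
    refine (abs_sum_le_sum_abs _ _).trans ((sum_le_card_nsmul _ _ _ hR1).trans ?_)
    rw [nsmul_eq_mul]
    nlinarith
  have e3 : |Real.log (1 + 2 * lam E M u) - 2 * lam E M u| ≤ lam E M u * (8 * w ^ 4) := by
    have h1 := abs_log_one_sub (y := -(2 * lam E M u))
      (by rw [abs_neg, abs_of_nonneg (by positivity)]; linarith)
    rw [sub_neg_eq_add, neg_add_eq_sub] at h1
    refine h1.trans ?_
    nlinarith
  have e4 := H.card_cod h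
  have key : ell E M (u + 1) x y - ell E M u x y + lam E M u *
      ((∑ z ∈ cod E x y, ell E M u x z) / DD E + (∑ z ∈ cod E x y, ell E M u y z) / DD E) =
      (∑ z ∈ cod E x y, (R z / gg E M u + Real.log (1 - R z / gg E M u))) -
      (gg E M u)⁻¹ * (∑ z ∈ cod E x y, (R z - 1 - (ell E M u x z + ell E M u y z))) +
      (Real.log (1 + 2 * lam E M u) - 2 * lam E M u) / 2 -
      lam E M u * (((cod E x y).card : ℝ) / DD E - 1) := by
    rw [ell, hQ, log_gg_step H u]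
    nth_rewrite 1 [ell]
    simp only [sum_add_distrib, sum_sub_distrib, ← sum_div, sum_const, nsmul_eq_mul, mul_one]
    have : DD E ≠ 0 := by linarith
    generalize Real.log (1 + 2 * lam E M u) = L
    rw [lam]
    field_simp
    ring
  have e2' : |(gg E M u)⁻¹ * (∑ z ∈ cod E x y, (R z - 1 - (ell E M u x z + ell E M u y z)))| ≤
      lam E M u * (18 * w ^ 2) := by
    rw [abs_mul, abs_of_pos (inv_pos.2 hg), lam, div_eq_mul_inv]
    calc _ ≤ (gg E M u)⁻¹ * (DD E * (18 * w ^ 2)) := by gcongr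
      _ = _ := by ring
  have e4' : |lam E M u * (((cod E x y).card : ℝ) / DD E - 1)| ≤ lam E M u * w ^ 2 := by
    rw [abs_mul, abs_of_nonneg hl0]
    gcongr
  have e5 : lam E M u * w ^ 4 ≤ lam E M u * (w ^ 2 / 10000) := by gcongr
  rw [key, abs_le]
  obtain ⟨f1, f2⟩ := abs_le.1 e1
  obtain ⟨f3, f4⟩ := abs_le.1 e2'
  obtain ⟨f5, f6⟩ := abs_le.1 e3
  obtain ⟨f7, f8⟩ := abs_le.1 e4'
  have : 0 ≤ lam E M u * w ^ 2 := by positivity
  constructor <;> linarith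

lemma avg_le (B : Bd E M w u) (hw : 0 ≤ w) (x : Fin n) :
    |(∑ z ∈ nb E x, ell E M u x z) / (nb E x).card| ≤ w := by
  rw [abs_div, Nat.abs_cast]
  apply div_le_of_le_mul₀ (Nat.cast_nonneg _) hw
  refine (abs_sum_le_sum_abs _ _).trans ((sum_le_card_nsmul _ _ w fun z hz => ?_).trans ?_)
  · exact B.l x z (mem_nb.1 hz)
  · rw [nsmul_eq_mul, mul_comm]

lemma Eop_le (H : Hyp E M w) (B : Bd E M w u) {x y : Fin n} (h : s(x, y) ∈ E) :
    |Eop E x (ell E M u x) y| ≤ 3 * w := by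
  have h1 := avg_le B H.w0.le x
  have hD : 0 < DD E := by linarith [H.D1]
  have h2 : |(∑ z ∈ cod E x y, ell E M u x z) / DD E| ≤ 2 * w := by
    rw [abs_div, abs_of_pos hD, div_le_iff₀ hD]
    refine (abs_sum_le_sum_abs _ _).trans ((sum_le_card_nsmul _ _ w fun z hz => ?_).trans ?_)
    · exact B.l x z (mem_cod.1 hz).1
    · rw [nsmul_eq_mul]
      nlinarith [H.card_cod_le h, H.w0]
  rw [Eop]
  exact (abs_sub _ _).trans (by linarith)

lemma xx_step (H : Hyp E M w) (B : Bd E M w u) {x y : Fin n} (h : s(x, y) ∈ E) :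
    |xx E M (u + 1) x y - xx E M u x y + lam E M u *
      (Eop E x (ell E M u x) y + Eop E y (ell E M u y) x)| ≤ lam E M u * (20 * w ^ 2) := by
  convert ell_step H B h using 2
  rw [xx, xx, bb, bb, Eop, Eop, cod_comm E y x]
  ring

end Ode

end Crest.Agent.R30
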