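import Crest.Agent.R30.OdeAux

/-! The tree recursion stays close to `(1 + 2 D u / M) ^ (-1/2)`, given the Lyapunov step. -/

set_option autoImplicit false

namespace Crest.Agent.R30

open Finset Crest.CombinatoricsR.TriangleRemoval
open scoped BigOperators

namespace Ode

variable {n : ℕ} {E : ES n} {M : ℕ} {w : ℝ}

/-- elapsed time -/
noncomputable def tau (E : ES n) (M u : ℕ) : ℝ := ∑ s ∈ range u, lam E M s

lemma tau_nonneg (H : Hyp E M w) (u : ℕ) : 0 ≤ tau E M u := sum_nonneg fun s _ => H.lam_nonneg s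

lemma tau_le_log (H : Hyp E M w) (u : ℕ) : tau E M u ≤ Real.log (gg E M u / M) := by
  induction u with
  | zero => simp [tau, gg, H.M0.ne']
  | succ u ih =>
    rw [tau, sum_range_succ, log_gg_step H u]
    have h0 := H.lam_nonneg u
    have h1 := H.lam_le u
    have h2 := H.w4
    have h3 := H.w2
    have h4 := Real.one_sub_inv_le_log_of_pos (x := 1 + 2 * lam E M u) (by linarith)
    have h5 : (1 + 2 * lam E M u)⁻¹ ≤ 1 - lam E M u := by
      rw [inv_le_iff_one_le_mul₀ (by linarith)]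
      nlinarith
    rw [tau] at ih
    linarith

lemma tau_le (H : Hyp E M w) {u : ℕ} (hu : u ≤ M) :
    tau E M u ≤ 2 * (1 + Real.log (DD E)) := by
  refine (tau_le_log H u).trans ?_
  have hM := H.M0
  have hD := H.D1
  have hu' : (u : ℝ) ≤ M := by exact_mod_cast hu
  have h1 : gg E M u / M ≤ 3 * DD E := by
    rw [div_le_iff₀ hM, gg]
    nlinarith
  refine (Real.log_le_log (div_pos (H.gg_pos u) hM) h1).trans ?_
  rw [Real.log_mul (by norm_num) (by linarith)]
  have h2 := Real.log_le_sub_one_of_pos (x := 3) (by norm_num)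
  have h3 := Real.log_nonneg hD
  linarith

lemma one_le_dbar (hD : 1 ≤ DD E) : 1 ≤ dbar E := by
  have h0 : 0 ≤ dbar E := by rw [dbar]; positivity
  rcases Nat.eq_zero_or_pos n with rfl | hn
  · rw [DD] at hD; simp at hD; linarith
  · have hn' : (1 : ℝ) ≤ n := by exact_mod_cast hn
    rw [DD, le_div_iff₀ (by linarith)] at hD
    nlinarith

lemma Phi_bounds {p : ℕ} (hp : Even p) (hp2 : 2 ≤ p) {Λ c : ℝ} (hΛ : 1 ≤ Λ) (hd : 1 ≤ dbar E)
    (hc : 0 ≤ c) {ξ : Fin n → Fin n → ℝ} {β : Fin n → ℝ}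
    (h : Λ ^ p * Phi E p Λ ξ β ≤ c ^ p) :
    (∀ x y, s(x, y) ∈ E → |ξ x y| ≤ c) ∧ ∀ x, |β x| ≤ c := by
  have hΛp : 1 ≤ Λ ^ p := one_le_pow₀ hΛ
  have h1 : 0 ≤ ∑ x, ∑ y ∈ nb E x, ξ x y ^ p :=
    sum_nonneg fun x _ => sum_nonneg fun y _ => hp.pow_nonneg _
  have h2 : 0 ≤ ∑ x, β x ^ p := sum_nonneg fun x _ => hp.pow_nonneg _
  have h3 : 0 ≤ (Λ ^ p)⁻¹ * dbar E * ∑ x, β x ^ p := by positivity
  have key : ∀ t : ℝ, t ^ p ≤ c ^ p → |t| ≤ c := fun t ht => by
    rw [← hp.pow_abs] at ht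
    exact le_of_pow_le_pow_left₀ (by omega) hc ht
  rw [Phi] at h
  refine ⟨fun x y hxy => key _ ?_, fun x => key _ ?_⟩
  · have a1 : ξ x y ^ p ≤ ∑ y ∈ nb E x, ξ x y ^ p :=
      single_le_sum (f := fun y => ξ x y ^ p) (fun y _ => hp.pow_nonneg _) (mem_nb.2 hxy)
    have a2 : ∑ y ∈ nb E x, ξ x y ^ p ≤ ∑ x, ∑ y ∈ nb E x, ξ x y ^ p :=
      single_le_sum (f := fun x => ∑ y ∈ nb E x, ξ x y ^ p)
        (fun x _ => sum_nonneg fun y _ => hp.pow_nonneg _) (mem_univ x)
    nlinarith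
  · have a1 : β x ^ p ≤ ∑ x, β x ^ p :=
      single_le_sum (f := fun x => β x ^ p) (fun x _ => hp.pow_nonneg _) (mem_univ x)
    have a2 : Λ ^ p * ((Λ ^ p)⁻¹ * dbar E * ∑ x, β x ^ p) = dbar E * ∑ x, β x ^ p := by
      field_simp
    rw [mul_add, a2] at h
    nlinarith

end Ode

open Ode in
theorem ode_of (p : ℕ) (hp : Even p) (hp2 : 2 ≤ p) (hL : ∃ C : ℝ, 0 < C ∧
    ∀ (n : ℕ) (E : ES n) (τ : Type) (𝒯 : Finset τ) (Λ δ e ρ r σ c : ℝ)
      (ξ : Fin n → Fin n → ℝ) (β : Fin n → ℝ) (ξ' : τ → Fin n → Fin n → ℝ) (β' : τ → Fin n → ℝ),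
      𝒯.Nonempty → Simple E → 0 < dbar E → (∀ x, |beta E x| ≤ δ) → δ ≤ 1 / 2 → 1 ≤ Λ →
      δ * Λ ≤ 1 → GapP E p e → e * (3 ^ p * Λ ^ (2 * p)) ≤ 1 → 0 ≤ ρ → 0 ≤ r → 0 ≤ σ →
      (∀ x y, ξ x y = ξ y x) →
      n * dbar E * |c| ^ p ≤ 2 ^ p * (∑ x, ∑ y ∈ nb E x, ξ x y ^ p + n ^ 2 * r ^ p) →
      (∀ x y, s(x, y) ∈ E → |(𝔼 T ∈ 𝒯, (ξ' T x y - ξ x y)) +
        ρ * (Eop E x (fun z => ξ x z + β x + β z) y + Eop E y (fun z => ξ y z + β y + β z) x)| ≤
          ρ * r) →
      (∀ x, |(𝔼 T ∈ 𝒯, (β' T x - β x)) +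
        ρ * ((∑ z ∈ nb E x, (ξ x z + β x + β z)) / (nb E x).card - c)| ≤ ρ * r) →
      (∀ x y, s(x, y) ∈ E → (∀ T ∈ 𝒯, |ξ' T x y - ξ x y| ≤ σ) ∧
        𝔼 T ∈ 𝒯, (ξ' T x y - ξ x y) ^ 2 ≤ ρ * σ ^ 2) →
      (∀ x, (∀ T ∈ 𝒯, |β' T x - β x| ≤ σ) ∧ 𝔼 T ∈ 𝒯, (β' T x - β x) ^ 2 ≤ ρ * σ ^ 2) →
      𝔼 T ∈ 𝒯, Phi E p Λ (ξ' T) (β' T) ≤
        (1 + C * ρ / Λ) * Phi E p Λ ξ β + C * ρ * Λ ^ p * n ^ 2 * (r ^ p + σ ^ p)) :
    ∃ C : ℝ, 0 < C ∧
    ∀ (n : ℕ) (E : ES n) (M : ℕ) (Λ w e : ℝ), Reg (w ^ 2) E → GapP E p e →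
      e * (3 ^ p * Λ ^ (2 * p)) ≤ 1 → 0 < w → C * w ≤ 1 → 1 ≤ Λ → w ^ 2 * Λ ≤ 1 → 1 ≤ DD E →
      C * (1 + Real.log (DD E)) ≤ Λ → Λ ≤ w ^ 2 * DD E → DD E ≤ w ^ 4 * M →
      C * Λ ^ (2 * p + 1) * n ^ 2 * w ^ p ≤ 1 →
      (∀ x y, s(x, y) ∈ E →
        Real.exp (-w) ≤ (∏ ν ∈ Rt E x y, (1 - II (Ch E) M M ν)) * √(1 + 2 * DD E) ∧
        (∏ ν ∈ Rt E x y, (1 - II (Ch E) M M ν)) * √(1 + 2 * DD E) ≤ Real.exp w) ∧
      ∀ ν, valid E ν → ∀ ν' ∈ Ch E ν, ∀ s < M,
        ∏ ν'' ∈ (Ch E ν).erase ν', (1 - II (Ch E) M s ν'') ≤ vis (DD E) M s := by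
  obtain ⟨C1, hC1, hL⟩ := hL
  have hC2 : 0 < 2 * C1 * Real.exp C1 * 60 ^ p := by positivity
  refine ⟨100 + 2 * C1 * Real.exp C1 * 60 ^ p, by positivity, ?_⟩
  intro n E M Λ w e hreg hgap he hw hCw hΛ hwΛ hD hlog hΛD hDM hsmall
  have H : Hyp E M w := ⟨hreg, hw, by nlinarith, hD, hDM⟩
  have hw1 := H.w1
  have hw2 := H.w2
  have hw4 := H.w4
  have hlogD := Real.log_nonneg hD
  have hdb := one_le_dbar hD
  have hτ : ∀ u ≤ M, tau E M u ≤ Λ / 2 := fun u hu => by
    have := tau_le H hu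
    nlinarith
  set K : ℝ := C1 * Λ ^ p * n ^ 2 * (2 * (20 * w ^ 2) ^ p) with hK
  have hK0 : 0 ≤ K := by positivity
  -- from the invariant to the pointwise bounds
  have toBd : ∀ u ≤ M,
      (∀ ν, valid E ν → 0 ≤ II (Ch E) M u ν ∧ II (Ch E) M u ν ≤ 2 * tau E M u / DD E) →
      Phi E p Λ (xx E M u) (bb E M u) ≤ Real.exp (C1 * tau E M u / Λ) * tau E M u * K →
      Bd E M w u := by
    intro u hu h1 h2
    have t0 := tau_nonneg H u
    have t1 := hτ u hu
    have h3 : Λ ^ p * Phi E p Λ (xx E M u) (bb E M u) ≤ (w / 3) ^ p := by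
      have a1 : Real.exp (C1 * tau E M u / Λ) ≤ Real.exp C1 := by
        apply Real.exp_le_exp.2
        rw [div_le_iff₀ (by linarith)]
        nlinarith
      have a2 : Phi E p Λ (xx E M u) (bb E M u) ≤ Real.exp C1 * Λ * K :=
        h2.trans (by gcongr; linarith)
      have a3 : Λ ^ p * (Real.exp C1 * Λ * K) =
          (2 * C1 * Real.exp C1 * 60 ^ p * Λ ^ (2 * p + 1) * n ^ 2 * w ^ p) * (w / 3) ^ p := by
        rw [hK, show 20 * w ^ 2 = 60 * w * (w / 3) by ring, mul_pow, mul_pow]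
        ring
      have a4 : 2 * C1 * Real.exp C1 * 60 ^ p * Λ ^ (2 * p + 1) * n ^ 2 * w ^ p ≤ 1 := by
        refine le_trans ?_ hsmall
        gcongr
        linarith
      calc _ ≤ Λ ^ p * (Real.exp C1 * Λ * K) := by gcongr
        _ ≤ _ := by rw [a3]; exact mul_le_of_le_one_left (by positivity) a4
    obtain ⟨h4, h5⟩ := Phi_bounds hp hp2 hΛ hdb (by positivity) h3
    refine ⟨fun ν hν => ⟨(h1 ν hν).1, (h1 ν hν).2.trans ?_⟩, fun x y hxy => ?_⟩
    · rw [div_le_iff₀ (by linarith)]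
      linarith
    · have a1 := abs_le.1 (h4 x y hxy)
      have a2 := abs_le.1 (h5 x)
      have a3 := abs_le.1 (h5 y)
      rw [xx] at a1
      rw [abs_le]
      constructor <;> linarith [a1.1, a1.2]
  have inv : ∀ u ≤ M,
      (∀ ν, valid E ν → 0 ≤ II (Ch E) M u ν ∧ II (Ch E) M u ν ≤ 2 * tau E M u / DD E) ∧
      Phi E p Λ (xx E M u) (bb E M u) ≤ Real.exp (C1 * tau E M u / Λ) * tau E M u * K := by
    intro u
    induction u with
    | zero =>
      intro _
      refine ⟨fun ν _ => by simp [II, tau], ?_⟩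
      have hp0 : p ≠ 0 := by omega
      simp [Phi, xx, bb, ell, Qf, II, gg, tau, H.M0.ne', hp0]
    | succ u ih =>
      intro hu
      obtain ⟨h1, h2⟩ := ih (by omega)
      have B := toBd u (by omega) h1 h2
      have l0 := H.lam_nonneg u
      have l1 := H.lam_le u
      have t0 := tau_nonneg H u
      have hts : tau E M (u + 1) = tau E M u + lam E M u := sum_range_succ _ _
      refine ⟨fun ν hν => ?_, ?_⟩
      · obtain ⟨a1, a2⟩ := II_step H B hν
        refine ⟨(h1 ν hν).1.trans a1, a2.trans ?_⟩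
        rw [hts, mul_add, add_div]
        linarith [(h1 ν hν).2]
      · have hf : ∀ x, (fun z => xx E M u x z + bb E M u x + bb E M u z) = ell E M u x :=
          fun x => funext fun z => by rw [xx]; ring
        have sq_le : ∀ t : ℝ, |t| ≤ lam E M u * (7 * w) →
            |t| ≤ 20 * w ^ 2 ∧ t ^ 2 ≤ lam E M u * (20 * w ^ 2) ^ 2 := by
          intro t ht
          have b1 : lam E M u * (7 * w) ≤ w ^ 4 * (7 * w) := by gcongr
          refine ⟨by nlinarith, ?_⟩
          have b2 := pow_le_pow_left₀ (abs_nonneg t) ht 2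
          rw [sq_abs] at b2
          refine b2.trans ?_
          have b3 : lam E M u * (7 * w) ^ 2 ≤ (20 * w ^ 2) ^ 2 := by
            have : lam E M u * (7 * w) ^ 2 ≤ w ^ 4 * (7 * w) ^ 2 := by gcongr
            have h4 : 0 ≤ w ^ 4 := by positivity
            nlinarith
          calc (lam E M u * (7 * w)) ^ 2 = lam E M u * (lam E M u * (7 * w) ^ 2) := by ring
            _ ≤ _ := by gcongr
        have h := hL n E Unit univ Λ (w ^ 2) e (lam E M u) (20 * w ^ 2) (20 * w ^ 2) 0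
          (xx E M u) (bb E M u) (fun _ => xx E M (u + 1)) (fun _ => bb E M (u + 1))
          univ_nonempty hreg.simple (by linarith) hreg.deg (by linarith) hΛ hwΛ hgap he l0
          (by positivity) (by positivity) (xx_comm E M u)
          (by
            rw [abs_zero, zero_pow (by omega), mul_zero]
            have : 0 ≤ ∑ x, ∑ y ∈ nb E x, xx E M u x y ^ p :=
              sum_nonneg fun x _ => sum_nonneg fun y _ => hp.pow_nonneg _
            positivity)
          (fun x y hxy => by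
            rw [expect_const univ_nonempty, hf, hf]
            exact xx_step H B hxy)
          (fun x => by
            rw [expect_const univ_nonempty]
            have : ∑ z ∈ nb E x, (xx E M u x z + bb E M u x + bb E M u z) =
                ∑ z ∈ nb E x, ell E M u x z := by rw [← hf x]
            rw [this, bb]
            simp only [sub_sub_cancel_left, sub_zero, neg_add_cancel, abs_zero]
            positivity)
          (fun x y hxy => by
            rw [expect_const univ_nonempty]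
            have b1 := abs_le.1 (xx_step H B hxy)
            have b2 := abs_le.1 (Eop_le H B hxy)
            have b3 := abs_le.1 (Eop_le H B (Sym2.eq_swap ▸ hxy : s(y, x) ∈ E))
            have b4 : |xx E M (u + 1) x y - xx E M u x y| ≤ lam E M u * (7 * w) := by
              have c1 : lam E M u * (20 * w ^ 2) ≤ lam E M u * w := by gcongr; nlinarith
              have c2 := mul_le_mul_of_nonneg_left (add_le_add b2.1 b3.1) l0
              have c3 := mul_le_mul_of_nonneg_left (add_le_add b2.2 b3.2) l0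
              rw [abs_le]
              constructor <;> linarith [b1.1, b1.2]
            exact ⟨fun _ _ => (sq_le _ b4).1, (sq_le _ b4).2⟩)
          (fun x => by
            rw [expect_const univ_nonempty]
            have b4 : |bb E M (u + 1) x - bb E M u x| ≤ lam E M u * (7 * w) := by
              rw [bb, sub_sub_cancel_left, abs_neg, abs_mul, abs_of_nonneg l0]
              gcongr
              linarith [avg_le B hw.le x]
            exact ⟨fun _ _ => (sq_le _ b4).1, (sq_le _ b4).2⟩)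
        rw [expect_const univ_nonempty] at h
        refine h.trans ?_
        have e1 : C1 * lam E M u * Λ ^ p * n ^ 2 * ((20 * w ^ 2) ^ p + (20 * w ^ 2) ^ p) =
            lam E M u * K := by rw [hK]; ring
        have e2 : C1 * (tau E M u + lam E M u) / Λ =
            C1 * lam E M u / Λ + C1 * tau E M u / Λ := by ring
        rw [e1, hts, e2, Real.exp_add]
        have x0 : 0 ≤ C1 * lam E M u / Λ := by positivity
        have x1 := Real.add_one_le_exp (C1 * lam E M u / Λ)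
        have x2 : 1 ≤ Real.exp (C1 * tau E M u / Λ) := Real.one_le_exp (by positivity)
        have x3 : (1 + C1 * lam E M u / Λ) * Phi E p Λ (xx E M u) (bb E M u) ≤
            Real.exp (C1 * lam E M u / Λ) * (Real.exp (C1 * tau E M u / Λ) * tau E M u * K) := by
          refine (mul_le_mul_of_nonneg_left h2 (by positivity)).trans ?_
          gcongr
          linarith
        have x4 : lam E M u * K ≤
            Real.exp (C1 * lam E M u / Λ) * Real.exp (C1 * tau E M u / Λ) * (lam E M u * K) :=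
          le_mul_of_one_le_left (by positivity) (one_le_mul_of_one_le_of_one_le (by linarith) x2)
        linarith
  have hB : ∀ u ≤ M, Bd E M w u := fun u hu => toBd u hu (inv u hu).1 (inv u hu).2
  refine ⟨fun x y hxy => ?_, fun ν hν ν' hν' s hs => ?_⟩
  · have B := hB M le_rfl
    have h1 := abs_le.1 (B.l x y hxy)
    have h2 : Qf E M M x y * √(1 + 2 * DD E) = Real.exp (ell E M M x y) := by
      have a1 : gg E M M / M = 1 + 2 * DD E := by
        have := H.M0
        rw [gg]; field_simp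
      rw [ell, a1, Real.exp_add, Real.exp_log (Qf_pos H B hxy),
        ← Real.log_sqrt (by linarith), Real.exp_log (Real.sqrt_pos.2 (by linarith))]
    rw [prod_Rt, h2]
    exact ⟨Real.exp_le_exp.2 h1.1, Real.exp_le_exp.2 h1.2⟩
  · have B := hB s hs.le
    obtain ⟨a1, a2⟩ := B.I _ (valid_of_mem_Ch hν hν')
    have h1 := (ratio_le H B hν a1 a2).2
    rw [← mul_prod_erase _ _ hν', mul_div_cancel_left₀ _ (by linarith)] at h1
    refine h1.trans ?_
    have := H.gg_pos s
    have := H.M0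
    rw [vis]
    change _ ≤ 3 * M / gg E M s
    gcongr
    norm_num

end Crest.Agent.R30
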