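import Crest.Agent.R30.Defs

/-! The triangle removal process is the greedy process in a random order. -/

set_option autoImplicit false

namespace Crest.Agent.R30

open Finset Crest.CombinatoricsR.TriangleRemoval
open scoped BigOperators

namespace Order

variable {n : ℕ}

theorem mem_tri {E : ES n} {T : Finset (Fin n)} :
    T ∈ triangles E ↔ T.card = 3 ∧ ∀ u ∈ T, ∀ v ∈ T, u ≠ v → s(u, v) ∈ E := by
  simp [triangles]

theorem mem_tri_sdiff {E : ES n} {T T₀ : Finset (Fin n)} :
    T ∈ triangles (E \ T₀.sym2) ↔ T ∈ triangles E ∧ ¬ 2 ≤ (T ∩ T₀).card := by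
  rw [mem_tri, mem_tri, Nat.succ_le_iff, one_lt_card]
  simp only [mem_sdiff, mk_mem_sym2_iff, mem_inter]
  constructor
  · rintro ⟨h1, h2⟩
    refine ⟨⟨h1, fun u hu v hv huv => (h2 u hu v hv huv).1⟩, ?_⟩
    rintro ⟨u, hu, v, hv, huv⟩
    exact (h2 u hu.1 v hv.1 huv).2 ⟨hu.2, hv.2⟩
  · rintro ⟨⟨h1, h2⟩, h3⟩
    exact ⟨h1, fun u hu v hv huv =>
      ⟨h2 u hu v hv huv, fun h => h3 ⟨u, ⟨hu, h.1⟩, v, ⟨hv, h.2⟩, huv⟩⟩⟩

theorem card_sdiff_lt {E : ES n} {T : Finset (Fin n)} (hT : T ∈ triangles E) :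
    (E \ T.sym2).card < E.card := by
  obtain ⟨h1, h2⟩ := mem_tri.1 hT
  obtain ⟨u, hu, v, hv, huv⟩ := one_lt_card.1 (show 1 < T.card by omega)
  refine card_lt_card ⟨sdiff_subset, fun h => ?_⟩
  exact (mem_sdiff.1 (h (h2 u hu v hv huv))).2 (mk_mem_sym2_iff.2 ⟨hu, hv⟩)

theorem acc_sdiff {E : ES n} {ω : Finset (Fin n) → ℕ} {T₀ : Finset (Fin n)} (h0 : T₀ ∈ triangles E)
    (hmin : ∀ T ∈ triangles E, T ≠ T₀ → ω T₀ < ω T) (T : Finset (Fin n)) :
    acc E ω T ↔ T = T₀ ∨ acc (E \ T₀.sym2) ω T := by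
  have hacc : acc E ω T₀ := by
    refine (acc_iff _ _ _).2 ⟨h0, fun T' hT' _ hlt => ?_⟩
    by_cases h : T' = T₀
    · exact absurd (h ▸ hlt) (lt_irrefl _)
    · exact absurd (hmin T' hT' h) (not_lt.2 hlt.le)
  induction hk : ω T using Nat.strong_induction_on generalizing T with
  | _ k ih =>
    subst hk
    by_cases hT : T = T₀
    · exact ⟨fun _ => Or.inl hT, fun _ => hT ▸ hacc⟩
    rw [or_iff_right hT, acc_iff, acc_iff, mem_tri_sdiff]
    constructor
    · rintro ⟨h1, h2⟩
      refine ⟨⟨h1, fun h => h2 T₀ h0 h (hmin T h1 hT) hacc⟩, fun T' hT' h3 h4 h5 => ?_⟩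
      exact h2 T' (mem_tri_sdiff.1 hT').1 h3 h4 ((ih _ h4 T' rfl).2 (Or.inr h5))
    · rintro ⟨⟨h1, h1'⟩, h2⟩
      refine ⟨h1, fun T' _ h3 h4 h5 => ?_⟩
      rcases (ih _ h4 T' rfl).1 h5 with h6 | h6
      · exact h1' (h6 ▸ h3)
      · exact h2 T' ((acc_iff _ _ _).1 h6).1 h3 h4 h6

theorem final_sdiff {E : ES n} {ω : Finset (Fin n) → ℕ} {T₀ : Finset (Fin n)}
    (h0 : T₀ ∈ triangles E) (hmin : ∀ T ∈ triangles E, T ≠ T₀ → ω T₀ < ω T) :
    final E ω = final (E \ T₀.sym2) ω := by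
  unfold final
  congr 1
  ext e
  simp only [mem_filter, mem_sdiff, acc_sdiff h0 hmin]
  constructor
  · rintro ⟨h1, h2⟩
    exact ⟨⟨h1, h2 T₀ (Or.inl rfl)⟩, fun T hT => h2 T (Or.inr hT)⟩
  · rintro ⟨⟨h1, h1'⟩, h2⟩
    refine ⟨h1, fun T hT => ?_⟩
    rcases hT with rfl | hT
    exacts [h1', h2 T hT]

theorem final_of_no_tri {E : ES n} (h : (triangles E).card = 0) (ω : Finset (Fin n) → ℕ) :
    final E ω = E.card := by
  classical
  unfold final
  rw [filter_true_of_mem]
  intro e _ T hT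
  have := ((acc_iff _ _ _).1 hT).1
  rw [card_eq_zero.1 h] at this
  simp at this

theorem swap_mem {α : Type} [DecidableEq α] {S : Finset α} {a b x : α} (ha : a ∈ S) (hb : b ∈ S)
    (hx : x ∈ S) : Equiv.swap a b x ∈ S := by
  rw [Equiv.swap_apply_def]
  split_ifs <;> assumption

/-- `T₀` has the strictly smallest clock in `S` -/
def IsMin' {α β : Type} [LT β] (S : Finset α) (T₀ : α) (w : α → β) : Prop :=
  ∀ T ∈ S, T ≠ T₀ → w T₀ < w T

theorem isMin_swap {α β : Type} [DecidableEq α] [LT β] {S : Finset α} {a b : α} (ha : a ∈ S)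
    (hb : b ∈ S) (T₀ : α) (w : α → β) :
    IsMin' S T₀ (w ∘ Equiv.swap a b) ↔ IsMin' S (Equiv.swap a b T₀) w := by
  constructor
  · intro h T hT hne
    have := h (Equiv.swap a b T) (swap_mem ha hb hT) fun e => hne (by rw [← e]; simp)
    simpa using this
  · intro h T hT hne
    exact h (Equiv.swap a b T) (swap_mem ha hb hT) fun e => hne ((Equiv.swap a b).injective e)

theorem sum_swap {α β : Type} [DecidableEq α] [Fintype α] [Fintype β] (a b : α)
    (f : (α → β) → ℝ) : ∑ w : α → β, f (w ∘ Equiv.swap a b) = ∑ w : α → β, f w :=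
  Fintype.sum_bijective (fun w => w ∘ Equiv.swap a b)
    (Function.Involutive.bijective fun w => by ext x; simp) _ _ fun _ => rfl

theorem main (φ : ℕ → ℝ) (M fuel : ℕ) (E : ES n) (hfuel : E.card ≤ fuel)
    (μ : (Finset (Fin n) → Fin M) → ℝ) (hinj : ∀ w, μ w ≠ 0 → Set.InjOn w (triangles E))
    (hinv : ∀ T ∈ triangles E, ∀ T' ∈ triangles E, ∀ w, μ (w ∘ Equiv.swap T T') = μ w) :
    ∑ w, μ w * φ (final E fun T => (w T : ℕ)) = (∑ w, μ w) * expectFinal φ fuel E := by
  classical
  induction fuel generalizing E μ with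
  | zero =>
    have h : ∀ ω, final E ω = E.card := fun ω =>
      le_antisymm (card_filter_le _ _) (hfuel.trans (Nat.zero_le _))
    simp only [h, expectFinal, sum_mul]
  | succ fuel ih =>
    rw [expectFinal]
    split_ifs with h0
    · simp only [final_of_no_tri h0, sum_mul]
    set S := triangles E with hS
    have hne : S.Nonempty := card_pos.1 (Nat.pos_of_ne_zero h0)
    set ν : Finset (Fin n) → (Finset (Fin n) → Fin M) → ℝ :=
      fun T₀ w => if IsMin' S T₀ w then μ w else 0 with hν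
    have h1 : ∀ w, μ w = ∑ T₀ ∈ S, ν T₀ w := by
      intro w
      by_cases hw : μ w = 0
      · simp [hν, hw]
      obtain ⟨T₀, hT₀, hmin⟩ := exists_min_image S w hne
      have hm : IsMin' S T₀ w := fun T hT hne' =>
        lt_of_le_of_ne (hmin T hT) fun e => hne' (hinj w hw hT₀ hT e).symm
      rw [sum_eq_single_of_mem T₀ hT₀ fun T hT hne' => ?_]
      · simp only [hν, if_pos hm]
      · exact if_neg fun hm' => lt_asymm (hm T hT hne') (hm' T₀ hT₀ hne'.symm)
    have h2 : ∀ T₀ ∈ S, ∀ T₁ ∈ S, ∑ w, ν T₀ w = ∑ w, ν T₁ w := by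
      intro T₀ h₀ T₁ h₁
      rw [← sum_swap T₀ T₁ (ν T₀)]
      refine sum_congr rfl fun w _ => ?_
      simp only [hν, isMin_swap h₀ h₁, Equiv.swap_apply_left, hinv T₀ h₀ T₁ h₁]
    have h3 : ∀ T₀ ∈ S, ∑ w, ν T₀ w = (∑ w, μ w) * (S.card : ℝ)⁻¹ := by
      intro T₀ h₀
      have hc : (S.card : ℝ) ≠ 0 := Nat.cast_ne_zero.2 h0
      rw [sum_congr rfl fun w _ => h1 w, sum_comm, sum_congr rfl fun T hT => h2 T hT T₀ h₀,
        sum_const, nsmul_eq_mul]
      field_simp
    have h4 : ∀ T₀ ∈ S, ∑ w, ν T₀ w * φ (final E fun T => (w T : ℕ)) =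
        (∑ w, μ w) * (S.card : ℝ)⁻¹ * expectFinal φ fuel (E \ T₀.sym2) := by
      intro T₀ h₀
      have hsub : ∀ T ∈ triangles (E \ T₀.sym2), T ∈ S ∧ T₀ ≠ T := fun T hT => by
        obtain ⟨h5, h6⟩ := mem_tri_sdiff.1 hT
        refine ⟨h5, ?_⟩
        rintro rfl
        rw [inter_self, (mem_tri.1 h5).1] at h6
        exact h6 (by norm_num)
      rw [← h3 T₀ h₀, ← ih (E \ T₀.sym2) (by have := card_sdiff_lt h₀; omega) (ν T₀)]
      · refine sum_congr rfl fun w _ => ?_
        by_cases hm : IsMin' S T₀ w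
        · rw [final_sdiff (ω := fun T => (w T : ℕ)) h₀ hm]
        · simp only [hν, if_neg hm, zero_mul]
      · intro w hw
        have : μ w ≠ 0 := fun e => hw (by simp [hν, e])
        exact (hinj w this).mono fun T hT => (hsub T hT).1
      · intro T hT T' hT' w
        simp only [hν, isMin_swap (hsub T hT).1 (hsub T' hT').1,
          Equiv.swap_apply_of_ne_of_ne (hsub T hT).2 (hsub T' hT').2,
          hinv T (hsub T hT).1 T' (hsub T' hT').1]
    calc ∑ w, μ w * φ (final E fun T => (w T : ℕ))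
        = ∑ w, ∑ T₀ ∈ S, ν T₀ w * φ (final E fun T => (w T : ℕ)) :=
          sum_congr rfl fun w _ => by rw [← sum_mul, ← h1]
      _ = _ := by rw [sum_comm, sum_congr rfl h4, ← mul_sum, mul_assoc]

theorem card_eq_le {α : Type} [DecidableEq α] [Fintype α] (M : ℕ) {a b : α} (hab : a ≠ b) :
    (univ.filter fun w : α → Fin M => w a = w b).card * M ≤ Fintype.card (α → Fin M) := by
  have h := card_le_card_of_injOn (s := (univ.filter fun w : α → Fin M => w a = w b) ×ˢ univ)
    (t := univ) (fun p : (α → Fin M) × Fin M => Function.update p.1 a p.2)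
    (fun _ _ => mem_coe.2 (mem_univ _)) (by
      rintro ⟨w, c⟩ hw ⟨w', c'⟩ hw' e
      simp only [coe_product, coe_filter, mem_univ, true_and, coe_univ, Set.mem_prod,
        Set.mem_ofPred_eq, Set.mem_univ, and_true] at hw hw' e
      have h1 : ∀ x, x ≠ a → w x = w' x := fun x hx => by simpa [hx] using congrFun e x
      have h2 : c = c' := by simpa using congrFun e a
      refine Prod.ext (funext fun x => ?_) h2
      by_cases hx : x = a
      · rw [hx]
        exact hw.trans ((h1 b hab.symm).trans hw'.symm)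
      · exact h1 x hx)
  simpa using h

open Classical in
theorem card_not_inj {α : Type} [Fintype α] (M : ℕ) (S : Finset α) :
    (univ.filter fun w : α → Fin M => ¬ Set.InjOn w S).card * M ≤
      S.card ^ 2 * Fintype.card (α → Fin M) := by
  have h1 : (univ.filter fun w : α → Fin M => ¬ Set.InjOn w S) ⊆
      S.offDiag.biUnion fun p => univ.filter fun w : α → Fin M => w p.1 = w p.2 := by
    intro w hw
    simp only [mem_filter, mem_univ, true_and, Set.InjOn, not_forall] at hw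
    obtain ⟨a, ha, b, hb, h, hab⟩ := hw
    exact mem_biUnion.2 ⟨(a, b), mem_offDiag.2 ⟨ha, hb, hab⟩, by simpa using h⟩
  refine (Nat.mul_le_mul_right M ((card_le_card h1).trans card_biUnion_le)).trans ?_
  rw [sum_mul]
  refine (sum_le_card_nsmul _ _ _ fun p hp => card_eq_le M (mem_offDiag.1 hp).2.2).trans ?_
  rw [smul_eq_mul, offDiag_card, sq]
  exact Nat.mul_le_mul_right _ (Nat.sub_le _ _)

end Order

theorem expectFinal_le {n : ℕ} (φ : ℕ → ℝ) (B : ℝ) (fuel : ℕ) (E : ES n)
    (hφ : ∀ e ≤ E.card, φ e ≤ B) : expectFinal φ fuel E ≤ B := by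
  induction fuel generalizing E with
  | zero => exact hφ _ le_rfl
  | succ fuel ih =>
    rw [expectFinal]
    split_ifs with h0
    · exact hφ _ le_rfl
    · have hc : (0 : ℝ) < (triangles E).card := by exact_mod_cast Nat.pos_of_ne_zero h0
      rw [inv_mul_le_iff₀ hc, ← nsmul_eq_mul]
      exact sum_le_card_nsmul _ _ _ fun T _ =>
        ih _ fun e he => hφ e (he.trans (card_le_card sdiff_subset))

theorem expectFinal_nonneg {n : ℕ} (φ : ℕ → ℝ) (hφ : ∀ e, 0 ≤ φ e) (fuel : ℕ) (E : ES n) :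
    0 ≤ expectFinal φ fuel E := by
  induction fuel generalizing E with
  | zero => exact hφ _
  | succ fuel ih =>
    rw [expectFinal]
    split_ifs with h0
    · exact hφ _
    · exact mul_nonneg (by positivity) (sum_nonneg fun T _ => ih _)

theorem expectFinal_le_order {n : ℕ} (φ : ℕ → ℝ) (B : ℝ) (E : ES n) (fuel M : ℕ) [NeZero M]
    (hfuel : E.card ≤ fuel) (hφ0 : ∀ e, 0 ≤ φ e) (hφ : ∀ e ≤ E.card, φ e ≤ B) :
    expectFinal φ fuel E ≤
      (𝔼 ω : Finset (Fin n) → Fin M, φ (final E fun T => (ω T : ℕ))) +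
        B * ((triangles E).card : ℝ) ^ 2 / M := by
  classical
  have h1 := Order.main φ M fuel E hfuel (fun w => if Set.InjOn w (triangles E) then 1 else 0)
    (fun w hw => by by_contra h; exact hw (if_neg h)) (fun T hT T' hT' w => by
      have key : ∀ w : Finset (Fin n) → Fin M, Set.InjOn w (triangles E) →
          Set.InjOn (w ∘ Equiv.swap T T') (triangles E) := fun w hw a ha b hb e =>
        (Equiv.swap T T').injective (hw (Order.swap_mem hT hT' ha) (Order.swap_mem hT hT' hb) e)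
      refine if_congr ⟨fun h => ?_, key w⟩ rfl rfl
      have := key _ h
      rwa [Function.comp_assoc, ← Equiv.coe_trans, Equiv.swap_swap, Equiv.coe_refl,
        Function.comp_id] at this)
  have h2 : ∑ w : Finset (Fin n) → Fin M, (if Set.InjOn w (triangles E) then (1 : ℝ) else 0) *
      φ (final E fun T => (w T : ℕ)) ≤
        ∑ w : Finset (Fin n) → Fin M, φ (final E fun T => (w T : ℕ)) :=
    sum_le_sum fun w _ => by
      split_ifs
      · rw [one_mul]
      · rw [zero_mul]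
        exact hφ0 _
  rw [h1, sum_boole] at h2
  have h3 := card_filter_add_card_filter_not (s := (univ : Finset (Finset (Fin n) → Fin M)))
    (fun w => Set.InjOn w (triangles E))
  have h4 := Order.card_not_inj M (triangles E)
  have h5 := expectFinal_le φ B fuel E hφ
  have h6 := expectFinal_nonneg φ hφ0 fuel E
  rw [Finset.expect_eq_sum_div_card]
  rw [card_univ] at h3 ⊢
  have hM : (0 : ℝ) < M := by exact_mod_cast Nat.pos_of_ne_zero (NeZero.ne M)
  have hN : (0 : ℝ) < Fintype.card (Finset (Fin n) → Fin M) := by exact_mod_cast Fintype.card_pos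
  have h3' := congrArg (fun k : ℕ => (k : ℝ)) h3
  have h4' := (Nat.cast_le (α := ℝ)).2 h4
  simp only [Nat.cast_add, Nat.cast_mul, Nat.cast_pow] at h3' h4'
  have h7 : ((univ.filter fun w : Finset (Fin n) → Fin M =>
      ¬ Set.InjOn w (triangles E)).card : ℝ) * expectFinal φ fuel E ≤
        B * ((triangles E).card : ℝ) ^ 2 / M * Fintype.card (Finset (Fin n) → Fin M) := by
    refine (mul_le_mul_of_nonneg_left h5 (Nat.cast_nonneg _)).trans ?_
    rw [div_mul_eq_mul_div, le_div_iff₀ hM, mul_assoc B, mul_right_comm, mul_comm B]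
    convert mul_le_mul_of_nonneg_right h4' (h6.trans h5)
    rfl
  rw [← sub_le_iff_le_add, le_div_iff₀ hN, sub_mul]
  nth_rewrite 1 [← h3']
  linarith

end Crest.Agent.R30
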