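import Crest.Agent.R30.TreeDT

/-! The abstract exploration: coupling of the greedy process with the tree recursion. -/

set_option autoImplicit false

namespace Crest.Agent.R30

open Finset Crest.CombinatoricsR.TriangleRemoval
open scoped BigOperators

namespace Tree

open DT

lemma expect_fin (M : ℕ) {u : ℕ} (hu : u ≤ M) (h : ℕ → ℝ) :
    (𝔼 v : Fin M, if (v : ℕ) < u then h v else 0) = ∑ s ∈ range u, h s / M := by
  rw [Fintype.expect_eq_sum_div_card, Fintype.card_fin,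
    Fin.sum_univ_eq_sum_range (fun s => if s < u then h s else 0), ← sum_div, ← sum_filter]
  congr 2
  ext s
  simp only [mem_filter, mem_range]
  omega

variable {N : Type}

lemma II_eq (Ch : N → Finset N) (M u : ℕ) (ν : N) :
    II Ch M u ν = ∑ s ∈ range u, (∏ ν' ∈ Ch ν, (1 - II Ch M s ν')) / M := by
  induction u with
  | zero => simp [II]
  | succ u ih => rw [II, sum_range_succ, ← ih]

lemma II_bound (Ch : N → Finset N) (M : ℕ) [NeZero M] (u : ℕ) (hu : u ≤ M) (ν : N) :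
    0 ≤ II Ch M u ν ∧ II Ch M u ν ≤ u / M := by
  have hM : (0 : ℝ) < M := by exact_mod_cast NeZero.pos M
  induction u generalizing ν with
  | zero => simp [II]
  | succ u ih =>
    have h1 : ∀ ν', 0 ≤ 1 - II Ch M u ν' ∧ 1 - II Ch M u ν' ≤ 1 := by
      intro ν'
      have := ih (by omega) ν'
      have h2 : (u : ℝ) / M ≤ 1 := by
        rw [div_le_one hM]; exact_mod_cast (by omega : u ≤ M)
      constructor <;> linarith [this.1, this.2]
    have h2 : 0 ≤ ∏ ν' ∈ Ch ν, (1 - II Ch M u ν') := prod_nonneg fun ν' _ => (h1 ν').1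
    have h3 : ∏ ν' ∈ Ch ν, (1 - II Ch M u ν') ≤ 1 :=
      prod_le_one (fun ν' _ => (h1 ν').1) fun ν' _ => (h1 ν').2
    have h4 := ih (by omega) ν
    rw [II]
    refine ⟨add_nonneg h4.1 (by positivity), ?_⟩
    push_cast
    rw [add_div]
    exact add_le_add h4.2 (by gcongr)

lemma w_bound (Ch : N → Finset N) (M : ℕ) [NeZero M] (u : ℕ) (hu : u ≤ M) (D : Finset N) :
    0 ≤ ∏ ν ∈ D, (1 - II Ch M u ν) ∧ ∏ ν ∈ D, (1 - II Ch M u ν) ≤ 1 := by
  have hM : (0 : ℝ) < M := by exact_mod_cast NeZero.pos M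
  have h1 : ∀ ν', 0 ≤ 1 - II Ch M u ν' ∧ 1 - II Ch M u ν' ≤ 1 := by
    intro ν'
    have := II_bound Ch M u hu ν'
    have h2 : (u : ℝ) / M ≤ 1 := by
      rw [div_le_one hM]; exact_mod_cast hu
    constructor <;> linarith [this.1, this.2]
  exact ⟨prod_nonneg fun ν' _ => (h1 ν').1,
    prod_le_one (fun ν' _ => (h1 ν').1) fun ν' _ => (h1 ν').2⟩

lemma expect_II (Ch : N → Finset N) (M : ℕ) [NeZero M] {u : ℕ} (hu : u ≤ M) (ν : N) :
    (𝔼 v : Fin M, if (v : ℕ) < u then 1 - ∏ ν' ∈ Ch ν, (1 - II Ch M v ν') else 1) =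
      1 - II Ch M u ν := by
  rw [II_eq, ← expect_fin M hu (fun s => ∏ ν' ∈ Ch ν, (1 - II Ch M s ν')),
    ← Fintype.expect_const (ι := Fin M) (1 : ℝ), ← expect_sub_distrib]
  refine expect_congr rfl fun v _ => ?_
  rw [Fintype.expect_const]
  split_ifs <;> simp

variable {K : Type} [Fintype K] [DecidableEq K] [DecidableEq N]

lemma XX_ge (key : N → K) (mB : N → K → ℝ) (C : Finset N) (hC : Set.InjOn key C)
    (h0 : ∀ ν ∈ C, ∀ k, 0 ≤ mB ν k) :
    ∑ ν ∈ C, ∑ ν' ∈ C.erase ν, ∑ k, mB ν k * mB ν' k + ∑ k ∈ C.image key, ∑ ν ∈ C, mB ν k ≤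
      XX key mB C := by
  rw [sum_image hC, XX]
  have e : ∑ ν ∈ C, ∑ ν' ∈ C, mB ν' (key ν) =
      ∑ ν ∈ C, mB ν (key ν) + ∑ ν ∈ C, ∑ ν' ∈ C.erase ν, mB ν' (key ν) := by
    rw [← sum_add_distrib]
    exact sum_congr rfl fun ν hν => (add_sum_erase C (fun ν' => mB ν' (key ν)) hν).symm
  rw [e, add_left_comm, ← sum_add_distrib]
  refine add_le_add le_rfl (sum_le_sum fun ν hν => ?_)
  rw [← sum_add_distrib]
  refine sum_le_sum fun ν' hν' => ?_
  have hν'' := mem_of_mem_erase hν'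
  have e2 : mB ν' (key ν) = ∑ k, (if key ν = k then 1 else 0) * mB ν' k := by simp
  rw [e2, ← sum_add_distrib]
  refine sum_le_sum fun k _ => ?_
  have a1 := h0 ν hν k
  have a2 := h0 ν' hν'' k
  unfold mu
  split_ifs <;> nlinarith

/-- exploring a family of siblings -/
lemma exists_blk (M : ℕ) [NeZero M] (key : N → K) (Ch : N → Finset N) (par : N → Finset K)
    (acc : (K → Fin M) → K → Prop) (mb : ℕ → N → K → ℝ) (mB : N → K → ℝ) (pb : ℕ → N → ℝ)
    (u : ℕ) (hu : u ≤ M) (C : Finset N) (hC : Set.InjOn key C) (P : ℕ → N → DT K (Fin M))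
    (hev : ∀ s < u, ∀ ν ∈ C, ∀ ω : K → Fin M, (ω (key ν) : ℕ) = s →
      (∀ k ∈ par ν, ω k < ω (key ν) → ¬ acc ω k) → (eval ω (P s ν) = true ↔ acc ω (key ν)))
    (hq : ∀ s < u, ∀ ν ∈ C, q (P s ν) = 1 - ∏ ν' ∈ Ch ν, (1 - II Ch M s ν'))
    (hm : ∀ s < u, ∀ ν ∈ C, ∀ k, m (P s ν) k ≤ mb s ν k)
    (hp : ∀ s < u, ∀ ν ∈ C, pairs (P s ν) ≤ pb s ν)
    (hmB : ∀ s < u, ∀ ν ∈ C, ∀ k, mb s ν k ≤ mB ν k) (hmB0 : ∀ ν ∈ C, ∀ k, 0 ≤ mB ν k) :
    ∃ t : DT K (Fin M),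
      (∀ ω : K → Fin M, (∀ ν ∈ C, ∀ k ∈ par ν, k ∈ C.image key ∨ u ≤ ω k) →
        (eval ω t = false ↔ ∀ ν ∈ C, (ω (key ν) : ℕ) < u → ¬ acc ω (key ν))) ∧
      q t = ∏ ν ∈ C, (1 - II Ch M u ν) ∧
      (∀ k, m t k ≤ ∑ ν ∈ C, ((if key ν = k then 1 else 0) +
        ∑ s ∈ range u, (∏ ν' ∈ C.erase ν, (1 - II Ch M s ν')) / M * mb s ν k)) ∧
      pairs t ≤ XX key mB C +
        ∑ ν ∈ C, ∑ s ∈ range u, (∏ ν' ∈ C.erase ν, (1 - II Ch M s ν')) / M * pb s ν := by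
  classical
  let Q : ℕ → N → DT K (Fin M) := fun s ν => if s < u then P s ν else ret false
  have hany := fun ρ : N → ℕ => exists_any C ρ (fun ν => Q (ρ ν) ν) mB (by
    intro ν hν k
    simp only [Q]
    split_ifs with h
    · exact (hm _ h ν hν k).trans (hmB _ h ν hν k)
    · exact hmB0 ν hν k)
  choose G g1 g2 g3 g4 g5 using hany
  let ρ : (K → Fin M) → N → ℕ := fun c ν => if ν ∈ C then c (key ν) else 0
  have hρ : ∀ c, ∀ ν ∈ C, ρ c ν = c (key ν) := fun c ν hν => if_pos hν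
  obtain ⟨t, t1, t2, t3, t4⟩ := exists_askAll (C.image key) (fun c => G (ρ c)) (by
    intro c c' h
    have : ρ c = ρ c' := by
      funext ν
      simp only [ρ]
      split_ifs with hν
      · rw [h _ (mem_image_of_mem key hν)]
      · rfl
    simp only [this])
  have hQq : ∀ s, ∀ ν ∈ C, q (Q s ν) =
      if s < u then 1 - ∏ ν' ∈ Ch ν, (1 - II Ch M s ν') else 1 := by
    intro s ν hν
    simp only [Q]
    split_ifs with h
    · exact hq s h ν hν
    · simp [q]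
  -- the averaged main term
  have hmain : ∀ (Y : DT K (Fin M) → ℝ) (y : ℕ → N → ℝ), Y (ret false) = 0 →
      (∀ s < u, ∀ ν ∈ C, Y (P s ν) ≤ y s ν) →
      (𝔼 c : K → Fin M, ∑ ν ∈ C, (∏ ν' ∈ C.erase ν,
        if ρ c ν' < ρ c ν then q (Q (ρ c ν') ν') else 1) * Y (Q (ρ c ν) ν)) ≤
      ∑ ν ∈ C, ∑ s ∈ range u, (∏ ν' ∈ C.erase ν, (1 - II Ch M s ν')) / M * y s ν := by
    intro Y y hY0 hY
    rw [expect_sum_comm]
    refine sum_le_sum fun ν hν => ?_
    have e1 : ∀ c : K → Fin M, (∏ ν' ∈ C.erase ν,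
        if ρ c ν' < ρ c ν then q (Q (ρ c ν') ν') else 1) * Y (Q (ρ c ν) ν) =
        (∏ ν' ∈ C.erase ν, if (c (key ν') : ℕ) < c (key ν) then q (Q (c (key ν')) ν') else 1) *
          Y (Q (c (key ν)) ν) := by
      intro c
      rw [hρ c ν hν]
      congr 1
      exact prod_congr rfl fun ν' hν' => by rw [hρ c ν' (mem_of_mem_erase hν')]
    simp only [e1]
    rw [expect_visit key C hC ν hν
      (fun (v : Fin M) ν' (v' : Fin M) => if (v' : ℕ) < v then q (Q v' ν') else 1)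
      (fun v : Fin M => Y (Q v ν))]
    simp only [div_mul_eq_mul_div]
    rw [← expect_fin M hu (fun s => (∏ ν' ∈ C.erase ν, (1 - II Ch M s ν')) * y s ν)]
    refine expect_le_expect fun v _ => ?_
    split_ifs with hv
    · have e2 : ∀ ν' ∈ C.erase ν, (𝔼 v' : Fin M, if (v' : ℕ) < v then q (Q v' ν') else 1) =
          1 - II Ch M v ν' := by
        intro ν' hν'
        rw [← expect_II Ch M v.2.le ν']
        refine expect_congr rfl fun v' _ => ?_
        split_ifs with h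
        · rw [hQq _ _ (mem_of_mem_erase hν'), if_pos (h.trans hv)]
        · rfl
      rw [prod_congr rfl e2]
      refine mul_le_mul_of_nonneg_left ?_ (w_bound Ch M v v.2.le _).1
      simp only [Q, if_pos hv]
      exact hY v hv ν hν
    · simp only [Q, if_neg hv, hY0, mul_zero, le_refl]
  refine ⟨t, fun ω hω => ?_, ?_, fun k => ?_, ?_⟩
  · rw [t1, ← Bool.not_eq_true, g1]
    have hcor : ∀ ν ∈ C, (∀ ν' ∈ C, ω (key ν') < ω (key ν) → ¬ acc ω (key ν')) →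
        (ω (key ν) : ℕ) < u → (eval ω (Q (ρ ω ν) ν) = true ↔ acc ω (key ν)) := by
      intro ν hν h1 h2
      simp only [hρ ω ν hν, Q, if_pos h2]
      refine hev _ h2 ν hν ω rfl fun k hk hlt => ?_
      rcases hω ν hν k hk with h | h
      · obtain ⟨ν', hν', rfl⟩ := mem_image.mp h
        exact h1 ν' hν' hlt
      · exact absurd (lt_trans (Fin.lt_def.mp hlt) h2) (not_lt.mpr h)
    constructor
    · intro h
      by_contra hc
      push Not at hc
      obtain ⟨ν₀, h₀⟩ := hc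
      obtain ⟨ν, hν, hmin⟩ := exists_min_image
        (C.filter fun ν => (ω (key ν) : ℕ) < u ∧ acc ω (key ν)) (fun ν => ω (key ν))
        ⟨ν₀, mem_filter.mpr h₀⟩
      rw [mem_filter] at hν
      refine h ⟨ν, hν.1, (hcor ν hν.1 (fun ν' hν' hlt ha => ?_) hν.2.1).mpr hν.2.2⟩
      exact absurd (hmin ν' (mem_filter.mpr ⟨hν', lt_trans (Fin.lt_def.mp hlt) hν.2.1, ha⟩))
        (not_le.mpr hlt)
    · rintro h ⟨ν, hν, he⟩
      by_cases h2 : (ω (key ν) : ℕ) < u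
      · exact h ν hν h2 ((hcor ν hν
          (fun ν' hν' hlt => h ν' hν' (lt_trans (Fin.lt_def.mp hlt) h2)) h2).mp he)
      · simp [hρ ω ν hν, Q, h2, eval] at he
  · rw [t2]
    have e1 : ∀ c : K → Fin M, q (G (ρ c)) = ∏ ν ∈ C,
        if (c (key ν) : ℕ) < u then 1 - ∏ ν' ∈ Ch ν, (1 - II Ch M (c (key ν)) ν') else 1 := by
      intro c
      rw [g2]
      exact prod_congr rfl fun ν hν => by rw [hρ c ν hν, hQq _ _ hν]
    simp only [e1]
    rw [expect_prod key C hC (fun ν (v : Fin M) =>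
      if (v : ℕ) < u then 1 - ∏ ν' ∈ Ch ν, (1 - II Ch M v ν') else 1)]
    exact prod_congr rfl fun ν _ => expect_II Ch M hu ν
  · rw [t3, sum_add_distrib]
    refine add_le_add ?_ ((expect_le_expect fun c _ => g3 (ρ c) k).trans
      (hmain (fun t => m t k) (fun s ν => mb s ν k) rfl fun s hs ν hν => hm s hs ν hν k))
    split_ifs with hk
    · obtain ⟨ν, hν, rfl⟩ := mem_image.mp hk
      refine le_trans (le_of_eq ?_) (single_le_sum
        (f := fun ν' => if key ν' = key ν then (1 : ℝ) else 0)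
        (fun _ _ => by split_ifs <;> norm_num) hν)
      simp
    · exact sum_nonneg fun _ _ => by split_ifs <;> norm_num
  · rw [t4]
    have h1 := hmain pairs pb rfl hp
    have h2 := XX_ge key mB C hC hmB0
    have h3 : ∀ c : K → Fin M, pairs (G (ρ c)) + ∑ k ∈ C.image key, m (G (ρ c)) k ≤
        ∑ ν ∈ C, (∏ ν' ∈ C.erase ν,
          if ρ c ν' < ρ c ν then q (Q (ρ c ν') ν') else 1) * pairs (Q (ρ c ν) ν) +
          XX key mB C := by
      intro c
      have a1 := g5 (ρ c)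
      have a2 : ∑ k ∈ C.image key, m (G (ρ c)) k ≤ ∑ k ∈ C.image key, ∑ ν ∈ C, mB ν k :=
        sum_le_sum fun k _ => g4 (ρ c) k
      linarith
    refine (expect_le_expect fun c _ => h3 c).trans ?_
    rw [expect_add_distrib, Fintype.expect_const]
    linarith

end Tree

open _root_.Crest.Agent.R30.Tree _root_.Crest.Agent.R30.Tree.DT

open Classical in
theorem explore {N K : Type} [Fintype K] [DecidableEq K] [DecidableEq N] (M : ℕ) [NeZero M]
    (valid : N → Prop) (key : N → K) (Ch : N → Finset N) (par : N → Finset K)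
    (hval : ∀ ν, valid ν → ∀ ν' ∈ Ch ν, valid ν')
    (hinj : ∀ ν, valid ν → Set.InjOn key (Ch ν))
    (hpar : ∀ ν, valid ν → ∀ ν' ∈ Ch ν, ∀ k ∈ par ν', k = key ν ∨ k ∈ (Ch ν).image key)
    (acc : (K → Fin M) → K → Prop)
    (hacc : ∀ ω ν, valid ν → (∀ k ∈ par ν, ω k < ω (key ν) → ¬ acc ω k) →
      (acc ω (key ν) ↔ ∀ ν' ∈ Ch ν, ω (key ν') < ω (key ν) → ¬ acc ω (key ν')))
    (vis : ℕ → ℝ)
    (hvis : ∀ ν, valid ν → ∀ ν' ∈ Ch ν, ∀ s < M,
      ∏ ν'' ∈ (Ch ν).erase ν', (1 - II Ch M s ν'') ≤ vis s)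
    (mb : ℕ → N → K → ℝ) (mB : N → K → ℝ) (pb : ℕ → N → ℝ) (pB : N → ℝ)
    (hmb : ∀ u < M, ∀ ν, valid ν → ∀ k,
      ∑ ν' ∈ Ch ν, ((if key ν' = k then 1 else 0) + ∑ s ∈ range u, vis s / M * mb s ν' k) ≤
        mb u ν k)
    (hmB : ∀ u < M, ∀ ν, valid ν → ∀ k, mb u ν k ≤ mB ν k)
    (hpb : ∀ u < M, ∀ ν, valid ν →
      XX key mB (Ch ν) + ∑ ν' ∈ Ch ν, ∑ s ∈ range u, vis s / M * pb s ν' ≤ pb u ν)
    (hpB : ∀ u < M, ∀ ν, valid ν → pb u ν ≤ pB ν)
    (C₁ C₂ : Finset N) (hv₁ : ∀ ν ∈ C₁, valid ν) (hv₂ : ∀ ν ∈ C₂, valid ν)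
    (hi₁ : Set.InjOn key C₁) (hi₂ : Set.InjOn key C₂)
    (hp₁ : ∀ ν ∈ C₁, ∀ k ∈ par ν, k ∈ C₁.image key)
    (hp₂ : ∀ ν ∈ C₂, ∀ k ∈ par ν, k ∈ C₂.image key) :
    |(𝔼 ω : K → Fin M,
        if (∀ ν ∈ C₁, ¬ acc ω (key ν)) ∧ (∀ ν ∈ C₂, ¬ acc ω (key ν)) then (1 : ℝ) else 0) -
      (∏ ν ∈ C₁, (1 - II Ch M M ν)) * ∏ ν ∈ C₂, (1 - II Ch M M ν)| ≤
      (XX key mB C₁ + ∑ ν ∈ C₁, pB ν) + (XX key mB C₂ + ∑ ν ∈ C₂, pB ν) +
        ∑ k, (∑ ν ∈ C₁, mu key mB ν k) * ∑ ν ∈ C₂, mu key mB ν k := by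
  have hM : 0 < M := NeZero.pos M
  have hMr : (0 : ℝ) < M := by exact_mod_cast hM
  have hmB0 : ∀ ν, valid ν → ∀ k, 0 ≤ mB ν k := by
    intro ν hν k
    refine le_trans ?_ ((hmb 0 hM ν hν k).trans (hmB 0 hM ν hν k))
    exact sum_nonneg fun _ _ => by split_ifs <;> simp
  have hprog : ∀ u, ∀ ν, ∃ t : DT K (Fin M), u < M → valid ν →
      (∀ ω : K → Fin M, (ω (key ν) : ℕ) = u → (∀ k ∈ par ν, ω k < ω (key ν) → ¬ acc ω k) →
        (eval ω t = true ↔ acc ω (key ν))) ∧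
      q t = 1 - ∏ ν' ∈ Ch ν, (1 - II Ch M u ν') ∧ (∀ k, m t k ≤ mb u ν k) ∧
      pairs t ≤ pb u ν := by
    intro u
    induction u using Nat.strong_induction_on with
    | _ u ih =>
      intro ν
      by_cases h : u < M ∧ valid ν
      swap
      · exact ⟨ret false, fun h1 h2 => absurd ⟨h1, h2⟩ h⟩
      obtain ⟨hu, hν⟩ := h
      have : Nonempty (DT K (Fin M)) := ⟨ret false⟩
      choose! P hP using ih
      have hP' := fun s (hs : s < u) ν' (hν' : ν' ∈ Ch ν) =>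
        hP s hs ν' (hs.trans hu) (hval ν hν ν' hν')
      obtain ⟨t, t1, t2, t3, t4⟩ := exists_blk M key Ch par acc mb mB pb u hu.le (Ch ν)
        (hinj ν hν) P (fun s hs ν' hν' => (hP' s hs ν' hν').1)
        (fun s hs ν' hν' => (hP' s hs ν' hν').2.1) (fun s hs ν' hν' => (hP' s hs ν' hν').2.2.1)
        (fun s hs ν' hν' => (hP' s hs ν' hν').2.2.2)
        (fun s hs ν' hν' => hmB s (hs.trans hu) ν' (hval ν hν ν' hν'))
        (fun ν' hν' => hmB0 ν' (hval ν hν ν' hν'))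
      refine ⟨neg t, fun _ _ => ⟨fun ω hω hpa => ?_, ?_, fun k => ?_, ?_⟩⟩
      · rw [eval_neg, Bool.not_eq_true', hacc ω ν hν hpa, t1 ω]
        · simp only [Fin.lt_def, hω]
        · intro ν' hν' k hk
          rcases hpar ν hν ν' hν' k hk with h | h
          · exact Or.inr (by rw [h, hω])
          · exact Or.inl h
      · rw [q_neg, t2]
      · rw [m_neg]
        refine (t3 k).trans (le_trans (sum_le_sum fun ν' hν' => ?_) (hmb u hu ν hν k))
        refine add_le_add le_rfl (sum_le_sum fun s hs => ?_)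
        have hs' := mem_range.mp hs
        refine mul_le_mul_of_nonneg_right ?_ ((m_nonneg _ _).trans ((hP' s hs' ν' hν').2.2.1 k))
        exact div_le_div_of_nonneg_right (hvis ν hν ν' hν' s (hs'.trans hu)) hMr.le
      · rw [pairs_neg]
        refine t4.trans (le_trans (add_le_add le_rfl (sum_le_sum fun ν' hν' => ?_))
          (hpb u hu ν hν))
        refine sum_le_sum fun s hs => ?_
        have hs' := mem_range.mp hs
        refine mul_le_mul_of_nonneg_right ?_ ((pairs_nonneg _).trans (hP' s hs' ν' hν').2.2.2)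
        exact div_le_div_of_nonneg_right (hvis ν hν ν' hν' s (hs'.trans hu)) hMr.le
  choose P hP using hprog
  have havg : ∀ (D : Finset N) (y : ℕ → ℝ) (Y : ℝ), (∀ s < M, 0 ≤ y s) → (∀ s < M, y s ≤ Y) →
      ∑ s ∈ range M, (∏ ν' ∈ D, (1 - II Ch M s ν')) / M * y s ≤ Y := by
    intro D y Y h0 h1
    calc _ ≤ ∑ s ∈ range M, Y / M := by
          refine sum_le_sum fun s hs => ?_
          have hs' := mem_range.mp hs
          rw [div_mul_eq_mul_div]
          refine div_le_div_of_nonneg_right ?_ hMr.le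
          exact (mul_le_of_le_one_left (h0 s hs') (w_bound Ch M s hs'.le D).2).trans (h1 s hs')
      _ = Y := by rw [sum_const, card_range, nsmul_eq_mul]; field_simp
  have hroot : ∀ C : Finset N, (∀ ν ∈ C, valid ν) → Set.InjOn key C →
      (∀ ν ∈ C, ∀ k ∈ par ν, k ∈ C.image key) → ∃ t : DT K (Fin M),
      (∀ ω : K → Fin M, eval ω t = false ↔ ∀ ν ∈ C, ¬ acc ω (key ν)) ∧
      q t = ∏ ν ∈ C, (1 - II Ch M M ν) ∧ (∀ k, m t k ≤ ∑ ν ∈ C, mu key mB ν k) ∧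
      pairs t ≤ XX key mB C + ∑ ν ∈ C, pB ν := by
    intro C hv hi hp
    have hP' := fun s (hs : s < M) ν (hν : ν ∈ C) => hP s ν hs (hv ν hν)
    obtain ⟨t, t1, t2, t3, t4⟩ := exists_blk M key Ch par acc mb mB pb M le_rfl C hi P
      (fun s hs ν' hν' => (hP' s hs ν' hν').1)
      (fun s hs ν' hν' => (hP' s hs ν' hν').2.1) (fun s hs ν' hν' => (hP' s hs ν' hν').2.2.1)
      (fun s hs ν' hν' => (hP' s hs ν' hν').2.2.2)
      (fun s hs ν' hν' => hmB s hs ν' (hv ν' hν')) (fun ν' hν' => hmB0 ν' (hv ν' hν'))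
    refine ⟨t, fun ω => ?_, t2, fun k => (t3 k).trans (sum_le_sum fun ν hν => ?_),
      t4.trans (add_le_add le_rfl (sum_le_sum fun ν hν => ?_))⟩
    · rw [t1 ω fun ν hν k hk => Or.inl (hp ν hν k hk)]
      simp only [Fin.is_lt, true_implies]
    · exact add_le_add le_rfl (havg _ (fun s => mb s ν k) _
        (fun s hs => (m_nonneg _ _).trans ((hP' s hs ν hν).2.2.1 k))
        fun s hs => hmB s hs ν (hv ν hν) k)
    · exact havg _ (fun s => pb s ν) _
        (fun s hs => (pairs_nonneg _).trans (hP' s hs ν hν).2.2.2) fun s hs => hpB s hs ν (hv ν hν)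
  obtain ⟨t₁, a1, a2, a3, a4⟩ := hroot C₁ hv₁ hi₁ hp₁
  obtain ⟨t₂, b1, b2, b3, b4⟩ := hroot C₂ hv₂ hi₂ hp₂
  have hc := coupling (orE t₁ t₂)
  simp only [eval_orE, Bool.or_eq_false_iff, a1, b1, q_orE, a2, b2] at hc
  have h1 := pairs_orE t₁ t₂
  have h2 : q t₁ * pairs t₂ ≤ pairs t₂ := mul_le_of_le_one_left (pairs_nonneg _) (q_le_one _)
  have h3 : ∑ k, m t₁ k * m t₂ k ≤
      ∑ k, (∑ ν ∈ C₁, mu key mB ν k) * ∑ ν ∈ C₂, mu key mB ν k :=
    sum_le_sum fun k _ => mul_le_mul (a3 k) (b3 k) (m_nonneg _ _) ((m_nonneg _ _).trans (a3 k))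
  refine le_trans (le_of_eq ?_) (hc.trans (by linarith))
  congr!

end Crest.Agent.R30
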