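import Crest.Agent.R30.Phase2Aux
import Crest.Agent.R30.Order
import Crest.Agent.R30.Tree
import Crest.Agent.R30.Coll
import Crest.Agent.R30.Ode

/-! The second phase of the triangle removal process. -/

set_option autoImplicit false

namespace Crest.Agent.R30

open Finset Crest.CombinatoricsR.TriangleRemoval
open scoped BigOperators

theorem phase2 (p : ℕ) (hp : Even p) (hp2 : 2 ≤ p) : ∃ C : ℝ, 0 < C ∧
    ∀ (n : ℕ) (E : ES n) (M L fuel : ℕ) (Λ w e : ℝ), Reg (w ^ 2) E → GapP E p e →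
      e * (3 ^ p * Λ ^ (2 * p)) ≤ 1 → 0 < w → C * w ≤ 1 → 1 ≤ Λ → w ^ 2 * Λ ≤ 1 → 1 ≤ DD E →
      C * (1 + Real.log (DD E)) ≤ Λ → Λ ≤ w ^ 2 * DD E → DD E ≤ w ^ 4 * M →
      C * Λ ^ (2 * p + 1) * n ^ 2 * w ^ p ≤ 1 → E.card ≤ fuel →
      expectFinal (phi n) fuel E ≤ C * w + (n : ℝ) ^ 7 / M +
        C * DD E ^ 81 / (n : ℝ) ^ ((3 : ℝ) / 2) *
          ((L + 1) * ∑ l ∈ Icc 1 (2 * L + 2), (20 * DD E)⁻¹ ^ l * Cl E l +
            (n : ℝ) ^ 8 / 2 ^ L + 1) :=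
  Phase2.phase2_of p (fun φ B E fuel M _ => expectFinal_le_order φ B E fuel M)
    (fun M _ => explore M) coll_bounds (ode p hp hp2)

end Crest.Agent.R30
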