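import Crest.Agent.R30.Defs
import Crest.Agent.R30.Lyap
import Crest.Agent.R30.Drift
import Crest.Agent.R30.DriftCyc
import Crest.Agent.R30.Count

/-! One step of the potential in the first phase of the triangle removal process. -/

set_option autoImplicit false

namespace Crest.Agent.R30

open Finset Crest.CombinatoricsR.TriangleRemoval
open scoped BigOperators

namespace Step

variable {n : ℕ}

lemma dbar_nonneg (E : ES n) : 0 ≤ dbar E := by unfold dbar; positivity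

lemma phi_nonneg {p : ℕ} (hp : Even p) (E : ES n) (Λ : ℝ) (ξ : Fin n → Fin n → ℝ)
    (β : Fin n → ℝ) : 0 ≤ Phi E p Λ ξ β := by
  unfold Phi
  have h1 : 0 ≤ ∑ x, ∑ y ∈ nb E x, ξ x y ^ p :=
    sum_nonneg fun x _ => sum_nonneg fun y _ => hp.pow_nonneg _
  have h2 : 0 ≤ ∑ x, β x ^ p := sum_nonneg fun x _ => hp.pow_nonneg _
  have h3 : 0 ≤ (Λ ^ p)⁻¹ := inv_nonneg.mpr (hp.pow_nonneg _)
  have h4 := dbar_nonneg E
  positivity

lemma phi_mono {p : ℕ} (hp : Even p) {E E' : ES n} (h : E' ⊆ E) (Λ : ℝ) (ξ : Fin n → Fin n → ℝ)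
    (β : Fin n → ℝ) : Phi E' p Λ ξ β ≤ Phi E p Λ ξ β := by
  unfold Phi
  have h2 : 0 ≤ ∑ x, β x ^ p := sum_nonneg fun x _ => hp.pow_nonneg _
  have h3 : 0 ≤ (Λ ^ p)⁻¹ := inv_nonneg.mpr (hp.pow_nonneg _)
  apply add_le_add
  · apply sum_le_sum
    intro x _
    apply sum_le_sum_of_subset_of_nonneg _ (fun y _ _ => hp.pow_nonneg _)
    intro y hy
    rw [mem_nb] at hy ⊢
    exact h hy
  · apply mul_le_mul_of_nonneg_right _ h2
    apply mul_le_mul_of_nonneg_left _ h3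
    unfold dbar
    have : (E'.card : ℝ) ≤ E.card := by exact_mod_cast card_le_card h
    gcongr

lemma n_pos {E : ES n} (hd : 0 < dbar E) : (0 : ℝ) < n := by
  rcases Nat.eq_zero_or_pos n with h | h
  · subst h
    simp [dbar] at hd
  · exact_mod_cast h

lemma etabar_bound {p : ℕ} (hp : Even p) (hp2 : 2 ≤ p) {E : ES n} {δ r : ℝ} (h : Reg δ E)
    (hd : 0 < dbar E) (hr : 2 * δ ^ 2 ≤ r) :
    n * dbar E * |etabar E| ^ p ≤ 2 ^ p * (∑ x, ∑ y ∈ nb E x, xi E x y ^ p + n ^ 2 * r ^ p) := by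
  have hn := n_pos hd
  have hN : (n : ℝ) * dbar E = 2 * E.card := by unfold dbar; field_simp
  have hN0 : (0 : ℝ) < 2 * E.card := by rw [← hN]; positivity
  have hr0 : 0 ≤ r := le_trans (by positivity) hr
  have hcard : ∀ x, ((nb E x).card : ℝ) = dbar E * (1 + beta E x) := by
    intro x
    unfold beta
    field_simp
    ring
  have hsumβ : ∑ x, beta E x = 0 := by
    have h1 := sum_card_nb h.simple
    simp only [hcard] at h1
    rw [← mul_sum, sum_add_distrib, ← hN] at h1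
    simp only [sum_const, card_univ, Fintype.card_fin, nsmul_eq_mul, mul_one] at h1
    have : dbar E * ∑ x, beta E x = 0 := by linarith
    exact (mul_eq_zero.mp this).resolve_left hd.ne'
  have hβ1 : ∑ x, ∑ _y ∈ nb E x, beta E x = dbar E * ∑ x, beta E x ^ 2 := by
    simp only [sum_const, nsmul_eq_mul, hcard]
    have : ∀ x, dbar E * (1 + beta E x) * beta E x =
        dbar E * beta E x + dbar E * beta E x ^ 2 := fun x => by ring
    simp only [this]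
    rw [sum_add_distrib, ← mul_sum, ← mul_sum, hsumβ]
    ring
  have hβ2 : ∑ x, ∑ y ∈ nb E x, beta E y = dbar E * ∑ x, beta E x ^ 2 := by
    rw [sum_nb_comm E (fun _ y => beta E y), hβ1]
  set m := (∑ x, ∑ y ∈ nb E x, xi E x y) / (2 * E.card) with hm
  have heta : etabar E = m + 2 * (∑ x, beta E x ^ 2) / n := by
    unfold etabar
    have : ∀ x y, eta E x y = xi E x y + beta E x + beta E y := fun x y => by unfold xi; ring
    simp only [this, sum_add_distrib]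
    rw [hβ1, hβ2, hm, ← hN]
    field_simp
    ring
  have hq0 : 0 ≤ 2 * (∑ x, beta E x ^ 2) / n := by positivity
  have hq : 2 * (∑ x, beta E x ^ 2) / n ≤ r := by
    refine le_trans ?_ hr
    rw [div_le_iff₀ hn]
    have : ∑ x, beta E x ^ 2 ≤ ∑ _x : Fin n, δ ^ 2 := by
      apply sum_le_sum
      intro x _
      rw [← sq_abs]
      exact pow_le_pow_left₀ (abs_nonneg _) (h.deg x) 2
    simp only [sum_const, card_univ, Fintype.card_fin, nsmul_eq_mul] at this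
    linarith
  have h1 : |etabar E| ≤ |m| + r := by
    rw [heta]
    refine (abs_add_le _ _).trans ?_
    rw [abs_of_nonneg hq0]
    linarith
  have h2 : |etabar E| ^ p ≤ 2 ^ p * (|m| ^ p + r ^ p) := by
    refine (pow_le_pow_left₀ (abs_nonneg _) h1 p).trans ?_
    refine (add_pow_le (abs_nonneg _) hr0 p).trans ?_
    apply mul_le_mul_of_nonneg_right (pow_le_pow_right₀ (by norm_num) (by omega))
    positivity
  have h3 : 2 * E.card * |m| ^ p ≤ ∑ x, ∑ y ∈ nb E x, xi E x y ^ p := by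
    obtain ⟨q, rfl⟩ : ∃ q, p = q + 1 := ⟨p - 1, by omega⟩
    have hS : (((univ : Finset (Fin n)).sigma (nb E)).card : ℝ) = 2 * E.card := by
      rw [card_sigma, Nat.cast_sum, sum_card_nb h.simple]
    have h4 := pow_sum_div_card_le_sum_pow (s := (univ : Finset (Fin n)).sigma (nb E))
      (f := fun z => |xi E z.1 z.2|) (fun _ _ => abs_nonneg _) q
    rw [hS, sum_sigma, sum_sigma] at h4
    simp only [hp.pow_abs] at h4
    refine le_trans ?_ h4
    have h5 : |m| ≤ (∑ x, ∑ y ∈ nb E x, |xi E x y|) / (2 * E.card) := by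
      rw [hm, abs_div, abs_of_pos hN0]
      apply div_le_div_of_nonneg_right _ hN0.le
      exact (abs_sum_le_sum_abs _ _).trans (sum_le_sum fun x _ => abs_sum_le_sum_abs _ _)
    refine (mul_le_mul_of_nonneg_left (pow_le_pow_left₀ (abs_nonneg _) h5 _) hN0.le).trans
      (le_of_eq ?_)
    rw [div_pow, pow_succ (2 * (E.card : ℝ))]
    have hE0 : (E.card : ℝ) ≠ 0 := by intro h0; rw [h0] at hN0; simp at hN0
    field_simp
  have h4 : 2 * (E.card : ℝ) ≤ n ^ 2 := by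
    rw [← sum_card_nb h.simple]
    have : ∑ x, ((nb E x).card : ℝ) ≤ ∑ _x : Fin n, (n : ℝ) := by
      apply sum_le_sum
      intro x _
      exact_mod_cast (card_le_univ (nb E x)).trans_eq (Fintype.card_fin n)
    simpa [sq] using this
  rw [hN]
  refine (mul_le_mul_of_nonneg_left h2 hN0.le).trans ?_
  have h5 : 2 * (E.card : ℝ) * r ^ p ≤ n ^ 2 * r ^ p :=
    mul_le_mul_of_nonneg_right h4 (by positivity)
  have h6 : (0 : ℝ) ≤ 2 ^ p := by positivity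
  nlinarith

end Step

theorem pot_nonneg (p K : ℕ) (hp : Even p) {n : ℕ} (E : ES n) (Λ w : ℝ) :
    0 ≤ Pot p K Λ w E := by
  unfold Pot
  have h1 := Step.phi_nonneg hp E Λ (xi E) (beta E)
  have h2 : 0 ≤ Λ ^ p := hp.pow_nonneg _
  have h3 : 0 ≤ ∑ x, ∑ c ∈ Ico 2 (2 * K), (zeta E x c / w) ^ p :=
    sum_nonneg fun x _ => sum_nonneg fun c _ => hp.pow_nonneg _
  positivity

theorem one_le_pot (p K : ℕ) (hp : Even p) {n : ℕ} (E : ES n) (Λ w : ℝ) (h : Simple E)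
    (hd : 1 ≤ dbar E) (hΛ : 1 ≤ Λ) (hw : 0 < w) (hbad : ¬ Good w K E) : 1 ≤ Pot p K Λ w E := by
  have hΛp : 1 ≤ Λ ^ p := one_le_pow₀ hΛ
  have hw2 : 0 < w ^ 2 := by positivity
  have hA : 0 ≤ ∑ x, ∑ y ∈ nb E x, xi E x y ^ p :=
    sum_nonneg fun x _ => sum_nonneg fun y _ => hp.pow_nonneg _
  have hB : 0 ≤ ∑ x, beta E x ^ p := sum_nonneg fun x _ => hp.pow_nonneg _
  have hZ : 0 ≤ ∑ x, ∑ c ∈ Ico 2 (2 * K), (zeta E x c / w) ^ p :=
    sum_nonneg fun x _ => sum_nonneg fun c _ => hp.pow_nonneg _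
  have h3 : (0 : ℝ) ≤ (3 / w ^ 2) ^ p := by positivity
  have hpot : Pot p K Λ w E = Λ ^ p * ((3 / w ^ 2) ^ p * ∑ x, ∑ y ∈ nb E x, xi E x y ^ p) +
      dbar E * ((3 / w ^ 2) ^ p * ∑ x, beta E x ^ p) +
      ∑ x, ∑ c ∈ Ico 2 (2 * K), (zeta E x c / w) ^ p := by
    unfold Pot Phi
    field_simp
  have hone : ∀ t : ℝ, w ^ 2 / 3 ≤ |t| → 1 ≤ (3 / w ^ 2) ^ p * t ^ p := by
    intro t ht
    rw [← hp.pow_abs t, ← mul_pow]
    apply one_le_pow₀
    rw [div_mul_eq_mul_div, le_div_iff₀ hw2]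
    linarith
  have hβ : ∀ x, w ^ 2 / 3 ≤ |beta E x| → 1 ≤ Pot p K Λ w E := by
    intro x hx
    have h1 : beta E x ^ p ≤ ∑ x, beta E x ^ p :=
      single_le_sum (f := fun x => beta E x ^ p) (fun x _ => hp.pow_nonneg _) (mem_univ x)
    have h2 := (hone _ hx).trans (mul_le_mul_of_nonneg_left h1 h3)
    have h4 : 1 ≤ dbar E * ((3 / w ^ 2) ^ p * ∑ x, beta E x ^ p) := one_le_mul_of_one_le_of_one_le hd h2
    have h5 : 0 ≤ Λ ^ p * ((3 / w ^ 2) ^ p * ∑ x, ∑ y ∈ nb E x, xi E x y ^ p) := by positivity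
    rw [hpot]
    linarith
  by_contra hcon
  apply hbad
  have hβ' : ∀ x, |beta E x| < w ^ 2 / 3 := fun x => by
    by_contra hx
    exact hcon (hβ x (not_lt.mp hx))
  refine ⟨⟨h, fun x => by linarith [hβ' x], fun x y hxy => ?_⟩, fun x c hc1 hc2 => ?_⟩
  · have hξ : |xi E x y| < w ^ 2 / 3 := by
      by_contra hx
      apply hcon
      have h1 : xi E x y ^ p ≤ ∑ x, ∑ y ∈ nb E x, xi E x y ^ p := by
        refine le_trans ?_ (single_le_sum (f := fun x => ∑ y ∈ nb E x, xi E x y ^ p)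
          (fun x _ => sum_nonneg fun y _ => hp.pow_nonneg _) (mem_univ x))
        exact single_le_sum (f := fun y => xi E x y ^ p) (fun y _ => hp.pow_nonneg _)
          (mem_nb.mpr hxy)
      have h2 := (hone _ (not_lt.mp hx)).trans (mul_le_mul_of_nonneg_left h1 h3)
      have h4 : 1 ≤ Λ ^ p * ((3 / w ^ 2) ^ p * ∑ x, ∑ y ∈ nb E x, xi E x y ^ p) :=
        one_le_mul_of_one_le_of_one_le hΛp h2
      have h5 : 0 ≤ dbar E * ((3 / w ^ 2) ^ p * ∑ x, beta E x ^ p) := by positivity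
      rw [hpot]
      linarith
    have e : eta E x y = xi E x y + beta E x + beta E y := by unfold xi; ring
    rw [e]
    have h1 := abs_add_three (xi E x y) (beta E x) (beta E y)
    linarith [hβ' x, hβ' y]
  · by_contra hx
    apply hcon
    have h1 : (zeta E x c / w) ^ p ≤ ∑ x, ∑ c ∈ Ico 2 (2 * K), (zeta E x c / w) ^ p := by
      refine le_trans ?_ (single_le_sum (f := fun x => ∑ c ∈ Ico 2 (2 * K), (zeta E x c / w) ^ p)
        (fun x _ => sum_nonneg fun y _ => hp.pow_nonneg _) (mem_univ x))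
      exact single_le_sum (f := fun c => (zeta E x c / w) ^ p) (fun y _ => hp.pow_nonneg _)
        (mem_Ico.mpr ⟨hc1, hc2⟩)
    have h2 : 1 ≤ (zeta E x c / w) ^ p := by
      rw [← hp.pow_abs]
      apply one_le_pow₀
      rw [abs_div, abs_of_pos hw, le_div_iff₀ hw]
      linarith [not_le.mp hx]
    have h4 : 0 ≤ Λ ^ p * ((3 / w ^ 2) ^ p * ∑ x, ∑ y ∈ nb E x, xi E x y ^ p) := by positivity
    have h5 : 0 ≤ dbar E * ((3 / w ^ 2) ^ p * ∑ x, beta E x ^ p) := by positivity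
    rw [hpot]
    linarith

theorem pot_step (p K : ℕ) (hp : Even p) (hp2 : 2 ≤ p) : ∃ C : ℝ, 0 < C ∧
    ∀ (n : ℕ) (E : ES n) (Λ w e : ℝ), Good w K E → GapP E p e →
      e * (3 ^ p * Λ ^ (2 * p)) ≤ 1 → 0 < w → C * w ≤ 1 → 1 ≤ Λ → w ^ 2 * Λ ≤ 1 →
      1 ≤ w ^ 8 * DD E →
      𝔼 T ∈ triangles E, Pot p K Λ w (E \ T.sym2) ≤
        (1 + C * (3 / E.card) / Λ) * Pot p K Λ w E +
          C * (3 / E.card) * Λ ^ (2 * p) * n ^ 2 * w ^ p := by
  obtain ⟨C₁, hC₁, hpow⟩ := pow_step p hp hp2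
  obtain ⟨C₂, hC₂, hlyap⟩ := lyap_step p hp hp2
  obtain ⟨C₃, hC₃, hxi⟩ := drift_xi
  have hz := fun c : Ico 2 (2 * K) => drift_zeta c (mem_Ico.mp c.2).1
  choose Cz hCz hzeta using hz
  obtain ⟨C₄, hC₄0, hC₄⟩ : ∃ C₄ : ℝ, 0 ≤ C₄ ∧ ∀ c, Cz c ≤ C₄ :=
    ⟨∑ c, Cz c, sum_nonneg fun c _ => (hCz c).le,
      fun c => single_le_sum (fun c _ => (hCz c).le) (mem_univ c)⟩
  set M : ℝ := max C₃ 2 with hM
  have hM3 : C₃ ≤ M := le_max_left _ _
  have hM2 : 2 ≤ M := le_max_right _ _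
  set A₁ : ℝ := 2 * C₂ * (3 * M) ^ p with hA₁
  set A₂ : ℝ := 4 * K * C₁ * C₄ ^ p with hA₂
  have hA₁0 : 0 ≤ A₁ := by positivity
  have hA₂0 : 0 ≤ A₂ := by positivity
  refine ⟨C₁ + C₂ + C₃ + C₄ + 2 + A₁ + A₂, by positivity, ?_⟩
  intro n E Λ w e hG hgap he hw hCw hΛ hwΛ hD
  set C := C₁ + C₂ + C₃ + C₄ + 2 + A₁ + A₂ with hC
  have hw2 : w ≤ 1 / 2 := by
    have : 2 * w ≤ C * w := mul_le_mul_of_nonneg_right (by rw [hC]; linarith) hw.le
    linarith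
  have hww : w ^ 2 ≤ w := by nlinarith
  have hsmall : ∀ a : ℝ, 0 ≤ a → a ≤ C → a * w ^ 2 ≤ 1 := by
    intro a ha haC
    calc a * w ^ 2 ≤ C * w := mul_le_mul haC hww (by positivity) (ha.trans haC)
      _ ≤ 1 := hCw
  have hD0 : 0 < DD E := by
    by_contra hc
    have : w ^ 8 * DD E ≤ 0 := mul_nonpos_of_nonneg_of_nonpos (by positivity) (not_lt.mp hc)
    linarith
  have hD' : 1 ≤ (w ^ 2) ^ 4 * DD E := by rw [← pow_mul]; exact hD
  have hd0 : 0 < dbar E := hD0.trans_le (DD_le_dbar hG.reg.simple)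
  have hn := Step.n_pos hd0
  have hn1 : (1 : ℝ) ≤ n := by
    have : 0 < n := by exact_mod_cast hn
    exact_mod_cast this
  have hne : (triangles E).Nonempty := triangles_nonempty hG.reg (by linarith) hD0
  set ρ : ℝ := 3 / E.card with hρ
  have hρ0 : 0 ≤ ρ := by positivity
  have hΛ0 : 0 < Λ := by linarith
  obtain ⟨hx1, hx2, hx3, hx4⟩ := hxi n E (w ^ 2) hG.reg (by positivity)
    (hsmall C₃ hC₃.le (by rw [hC]; linarith)) hD'
  have hRR : C₃ * (w ^ 2) ^ 2 ≤ M * (w ^ 2) ^ 2 := mul_le_mul_of_nonneg_right hM3 (by positivity)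
  have hRR1 : ρ * (C₃ * (w ^ 2) ^ 2) ≤ ρ * (M * (w ^ 2) ^ 2) := mul_le_mul_of_nonneg_left hRR hρ0
  have hRR2 : ρ * (C₃ * (w ^ 2) ^ 2) ^ 2 ≤ ρ * (M * (w ^ 2) ^ 2) ^ 2 :=
    mul_le_mul_of_nonneg_left (pow_le_pow_left₀ (by positivity) hRR 2) hρ0
  have heta : ∀ x, (fun z => xi E x z + beta E x + beta E z) = eta E x := by
    intro x
    funext z
    unfold xi
    ring
  have heta' : ∀ x z, xi E x z + beta E x + beta E z = eta E x z := fun x z => congrFun (heta x) z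
  have hL := hlyap n E (Finset (Fin n)) (triangles E) Λ (w ^ 2) e ρ (M * (w ^ 2) ^ 2)
    (M * (w ^ 2) ^ 2) (etabar E) (xi E) (beta E) (fun T => xi (E \ T.sym2))
    (fun T => beta (E \ T.sym2)) hne hG.reg.simple hd0 hG.reg.deg (by linarith) hΛ hwΛ hgap he hρ0
    (by positivity) (by positivity) (xi_comm E)
    (Step.etabar_bound hp hp2 hG.reg hd0 (mul_le_mul_of_nonneg_right hM2 (by positivity)))
    (fun x y hxy => by rw [heta, heta]; exact (hx1 x y hxy).trans hRR1)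
    (fun x => by simp only [heta']; exact (hx2 x).trans hRR1)
    (fun x y hxy => ⟨fun T hT => ((hx3 x y hxy).1 T hT).trans hRR, (hx3 x y hxy).2.trans hRR2⟩)
    (fun x => ⟨fun T hT => ((hx4 x).1 T hT).trans hRR, (hx4 x).2.trans hRR2⟩)
  have hwp : (w ^ 2) ^ p ≤ w ^ p := pow_le_pow_left₀ (by positivity) hww p
  have hΛp : Λ ^ p ≤ Λ ^ (2 * p) := pow_le_pow_right₀ hΛ (by omega)
  have hfac : ∀ a : ℝ, a ≤ C → 1 + a * ρ / Λ ≤ 1 + C * ρ / Λ := by
    intro a ha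
    gcongr
  -- the `Phi` part
  have hP : 𝔼 T ∈ triangles E, Λ ^ p * (3 / w ^ 2) ^ p *
      Phi (E \ T.sym2) p Λ (xi (E \ T.sym2)) (beta (E \ T.sym2)) ≤
      (1 + C * ρ / Λ) * (Λ ^ p * (3 / w ^ 2) ^ p * Phi E p Λ (xi E) (beta E)) +
        A₁ * ρ * Λ ^ (2 * p) * n ^ 2 * w ^ p := by
    have hc0 : 0 ≤ Λ ^ p * (3 / w ^ 2) ^ p := by positivity
    rw [← mul_expect]
    have h1 : 𝔼 T ∈ triangles E, Phi (E \ T.sym2) p Λ (xi (E \ T.sym2)) (beta (E \ T.sym2)) ≤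
        𝔼 T ∈ triangles E, Phi E p Λ (xi (E \ T.sym2)) (beta (E \ T.sym2)) :=
      expect_le_expect fun T _ => Step.phi_mono hp sdiff_subset _ _ _
    refine (mul_le_mul_of_nonneg_left (h1.trans hL) hc0).trans ?_
    rw [mul_add]
    apply add_le_add
    · rw [mul_left_comm]
      exact mul_le_mul_of_nonneg_right (hfac C₂ (by rw [hC]; linarith))
        (mul_nonneg hc0 (Step.phi_nonneg hp _ _ _ _))
    · have e1 : (3 / w ^ 2) ^ p * (M * (w ^ 2) ^ 2) ^ p = (3 * M) ^ p * (w ^ 2) ^ p := by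
        rw [← mul_pow, ← mul_pow]
        congr 1
        field_simp
      calc Λ ^ p * (3 / w ^ 2) ^ p * (C₂ * ρ * Λ ^ p * n ^ 2 *
            ((M * (w ^ 2) ^ 2) ^ p + (M * (w ^ 2) ^ 2) ^ p))
          = 2 * C₂ * ρ * (Λ ^ p * Λ ^ p) * n ^ 2 *
            ((3 / w ^ 2) ^ p * (M * (w ^ 2) ^ 2) ^ p) := by ring
        _ = A₁ * ρ * Λ ^ (2 * p) * n ^ 2 * (w ^ 2) ^ p := by
            rw [e1, hA₁, ← pow_add, ← two_mul]; ring
        _ ≤ _ := mul_le_mul_of_nonneg_left hwp (by positivity)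
  -- the cycle part
  have hZ1 : ∀ x, ∀ c ∈ Ico 2 (2 * K), 𝔼 T ∈ triangles E, (zeta (E \ T.sym2) x c / w) ^ p ≤
      (1 + C * ρ / Λ) * (zeta E x c / w) ^ p + 2 * C₁ * C₄ ^ p * ρ * Λ ^ (2 * p) * w ^ p := by
    intro x c hc
    have hc' := mem_Ico.mp hc
    obtain ⟨h1, h2, h3⟩ := hzeta ⟨c, hc⟩ n E (w ^ 2) x hG.reg (by positivity)
      (hsmall _ (hCz _).le ((hC₄ _).trans (by rw [hC]; linarith))) hD'
      ((hG.cycle x c hc'.1 hc'.2).trans (by linarith))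
    have hcz := hCz ⟨c, hc⟩
    have hcz' := hC₄ ⟨c, hc⟩
    have h4 := hpow (Finset (Fin n)) (triangles E) Λ ρ (Cz ⟨c, hc⟩ * w ^ 2)
      (Cz ⟨c, hc⟩ * (w ^ 2) ^ 2) (zeta E x c) (fun T => zeta (E \ T.sym2) x c) hne hΛ hρ0
      (by positivity) (by positivity) h1 h2 h3
    simp only [div_pow]
    rw [← expect_div, div_le_iff₀ (by positivity)]
    refine h4.trans ?_
    rw [add_mul _ _ (w ^ p)]
    apply add_le_add
    · rw [mul_assoc, div_mul_cancel₀ _ (by positivity)]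
      exact mul_le_mul_of_nonneg_right (hfac C₁ (by rw [hC]; linarith)) (hp.pow_nonneg _)
    · have e1 : (Cz ⟨c, hc⟩ * w ^ 2) ^ p ≤ C₄ ^ p * (w ^ p * w ^ p) := by
        rw [← mul_pow, ← mul_pow, ← sq]
        exact pow_le_pow_left₀ (by positivity) (by gcongr) p
      have e2 : (Cz ⟨c, hc⟩ * (w ^ 2) ^ 2) ^ p ≤ C₄ ^ p * (w ^ p * w ^ p) := by
        refine le_trans (pow_le_pow_left₀ (by positivity) ?_ p) e1
        apply mul_le_mul_of_nonneg_left _ hcz.le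
        nlinarith
      calc C₁ * ρ * Λ ^ p * ((Cz ⟨c, hc⟩ * w ^ 2) ^ p + (Cz ⟨c, hc⟩ * (w ^ 2) ^ 2) ^ p)
          ≤ C₁ * ρ * Λ ^ (2 * p) * (C₄ ^ p * (w ^ p * w ^ p) + C₄ ^ p * (w ^ p * w ^ p)) := by
            gcongr
        _ = _ := by ring
  have hZ : 𝔼 T ∈ triangles E, ∑ x, ∑ c ∈ Ico 2 (2 * K), (zeta (E \ T.sym2) x c / w) ^ p ≤
      (1 + C * ρ / Λ) * (∑ x, ∑ c ∈ Ico 2 (2 * K), (zeta E x c / w) ^ p) +
        A₂ * ρ * Λ ^ (2 * p) * n ^ 2 * w ^ p := by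
    simp only [expect_sum_comm]
    refine (sum_le_sum fun x _ => sum_le_sum fun c hc => hZ1 x c hc).trans ?_
    simp only [sum_add_distrib, ← mul_sum, sum_const, card_univ, Fintype.card_fin, nsmul_eq_mul,
      Nat.card_Ico]
    apply add_le_add le_rfl
    have h1 : ((2 * K - 2 : ℕ) : ℝ) ≤ 2 * K := by exact_mod_cast Nat.sub_le _ _
    have h2 : (n : ℝ) ≤ n ^ 2 := by nlinarith
    calc 2 * C₁ * C₄ ^ p * ρ * Λ ^ (2 * p) * (((2 * K - 2 : ℕ) : ℝ) * (n * w ^ p))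
        ≤ 2 * C₁ * C₄ ^ p * ρ * Λ ^ (2 * p) * (2 * K * (n ^ 2 * w ^ p)) := by gcongr
      _ = A₂ * ρ * Λ ^ (2 * p) * n ^ 2 * w ^ p := by rw [hA₂]; ring
  unfold Pot
  rw [expect_add_distrib]
  have hfin : (A₁ + A₂) * (ρ * Λ ^ (2 * p) * n ^ 2 * w ^ p) ≤
      C * (ρ * Λ ^ (2 * p) * n ^ 2 * w ^ p) :=
    mul_le_mul_of_nonneg_right (by rw [hC]; linarith) (by positivity)
  linarith

end Crest.Agent.R30
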