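import Crest.Agent.R30.Gap
import Crest.Agent.R30.Phase2
import Crest.Agent.R30.Ann
import Crest.Agent.R30.Step
import Crest.Agent.R30.Init

/-! The first phase: backward induction on the number of remaining steps. -/

set_option autoImplicit false

namespace Crest.Agent.R30

open Finset Crest.CombinatoricsR.TriangleRemoval
open scoped BigOperators

namespace Phase1

lemma phi_nonneg (n e : ℕ) : 0 ≤ phi n e := sq_nonneg _

lemma card_le_sq {n : ℕ} {E : ES n} (h : Simple E) : (E.card : ℝ) ≤ n ^ 2 := by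
  have h1 := sum_card_nb h
  have h2 : ∑ x, ((nb E x).card : ℝ) ≤ n * n := by
    refine (sum_le_card_nsmul _ _ (n : ℝ) fun x _ => ?_).trans (by simp)
    exact_mod_cast (card_le_univ _).trans (by simp)
  have : (0 : ℝ) ≤ E.card := by positivity
  nlinarith

lemma phi_le {n e : ℕ} (hn : 1 ≤ n) (he : (e : ℝ) ≤ n ^ 2) : phi n e ≤ n := by
  have hn' : (1 : ℝ) ≤ n := by exact_mod_cast hn
  have h1 : (n : ℝ) ^ ((3 : ℝ) / 2) = n * √n := by
    rw [Real.sqrt_eq_rpow, show (3 : ℝ) / 2 = 1 + 1 / 2 by norm_num, Real.rpow_add (by linarith),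
      Real.rpow_one]
  have h2 : 1 ≤ √(n : ℝ) := Real.one_le_sqrt.2 hn'
  have h3 : √(n : ℝ) * √n = n := Real.mul_self_sqrt (by linarith)
  have h4 : (e : ℝ) / (n * √n) ≤ √n := by
    rw [div_le_iff₀ (by positivity)]; nlinarith
  have h5 : 0 ≤ (e : ℝ) / (n * √n) := by positivity
  have h6 : 1 ≤ √2 := Real.one_le_sqrt.2 (by norm_num)
  have h7 : 1 / (2 * √2) ≤ 1 := by rw [div_le_one (by positivity)]; linarith
  have h8 : 0 ≤ 1 / (2 * √2) := by positivity
  rw [phi, h1]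
  refine le_trans (sq_le_sq' (b := √(n : ℝ)) ?_ ?_) (by rw [sq, h3]) <;> linarith

/-- total rate of the last `k` steps -/
noncomputable def H (m k : ℕ) : ℝ := ∑ j ∈ range k, 3 / ((m : ℝ) + 3 * (j + 1))

lemma H_nonneg (m k : ℕ) : 0 ≤ H m k := sum_nonneg fun j _ => by positivity

lemma H_succ (m k : ℕ) : H m (k + 1) = H m k + 3 / ((m : ℝ) + 3 * (k + 1)) := sum_range_succ _ _

lemma H_le {m : ℕ} (hm : 0 < m) (k : ℕ) : H m k ≤ Real.log ((m + 3 * k) / m) := by
  have hm' : (0 : ℝ) < m := by exact_mod_cast hm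
  induction k with
  | zero => simp [H, hm'.ne']
  | succ k ih =>
    rw [H_succ]
    have h1 : (0 : ℝ) < m + 3 * k := by positivity
    have h2 : Real.log ((m + 3 * ((k + 1 : ℕ) : ℝ)) / m) =
        Real.log ((m + 3 * k) / m) + Real.log ((m + 3 * (k + 1)) / (m + 3 * k)) := by
      rw [← Real.log_mul (by positivity) (by positivity)]
      congr 1; push_cast; field_simp
    have h3 := Real.one_sub_inv_le_log_of_pos
      (show (0 : ℝ) < (m + 3 * (k + 1)) / (m + 3 * k) by positivity)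
    have h4 : 1 - (((m : ℝ) + 3 * (k + 1)) / (m + 3 * k))⁻¹ = 3 / ((m : ℝ) + 3 * (k + 1)) := by
      field_simp; ring
    rw [h2]; linarith

lemma DD_eq {n : ℕ} (E : ES n) : DD E = 4 * (E.card : ℝ) ^ 2 / n ^ 3 := by
  rcases Nat.eq_zero_or_pos n with rfl | hn
  · simp [DD]
  have : (0 : ℝ) < n := by exact_mod_cast hn
  unfold DD dbar; field_simp; ring

end Phase1

open Phase1

theorem phase1 (p K : ℕ) (hp : Even p) (hp3 : 3 ≤ p) (hK : 2 ≤ K) : ∃ C : ℝ, 0 < C ∧
    ∀ (n m M L : ℕ) (Λ w s D : ℝ), D = 4 * (m : ℝ) ^ 2 / n ^ 3 → 0 < w → C * w ≤ 1 → 1 ≤ Λ →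
      w ^ 2 * Λ ≤ 1 → 1 ≤ w ^ 8 * D → (n : ℝ) ≤ w * D ^ K → w ≤ s → C * w ≤ s ^ (2 * K) →
      C * s ^ 2 * (3 ^ p * Λ ^ (2 * p)) ≤ 1 → C * (1 + Real.log D) ≤ Λ → Λ ≤ w ^ 2 * D →
      D ≤ w ^ 4 * M → C * Λ ^ (2 * p + 1) * n ^ 2 * w ^ p ≤ 1 → (4 * L + 7 : ℝ) ≤ w ^ 2 * D →
      ∀ (k : ℕ) (E : ES n) (fuel : ℕ), Simple E → E.card = m + 3 * k → E.card ≤ fuel →
        expectFinal (phi n) fuel E ≤
          n * Real.exp (C * H m k / Λ) *
              (Pot p K Λ w E + H m k * (C * Λ ^ (2 * p) * n ^ 2 * w ^ p)) +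
            (C * w + (n : ℝ) ^ 7 / M) +
            C * D ^ 81 / (n : ℝ) ^ ((3 : ℝ) / 2) *
              ((L + 1) * ∑ l ∈ Icc 1 (2 * L + 2),
                  (20 * D)⁻¹ ^ l * ClS (m / (m + 3 * k) * Real.exp (6 * w ^ 2 * H m k)) E l +
                (n : ℝ) ^ 8 / 2 ^ L + 1) := by
  obtain ⟨C1, hC1, h1⟩ := gap_of_good p K hp3 hK
  obtain ⟨C2, hC2, h2⟩ := phase2 p hp (by omega)
  obtain ⟨C3, hC3, h3⟩ := pot_step p K hp (by omega)
  refine ⟨C1 + C2 + C3 + 3, by positivity, ?_⟩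
  set C := C1 + C2 + C3 + 3 with hC
  have hC1' : C1 ≤ C := by linarith
  have hC2' : C2 ≤ C := by linarith
  have hC3' : C3 ≤ C := by linarith
  have hC0 : 0 < C := by positivity
  intro n m M L Λ w s D hD hw hCw hΛ hwΛ hwD hnK hws hs hse hlog hΛD hM hsm hL
  have hw3 : w ≤ 1 / 3 := by nlinarith
  have hw1 : w ≤ 1 := by linarith
  have hw8 : w ^ 8 ≤ w := by
    calc w ^ 8 = w * w ^ 7 := by ring
      _ ≤ w * 1 := by gcongr; exact pow_le_one₀ hw.le hw1
      _ = w := mul_one w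
  have hD0 : 0 < D := by
    by_contra h
    have : w ^ 8 * D ≤ 0 := mul_nonpos_of_nonneg_of_nonpos (by positivity) (not_lt.1 h)
    linarith
  have hwD1 : 1 ≤ w * D := hwD.trans (by gcongr)
  have hD1 : 1 ≤ D := hwD1.trans (by nlinarith)
  have hn : 0 < n := by
    rcases Nat.eq_zero_or_pos n with rfl | h
    · simp [hD] at hD0
    · exact h
  have hn' : (0 : ℝ) < n := by exact_mod_cast hn
  have hm : 0 < m := by
    rcases Nat.eq_zero_or_pos m with rfl | h
    · simp [hD] at hD0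
    · exact h
  have hm' : (0 : ℝ) < m := by exact_mod_cast hm
  have hs0 : 0 < s := hw.trans_le hws
  have hDE : ∀ (k : ℕ) (E : ES n), E.card = m + 3 * k → D ≤ DD E := by
    intro k E hE
    rw [DD_eq, hD, hE]
    gcongr
    omega
  have hgap : ∀ E : ES n, D ≤ DD E → Good w K E → GapP E p (C1 * s ^ 2) := fun E hE hg =>
    h1 n E w s hg hw (by linarith) (hwD1.trans (by gcongr)) (hnK.trans (by gcongr)) hws
      (le_trans (by gcongr) hs)
  have he : C1 * s ^ 2 * (3 ^ p * Λ ^ (2 * p)) ≤ 1 := le_trans (by gcongr) hse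
  set ν : ℝ := C * Λ ^ (2 * p) * n ^ 2 * w ^ p with hν
  have hν0 : 0 ≤ ν := by positivity
  set W : ℝ := C * D ^ 81 / (n : ℝ) ^ ((3 : ℝ) / 2) with hW
  have hW0 : 0 ≤ W := by positivity
  have hbad : ∀ (k : ℕ) (E : ES n) (fuel : ℕ), Simple E → E.card = m + 3 * k → ¬ Good w K E →
      expectFinal (phi n) fuel E ≤
          n * Real.exp (C * H m k / Λ) * (Pot p K Λ w E + H m k * ν) +
            (C * w + (n : ℝ) ^ 7 / M) +
            W * ((L + 1) * ∑ l ∈ Icc 1 (2 * L + 2),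
                  (20 * D)⁻¹ ^ l * ClS (m / (m + 3 * k) * Real.exp (6 * w ^ 2 * H m k)) E l +
                (n : ℝ) ^ 8 / 2 ^ L + 1) := by
    intro k E fuel hE hk hg
    have h4 : expectFinal (phi n) fuel E ≤ n := expectFinal_le _ _ _ _ fun e he =>
      phi_le hn (le_trans (by exact_mod_cast he) (card_le_sq hE))
    have h5 := one_le_pot p K hp E Λ w hE (hD1.trans ((hDE k E hk).trans (DD_le_dbar hE))) hΛ hw hg
    have h6 := H_nonneg m k
    have h7 : 1 ≤ Real.exp (C * H m k / Λ) := Real.one_le_exp (by positivity)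
    have h8 : (n : ℝ) * 1 * 1 ≤ n * Real.exp (C * H m k / Λ) * (Pot p K Λ w E + H m k * ν) := by
      gcongr
      nlinarith
    have h9 : 0 ≤ ∑ l ∈ Icc 1 (2 * L + 2),
        (20 * D)⁻¹ ^ l * ClS (m / (m + 3 * k) * Real.exp (6 * w ^ 2 * H m k)) E l :=
      sum_nonneg fun l _ => mul_nonneg (by positivity) (ClS_nonneg _ _ (by positivity) _)
    have h10 : 0 ≤ W * ((L + 1) * ∑ l ∈ Icc 1 (2 * L + 2),
        (20 * D)⁻¹ ^ l * ClS (m / (m + 3 * k) * Real.exp (6 * w ^ 2 * H m k)) E l +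
          (n : ℝ) ^ 8 / 2 ^ L + 1) := by positivity
    have h11 : 0 ≤ C * w + (n : ℝ) ^ 7 / M := by positivity
    linarith
  intro k
  induction k with
  | zero =>
    intro E fuel hE hk hfuel
    by_cases hg : Good w K E
    swap
    · exact hbad 0 E fuel hE hk hg
    have hDD : DD E = D := by rw [DD_eq, hD, hk]; simp
    have h4 := h2 n E M L fuel Λ w _ hg.reg (hgap E hDD.ge hg) he hw (le_trans (by gcongr) hCw) hΛ
      hwΛ (hDD ▸ hD1) (hDD ▸ le_trans (by
        have := Real.log_nonneg hD1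
        gcongr) hlog) (hDD ▸ hΛD) (hDD ▸ hM) (le_trans (by gcongr) hsm) hfuel
    rw [hDD] at h4
    have h5 := pot_nonneg p K hp E Λ w
    have h6 : ∑ l ∈ Icc 1 (2 * L + 2), (20 * D)⁻¹ ^ l * Cl E l ≤
        ∑ l ∈ Icc 1 (2 * L + 2), (20 * D)⁻¹ ^ l * ClS 1 E l :=
      sum_le_sum fun l hl => mul_le_mul_of_nonneg_left (Cl_le_ClS E hE l (mem_Icc.1 hl).1)
        (by positivity)
    have h7 : 0 ≤ ∑ l ∈ Icc 1 (2 * L + 2), (20 * D)⁻¹ ^ l * ClS 1 E l :=
      sum_nonneg fun l _ => mul_nonneg (by positivity) (ClS_nonneg _ _ zero_le_one _)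
    have h8 : C2 * D ^ 81 / (n : ℝ) ^ ((3 : ℝ) / 2) *
        ((L + 1) * ∑ l ∈ Icc 1 (2 * L + 2), (20 * D)⁻¹ ^ l * Cl E l + (n : ℝ) ^ 8 / 2 ^ L + 1) ≤
        W * ((L + 1) * ∑ l ∈ Icc 1 (2 * L + 2), (20 * D)⁻¹ ^ l * ClS 1 E l +
          (n : ℝ) ^ 8 / 2 ^ L + 1) := by
      refine le_trans (mul_le_mul_of_nonneg_left ?_ (by positivity))
        (mul_le_mul_of_nonneg_right (by rw [hW]; gcongr) (by positivity))
      gcongr
    have h9 : C2 * w ≤ C * w := by gcongr
    have h10 : (0 : ℝ) ≤ n * Pot p K Λ w E := by positivity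
    simp only [H, range_zero, sum_empty, mul_zero, zero_div, Real.exp_zero, mul_one, zero_mul,
      add_zero, Nat.cast_zero, div_self hm'.ne']
    linarith
  | succ k ih =>
    intro E fuel hE hk hfuel
    by_cases hg : Good w K E
    swap
    · exact hbad (k + 1) E fuel hE hk hg
    have hDE' := hDE (k + 1) E hk
    have hDE0 : 0 < DD E := hD0.trans_le hDE'
    have hw2 : w ^ 2 ≤ 1 / 9 := by nlinarith
    have hne := triangles_nonempty hg.reg (by linarith) hDE0
    obtain ⟨f, rfl⟩ : ∃ f, fuel = f + 1 := ⟨fuel - 1, by omega⟩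
    have h4 : expectFinal (phi n) (f + 1) E =
        𝔼 T ∈ triangles E, expectFinal (phi n) f (E \ T.sym2) := by
      rw [expectFinal, if_neg (card_pos.2 hne).ne', expect_eq_sum_div_card, div_eq_inv_mul]
    have hcard : (E.card : ℝ) = m + 3 * (k + 1) := by rw [hk]; push_cast; ring
    set ρ : ℝ := 3 / ((m : ℝ) + 3 * (k + 1)) with hρ
    have hρ0 : 0 ≤ ρ := by positivity
    have hρ1 : ρ ≤ 1 / 2 := by
      have h5 := rho_le hE hDE0
      rw [hcard, ← hρ] at h5
      have h6 : 6 / DD E ≤ 6 / D := by gcongr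
      have h7 : 6 / D ≤ 1 / 2 := by
        rw [div_le_iff₀ hD0]
        have h8 : w ^ 8 ≤ (1 / 9) ^ 4 := by
          calc w ^ 8 = (w ^ 2) ^ 4 := by ring
            _ ≤ _ := by gcongr
        have h9 : w ^ 8 * D ≤ (1 / 9) ^ 4 * D := by gcongr
        linarith
      linarith
    have h5 := h3 n E Λ w _ hg (hgap E hDE' hg) he hw (le_trans (by gcongr) hCw) hΛ hwΛ
      (hwD.trans (by gcongr))
    rw [hcard, ← hρ] at h5
    set sk : ℝ := m / (m + 3 * k) * Real.exp (6 * w ^ 2 * H m k) with hsk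
    have h6 : ∀ l ∈ Icc 1 (2 * L + 2), 𝔼 T ∈ triangles E, ClS sk (E \ T.sym2) l ≤
        ClS (m / (m + 3 * ((k + 1 : ℕ) : ℝ)) * Real.exp (6 * w ^ 2 * H m (k + 1))) E l := by
      intro l hl
      have hl' : (l : ℝ) ≤ 2 * L + 2 := by exact_mod_cast (mem_Icc.1 hl).2
      refine ClS_step E (w ^ 2) _ _ l hg.reg (by linarith) hDE0 ?_ (by positivity) ?_
      · have : w ^ 2 * D ≤ w ^ 2 * DD E := by gcongr
        linarith
      · rw [hcard, ← hρ, H_succ, ← hρ, mul_add (6 * w ^ 2), Real.exp_add]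
        have h7 : (m : ℝ) / (m + 3 * ((k + 1 : ℕ) : ℝ)) = m / (m + 3 * k) * (1 - ρ) := by
          rw [hρ]; push_cast; field_simp; ring
        have h8 : 1 - ρ * (1 - 3 * w ^ 2) ≤ (1 - ρ) * Real.exp (6 * w ^ 2 * ρ) := by
          have h9 := Real.add_one_le_exp (6 * w ^ 2 * ρ)
          have h10 := mul_le_mul_of_nonneg_left h9 (by linarith : 0 ≤ 1 - ρ)
          have h11 : 0 ≤ w ^ 2 * ρ * (1 / 2 - ρ) := mul_nonneg (by positivity) (by linarith)
          nlinarith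
        calc sk * (1 - ρ * (1 - 3 * w ^ 2)) ≤ sk * ((1 - ρ) * Real.exp (6 * w ^ 2 * ρ)) := by
              gcongr
          _ = _ := by rw [h7, hsk]; ring
    have h7 := expect_le_expect (s := triangles E) fun T hT =>
      ih (E \ T.sym2) f (hE.mono sdiff_subset)
        (by have := card_sdiff_tri hE hT; omega) (by have := card_sdiff_tri hE hT; omega)
    rw [h4]
    refine h7.trans ?_
    simp only [expect_add_distrib, expect_const hne, ← mul_expect]
    rw [expect_sum_comm]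
    simp only [← mul_expect]
    have hH := H_nonneg m k
    have hP := pot_nonneg p K hp E Λ w
    gcongr ?_ + _ + W * ((L + 1) * ?_ + _ + 1)
    · have h8 : Real.exp (C * H m (k + 1) / Λ) =
          Real.exp (C * H m k / Λ) * Real.exp (C * ρ / Λ) := by
        rw [← Real.exp_add, H_succ, ← hρ]; congr 1; ring
      have h9 : 1 + C3 * ρ / Λ ≤ Real.exp (C * ρ / Λ) := by
        have := Real.add_one_le_exp (C * ρ / Λ)
        have : C3 * ρ / Λ ≤ C * ρ / Λ := by gcongr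
        linarith
      have h10 : 1 ≤ Real.exp (C * ρ / Λ) := Real.one_le_exp (by positivity)
      have h11 : C3 * ρ * Λ ^ (2 * p) * n ^ 2 * w ^ p ≤ ρ * ν := by
        calc C3 * ρ * Λ ^ (2 * p) * n ^ 2 * w ^ p ≤ C * ρ * Λ ^ (2 * p) * n ^ 2 * w ^ p := by gcongr
          _ = ρ * ν := by rw [hν]; ring
      rw [h8, H_succ, ← hρ, ← mul_assoc (n : ℝ), mul_assoc (n * Real.exp (C * H m k / Λ))]
      refine mul_le_mul_of_nonneg_left ?_ (by positivity)
      have h12 := mul_le_mul_of_nonneg_right h9 hP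
      have h13 := mul_le_mul_of_nonneg_right h10 (by positivity : 0 ≤ (H m k + ρ) * ν)
      nlinarith
    · exact sum_le_sum fun l hl => mul_le_mul_of_nonneg_left (h6 l hl) (by positivity)

end Crest.Agent.R30
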