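import Crest.Agent.R30.Defs

/-! The assembly of the second phase, from the statements of its ingredients. -/

set_option autoImplicit false

namespace Crest.Agent.R30

open Finset Crest.CombinatoricsR.TriangleRemoval
open scoped BigOperators

namespace Phase2

/-- statement of `expectFinal_le_order` -/
def OrderStmt : Prop :=
  ∀ {n : ℕ} (φ : ℕ → ℝ) (B : ℝ) (E : ES n) (fuel M : ℕ) [NeZero M]
    (_ : E.card ≤ fuel) (_ : ∀ e, 0 ≤ φ e) (_ : ∀ e ≤ E.card, φ e ≤ B),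
    expectFinal φ fuel E ≤
      (𝔼 ω : Finset (Fin n) → Fin M, φ (final E fun T => (ω T : ℕ))) +
        B * ((triangles E).card : ℝ) ^ 2 / M

open Classical in
/-- statement of `explore` -/
def ExploreStmt : Prop :=
  ∀ {N K : Type} [Fintype K] [DecidableEq K] [DecidableEq N] (M : ℕ) [NeZero M]
    (valid : N → Prop) (key : N → K) (Ch : N → Finset N) (par : N → Finset K)
    (_ : ∀ ν, valid ν → ∀ ν' ∈ Ch ν, valid ν')
    (_ : ∀ ν, valid ν → Set.InjOn key (Ch ν))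
    (_ : ∀ ν, valid ν → ∀ ν' ∈ Ch ν, ∀ k ∈ par ν', k = key ν ∨ k ∈ (Ch ν).image key)
    (acc : (K → Fin M) → K → Prop)
    (_ : ∀ ω ν, valid ν → (∀ k ∈ par ν, ω k < ω (key ν) → ¬ acc ω k) →
      (acc ω (key ν) ↔ ∀ ν' ∈ Ch ν, ω (key ν') < ω (key ν) → ¬ acc ω (key ν')))
    (vis : ℕ → ℝ)
    (_ : ∀ ν, valid ν → ∀ ν' ∈ Ch ν, ∀ s < M,
      ∏ ν'' ∈ (Ch ν).erase ν', (1 - II Ch M s ν'') ≤ vis s)
    (mb : ℕ → N → K → ℝ) (mB : N → K → ℝ) (pb : ℕ → N → ℝ) (pB : N → ℝ)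
    (_ : ∀ u < M, ∀ ν, valid ν → ∀ k,
      ∑ ν' ∈ Ch ν, ((if key ν' = k then 1 else 0) + ∑ s ∈ range u, vis s / M * mb s ν' k) ≤
        mb u ν k)
    (_ : ∀ u < M, ∀ ν, valid ν → ∀ k, mb u ν k ≤ mB ν k)
    (_ : ∀ u < M, ∀ ν, valid ν →
      XX key mB (Ch ν) + ∑ ν' ∈ Ch ν, ∑ s ∈ range u, vis s / M * pb s ν' ≤ pb u ν)
    (_ : ∀ u < M, ∀ ν, valid ν → pb u ν ≤ pB ν)
    (C₁ C₂ : Finset N) (_ : ∀ ν ∈ C₁, valid ν) (_ : ∀ ν ∈ C₂, valid ν)
    (_ : Set.InjOn key C₁) (_ : Set.InjOn key C₂)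
    (_ : ∀ ν ∈ C₁, ∀ k ∈ par ν, k ∈ C₁.image key)
    (_ : ∀ ν ∈ C₂, ∀ k ∈ par ν, k ∈ C₂.image key),
    |(𝔼 ω : K → Fin M,
        if (∀ ν ∈ C₁, ¬ acc ω (key ν)) ∧ (∀ ν ∈ C₂, ¬ acc ω (key ν)) then (1 : ℝ) else 0) -
      (∏ ν ∈ C₁, (1 - II Ch M M ν)) * ∏ ν ∈ C₂, (1 - II Ch M M ν)| ≤
      (XX key mB C₁ + ∑ ν ∈ C₁, pB ν) + (XX key mB C₂ + ∑ ν ∈ C₂, pB ν) +
        ∑ k, (∑ ν ∈ C₁, mu key mB ν k) * ∑ ν ∈ C₂, mu key mB ν k

/-- statement of `coll_bounds` -/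
def CollStmt : Prop := ∃ C : ℝ, 0 < C ∧
    ∀ (n : ℕ) (E : ES n) (D : ℝ) (M L : ℕ), Simple E → 1 ≤ D → D ≤ M →
      (∀ x y, s(x, y) ∈ E → ((cod E x y).card : ℝ) ≤ 2 * D) →
      ∃ (mb : ℕ → Nd n → Finset (Fin n) → ℝ) (mB : Nd n → Finset (Fin n) → ℝ)
        (pb : ℕ → Nd n → ℝ) (pB : Nd n → ℝ),
        (∀ u < M, ∀ ν, valid E ν → ∀ k,
          ∑ ν' ∈ Ch E ν, ((if key ν' = k then 1 else 0) +
            ∑ s ∈ range u, vis D M s / M * mb s ν' k) ≤ mb u ν k) ∧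
        (∀ u < M, ∀ ν, valid E ν → ∀ k, mb u ν k ≤ mB ν k) ∧
        (∀ u < M, ∀ ν, valid E ν →
          XX key mB (Ch E ν) + ∑ ν' ∈ Ch E ν, ∑ s ∈ range u, vis D M s / M * pb s ν' ≤ pb u ν) ∧
        (∀ u < M, ∀ ν, valid E ν → pb u ν ≤ pB ν) ∧
        ∑ x, ∑ y ∈ nb E x, (XX key mB (Rt E x y) + ∑ ν ∈ Rt E x y, pB ν) ≤
          C * D ^ 80 * ((L + 1) * ∑ l ∈ Icc 1 (2 * L + 2), (20 * D)⁻¹ ^ l * Cl E l +
            (n : ℝ) ^ 8 / 2 ^ L) ∧
        ∑ k, (∑ x, ∑ y ∈ nb E x, ∑ ν ∈ Rt E x y, mu key mB ν k) ^ 2 ≤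
          C * D ^ 70 * (triangles E).card

/-- statement of `ode` -/
def OdeStmt (p : ℕ) : Prop := ∃ C : ℝ, 0 < C ∧
    ∀ (n : ℕ) (E : ES n) (M : ℕ) (Λ w e : ℝ), Reg (w ^ 2) E → GapP E p e →
      e * (3 ^ p * Λ ^ (2 * p)) ≤ 1 → 0 < w → C * w ≤ 1 → 1 ≤ Λ → w ^ 2 * Λ ≤ 1 → 1 ≤ DD E →
      C * (1 + Real.log (DD E)) ≤ Λ → Λ ≤ w ^ 2 * DD E → DD E ≤ w ^ 4 * M →
      C * Λ ^ (2 * p + 1) * n ^ 2 * w ^ p ≤ 1 →
      (∀ x y, s(x, y) ∈ E →
        Real.exp (-w) ≤ (∏ ν ∈ Rt E x y, (1 - II (Ch E) M M ν)) * √(1 + 2 * DD E) ∧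
        (∏ ν ∈ Rt E x y, (1 - II (Ch E) M M ν)) * √(1 + 2 * DD E) ≤ Real.exp w) ∧
      ∀ ν, valid E ν → ∀ ν' ∈ Ch E ν, ∀ s < M,
        ∏ ν'' ∈ (Ch E ν).erase ν', (1 - II (Ch E) M s ν'') ≤ vis (DD E) M s

variable {n : ℕ} {E : ES n}

lemma mem_triangles {T : Finset (Fin n)} :
    T ∈ triangles E ↔ T.card = 3 ∧ ∀ u ∈ T, ∀ v ∈ T, u ≠ v → s(u, v) ∈ E := by
  simp [triangles, mem_powersetCard]

lemma tri_third {T : Finset (Fin n)} (hT : T ∈ triangles E) {x y : Fin n} (hx : x ∈ T)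
    (hy : y ∈ T) (hxy : x ≠ y) : ∃ z ∈ cod E x y, T = {x, y, z} := by
  obtain ⟨h3, hE⟩ := mem_triangles.1 hT
  have hy' : y ∈ T.erase x := mem_erase.2 ⟨hxy.symm, hy⟩
  have hc : ((T.erase x).erase y).card = 1 := by
    rw [card_erase_of_mem hy', card_erase_of_mem hx, h3]
  obtain ⟨z, hz⟩ := card_eq_one.1 hc
  have hz' : z ∈ (T.erase x).erase y := by rw [hz]; exact mem_singleton_self z
  simp only [mem_erase] at hz'
  refine ⟨z, mem_cod.2 ⟨hE x hx z hz'.2.2 hz'.2.1.symm, hE y hy z hz'.2.2 hz'.1.symm⟩, ?_⟩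
  rw [← insert_erase hx, ← insert_erase hy', hz]

lemma key_tri (h : Simple E) {ν : Nd n} (hν : valid E ν) : key ν ∈ triangles E := by
  obtain ⟨a, b, c⟩ := ν
  obtain ⟨h1, h2, h3⟩ := hν
  dsimp only at h1 h2 h3
  have hab := h.ne h1
  have hac := h.ne h2
  have hbc := h.ne h3
  refine mem_triangles.2 ⟨card_eq_three.2 ⟨a, b, c, hab, hac, hbc, rfl⟩, ?_⟩
  intro u hu v hv huv
  simp only [key, mem_insert, mem_singleton] at hu hv
  rcases hu with rfl | rfl | rfl <;> rcases hv with rfl | rfl | rfl <;>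
    first | exact absurd rfl huv | assumption | (rw [Sym2.eq_swap]; assumption)

lemma mem_Ch {a b c : Fin n} {ν' : Nd n} : ν' ∈ Ch E (a, b, c) ↔
    (∃ z, z ≠ b ∧ s(a, z) ∈ E ∧ s(c, z) ∈ E ∧ ν' = (a, c, z)) ∨
      ∃ z, z ≠ a ∧ s(b, z) ∈ E ∧ s(c, z) ∈ E ∧ ν' = (b, c, z) := by
  simp only [Ch, mem_union, mem_image, mem_erase, mem_cod, and_assoc, eq_comm (a := ν')]

lemma mem_Rt {x y : Fin n} {ν : Nd n} : ν ∈ Rt E x y ↔
    ∃ z, s(x, z) ∈ E ∧ s(y, z) ∈ E ∧ ν = (x, y, z) := by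
  simp only [Rt, mem_image, mem_cod, and_assoc, eq_comm (a := ν)]

lemma third_eq {a c z z' : Fin n} (h1 : a ≠ z) (h2 : c ≠ z)
    (h : ({a, c, z} : Finset (Fin n)) = {a, c, z'}) : z = z' := by
  have : z ∈ ({a, c, z'} : Finset (Fin n)) := by rw [← h]; simp
  simp only [mem_insert, mem_singleton] at this
  rcases this with h | h | h
  · exact absurd h.symm h1
  · exact absurd h.symm h2
  · exact h

/-- the triangles through the parent edge -/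
def par (E : ES n) (ν : Nd n) : Finset (Finset (Fin n)) :=
  (triangles E).filter fun T => ν.1 ∈ T ∧ ν.2.1 ∈ T

lemma hval (ν : Nd n) (hν : valid E ν) : ∀ ν' ∈ Ch E ν, valid E ν' := by
  obtain ⟨a, b, c⟩ := ν
  intro ν' h
  rcases mem_Ch.1 h with ⟨z, -, h1, h2, rfl⟩ | ⟨z, -, h1, h2, rfl⟩
  · exact ⟨hν.2.1, h1, h2⟩
  · exact ⟨hν.2.2, h1, h2⟩

lemma hinj (h : Simple E) (ν : Nd n) (hν : valid E ν) : Set.InjOn key (Ch E ν : Set (Nd n)) := by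
  obtain ⟨a, b, c⟩ := ν
  have hab : a ≠ b := h.ne hν.1
  have hac : a ≠ c := h.ne hν.2.1
  have hbc : b ≠ c := h.ne hν.2.2
  intro ν₁ h₁ ν₂ h₂ hk
  rcases mem_Ch.1 h₁ with ⟨z, g0, g1, g2, rfl⟩ | ⟨z, g0, g1, g2, rfl⟩ <;>
    rcases mem_Ch.1 h₂ with ⟨z', g0', g1', g2', rfl⟩ | ⟨z', g0', g1', g2', rfl⟩
  · rw [third_eq (h.ne g1) (h.ne g2) hk]
  · exfalso
    have : b ∈ key ((a, c, z) : Nd n) := by rw [hk]; simp [key]
    simp only [key, mem_insert, mem_singleton] at this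
    rcases this with h | h | h
    exacts [hab h.symm, hbc h, g0 h.symm]
  · exfalso
    have : b ∈ key ((a, c, z') : Nd n) := by rw [← hk]; simp [key]
    simp only [key, mem_insert, mem_singleton] at this
    rcases this with h | h | h
    exacts [hab h.symm, hbc h, g0' h.symm]
  · rw [third_eq (h.ne g1) (h.ne g2) hk]

lemma child_a (h : Simple E) {a b c : Fin n} (hν : valid E (a, b, c)) {T : Finset (Fin n)}
    (hT : T ∈ triangles E) (ha : a ∈ T) (hc : c ∈ T) :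
    T = key (a, b, c) ∨ T ∈ (Ch E (a, b, c)).image key := by
  obtain ⟨z, hz, rfl⟩ := tri_third hT ha hc (h.ne hν.2.1)
  by_cases hzb : z = b
  · left
    subst hzb
    simp only [key]
    rw [pair_comm c z]
  · exact Or.inr (mem_image.2 ⟨(a, c, z),
      mem_Ch.2 (Or.inl ⟨z, hzb, (mem_cod.1 hz).1, (mem_cod.1 hz).2, rfl⟩), rfl⟩)

lemma child_b (h : Simple E) {a b c : Fin n} (hν : valid E (a, b, c)) {T : Finset (Fin n)}
    (hT : T ∈ triangles E) (hb : b ∈ T) (hc : c ∈ T) :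
    T = key (a, b, c) ∨ T ∈ (Ch E (a, b, c)).image key := by
  obtain ⟨z, hz, rfl⟩ := tri_third hT hb hc (h.ne hν.2.2)
  by_cases hza : z = a
  · left
    subst hza
    ext t
    simp only [key, mem_insert, mem_singleton]
    tauto
  · exact Or.inr (mem_image.2 ⟨(b, c, z),
      mem_Ch.2 (Or.inr ⟨z, hza, (mem_cod.1 hz).1, (mem_cod.1 hz).2, rfl⟩), rfl⟩)

lemma hpar (h : Simple E) (ν : Nd n) (hν : valid E ν) :
    ∀ ν' ∈ Ch E ν, ∀ k ∈ par E ν', k = key ν ∨ k ∈ (Ch E ν).image key := by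
  obtain ⟨a, b, c⟩ := ν
  intro ν' hν' k hk
  obtain ⟨hk1, hk2, hk3⟩ := mem_filter.1 hk
  rcases mem_Ch.1 hν' with ⟨z, -, -, -, rfl⟩ | ⟨z, -, -, -, rfl⟩
  · exact child_a h hν hk1 hk2 hk3
  · exact child_b h hν hk1 hk2 hk3

lemma hacc (h : Simple E) (ω : Finset (Fin n) → ℕ) (ν : Nd n) (hν : valid E ν)
    (hp : ∀ k ∈ par E ν, ω k < ω (key ν) → ¬ acc E ω k) :
    acc E ω (key ν) ↔ ∀ ν' ∈ Ch E ν, ω (key ν') < ω (key ν) → ¬ acc E ω (key ν') := by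
  obtain ⟨a, b, c⟩ := ν
  have hac : a ≠ c := h.ne hν.2.1
  have hbc : b ≠ c := h.ne hν.2.2
  rw [acc_iff]
  constructor
  · rintro ⟨-, h2⟩ ν' hν'
    refine h2 _ (key_tri h (hval _ hν ν' hν')) ?_
    rcases mem_Ch.1 hν' with ⟨z, -, -, -, rfl⟩ | ⟨z, -, -, -, rfl⟩
    · exact one_lt_card.2 ⟨a, by simp [key], c, by simp [key], hac⟩
    · exact one_lt_card.2 ⟨b, by simp [key], c, by simp [key], hbc⟩
  · intro h2
    refine ⟨key_tri h hν, fun T hT hc hlt => ?_⟩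
    have fin : T = key (a, b, c) ∨ T ∈ (Ch E (a, b, c)).image key → ¬ acc E ω T := by
      rintro (rfl | h3)
      · exact absurd hlt (lt_irrefl _)
      · obtain ⟨ν', h4, rfl⟩ := mem_image.1 h3
        exact h2 ν' h4 hlt
    obtain ⟨u, hu, v, hv, huv⟩ := one_lt_card.1 hc
    simp only [key, mem_inter, mem_insert, mem_singleton] at hu hv
    obtain ⟨hu1, hu2⟩ := hu
    obtain ⟨hv1, hv2⟩ := hv
    rcases hu1 with rfl | rfl | rfl <;> rcases hv1 with rfl | rfl | rfl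
    · exact absurd rfl huv
    · exact hp T (mem_filter.2 ⟨hT, hu2, hv2⟩) hlt
    · exact fin (child_a h hν hT hu2 hv2)
    · exact hp T (mem_filter.2 ⟨hT, hv2, hu2⟩) hlt
    · exact absurd rfl huv
    · exact fin (child_b h hν hT hu2 hv2)
    · exact fin (child_a h hν hT hv2 hu2)
    · exact fin (child_b h hν hT hv2 hu2)
    · exact absurd rfl huv

lemma rt_valid {x y : Fin n} (hxy : s(x, y) ∈ E) : ∀ ν ∈ Rt E x y, valid E ν := by
  intro ν hν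
  obtain ⟨z, h1, h2, rfl⟩ := mem_Rt.1 hν
  exact ⟨hxy, h1, h2⟩

lemma rt_inj (h : Simple E) (x y : Fin n) : Set.InjOn key (Rt E x y : Set (Nd n)) := by
  intro ν₁ h₁ ν₂ h₂ hk
  obtain ⟨z, g1, g2, rfl⟩ := mem_Rt.1 h₁
  obtain ⟨z', -, -, rfl⟩ := mem_Rt.1 h₂
  rw [third_eq (h.ne g1) (h.ne g2) hk]

lemma rt_par (h : Simple E) {x y : Fin n} (hxy : s(x, y) ∈ E) :
    ∀ ν ∈ Rt E x y, ∀ k ∈ par E ν, k ∈ (Rt E x y).image key := by
  intro ν hν k hk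
  obtain ⟨z, -, -, rfl⟩ := mem_Rt.1 hν
  obtain ⟨hk1, hk2, hk3⟩ := mem_filter.1 hk
  obtain ⟨z', hz', rfl⟩ := tri_third hk1 hk2 hk3 (h.ne hxy)
  exact mem_image.2 ⟨(x, y, z'), mem_Rt.2 ⟨z', (mem_cod.1 hz').1, (mem_cod.1 hz').2, rfl⟩, rfl⟩

open Classical in
lemma two_final (h : Simple E) (ω : Finset (Fin n) → ℕ) :
    2 * (final E ω : ℝ) =
      ∑ x, ∑ y ∈ nb E x, if ∀ ν ∈ Rt E x y, ¬ acc E ω (key ν) then (1 : ℝ) else 0 := by
  rw [final, card_filter]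
  push_cast
  rw [← sum_nb_eq h]
  refine sum_congr rfl fun x _ => sum_congr rfl fun y hy => ?_
  have hxy := mem_nb.1 hy
  refine if_congr ⟨fun H ν hν ha => ?_, fun H T ha hT => ?_⟩ rfl rfl
  · obtain ⟨z, -, -, rfl⟩ := mem_Rt.1 hν
    exact H _ ha (by simp [key])
  · have hT' := ((acc_iff E ω T).1 ha).1
    rw [mk_mem_sym2_iff] at hT
    obtain ⟨z, hz, rfl⟩ := tri_third hT' hT.1 hT.2 (h.ne hxy)
    exact H (x, y, z) (mem_Rt.2 ⟨z, (mem_cod.1 hz).1, (mem_cod.1 hz).2, rfl⟩) ha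

lemma card_tri_le (h : Simple E) :
    ((triangles E).card : ℝ) ≤ ∑ x, ∑ y ∈ nb E x, ((cod E x y).card : ℝ) := by
  have : triangles E ⊆ univ.biUnion fun x => (nb E x).biUnion fun y =>
      (cod E x y).image fun z => ({x, y, z} : Finset (Fin n)) := by
    intro T hT
    obtain ⟨h3, hE⟩ := mem_triangles.1 hT
    obtain ⟨x, hx, y, hy, hxy⟩ := one_lt_card.1 (by omega : 1 < T.card)
    obtain ⟨z, hz, rfl⟩ := tri_third hT hx hy hxy
    exact mem_biUnion.2 ⟨x, mem_univ _, mem_biUnion.2 ⟨y, mem_nb.2 (hE x hx y hy hxy),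
      mem_image.2 ⟨z, hz, rfl⟩⟩⟩
  have h1 := (card_le_card this).trans card_biUnion_le
  have h2 : ∑ x, ((nb E x).biUnion fun y =>
      (cod E x y).image fun z => ({x, y, z} : Finset (Fin n))).card ≤
      ∑ x, ∑ y ∈ nb E x, (cod E x y).card :=
    sum_le_sum fun x _ => card_biUnion_le.trans (sum_le_sum fun y _ => card_image_le)
  have _ := h
  exact_mod_cast h1.trans h2

lemma card_tri_le_cube : ((triangles E).card : ℝ) ≤ (n : ℝ) ^ 3 := by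
  have h1 : (triangles E).card ≤ n.choose 3 := by
    refine (card_filter_le _ _).trans ?_
    simp
  exact_mod_cast h1.trans (Nat.choose_le_pow n 3)

lemma Cl_nonneg (l : ℕ) : 0 ≤ Cl E l := by
  refine sum_nonneg fun d _ => sum_nonneg fun d' _ => mul_nonneg
    (Matrix.pow_apply_nonneg (fun i j => ?_) l d d') (by split_ifs <;> norm_num)
  unfold Dmat
  split_ifs <;> norm_num

lemma second_moment {Ω ι : Type*} [Fintype Ω] [Nonempty Ω] (s : Finset ι) (I : Ω → ι → ℝ)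
    (Q r : ι → ℝ) (cr : ι → ι → ℝ) (N c : ℝ) (hN : 0 < N) (hc : 0 ≤ c)
    (h1 : ∀ i ∈ s, Q i - r i ≤ 𝔼 ω, I ω i)
    (h2 : ∀ i ∈ s, ∀ j ∈ s, 𝔼 ω, I ω i * I ω j ≤ Q i * Q j + (r i + r j + cr i j)) :
    𝔼 ω, ((∑ i ∈ s, I ω i) / (2 * N) - c) ^ 2 ≤
      ((∑ i ∈ s, Q i) / (2 * N) - c) ^ 2 + (s.card / (2 * N ^ 2) + c / N) * ∑ i ∈ s, r i +
        (∑ i ∈ s, ∑ j ∈ s, cr i j) / (4 * N ^ 2) := by
  have e1 : ∑ i ∈ s, Q i - ∑ i ∈ s, r i ≤ 𝔼 ω, ∑ i ∈ s, I ω i := by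
    rw [expect_sum_comm, ← sum_sub_distrib]
    exact sum_le_sum h1
  have e2 : 𝔼 ω, (∑ i ∈ s, I ω i) ^ 2 ≤ (∑ i ∈ s, Q i) ^ 2 + 2 * s.card * ∑ i ∈ s, r i +
      ∑ i ∈ s, ∑ j ∈ s, cr i j := by
    simp_rw [sq, sum_mul_sum, expect_sum_comm]
    refine (sum_le_sum fun i hi => sum_le_sum fun j hj => h2 i hi j hj).trans (le_of_eq ?_)
    simp only [sum_add_distrib, sum_const, nsmul_eq_mul, ← mul_sum]
    ring
  have e3 : 𝔼 ω, ((∑ i ∈ s, I ω i) / (2 * N) - c) ^ 2 =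
      (1 / (4 * N ^ 2)) * (𝔼 ω, (∑ i ∈ s, I ω i) ^ 2) - c / N * (𝔼 ω, ∑ i ∈ s, I ω i) + c ^ 2 := by
    rw [mul_expect, mul_expect, ← expect_sub_distrib,
      ← Fintype.expect_const (ι := Ω) (c ^ 2), ← expect_add_distrib]
    refine expect_congr rfl fun ω _ => ?_
    field_simp
    ring
  rw [e3]
  have g1 := mul_le_mul_of_nonneg_left e2 (by positivity : 0 ≤ 1 / (4 * N ^ 2))
  have g2 := mul_le_mul_of_nonneg_left e1 (by positivity : 0 ≤ c / N)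
  have g3 : 1 / (4 * N ^ 2) * ((∑ i ∈ s, Q i) ^ 2 + 2 * s.card * ∑ i ∈ s, r i +
      ∑ i ∈ s, ∑ j ∈ s, cr i j) - c / N * (∑ i ∈ s, Q i - ∑ i ∈ s, r i) + c ^ 2 =
      ((∑ i ∈ s, Q i) / (2 * N) - c) ^ 2 + (s.card / (2 * N ^ 2) + c / N) * ∑ i ∈ s, r i +
        (∑ i ∈ s, ∑ j ∈ s, cr i j) / (4 * N ^ 2) := by
    field_simp
    ring
  linarith

lemma main_term {D w S : ℝ} (hw : 0 < w) (hw1 : w ≤ 1) (hD : 1 ≤ w ^ 2 * D)
    (h1 : Real.exp (-w) * (√D / 2) ≤ S * √(1 + 2 * D))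
    (h2 : S * √(1 + 2 * D) ≤ Real.exp w * (√D / 2)) : (S - 1 / (2 * √2)) ^ 2 ≤ w := by
  have hD0 : 0 < D := by
    by_contra h
    nlinarith [mul_nonneg (sq_nonneg w) (neg_nonneg.2 (not_lt.1 h))]
  set c : ℝ := 1 / (2 * √2) with hc
  have hc0 : 0 < c := by positivity
  have hc2 : c ^ 2 = 1 / 8 := by
    rw [hc, div_pow, mul_pow, Real.sq_sqrt (by norm_num)]; norm_num
  have hq : 0 < √(1 + 2 * D) := by positivity
  set t : ℝ := √D / 2 / √(1 + 2 * D) with ht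
  have ht0 : 0 ≤ t := by positivity
  have ht2 : t ^ 2 = D / (4 * (1 + 2 * D)) := by
    rw [ht, div_pow, div_pow, Real.sq_sqrt hD0.le, Real.sq_sqrt (by positivity)]
    field_simp
    norm_num
  have hdiff : c ^ 2 - t ^ 2 = 1 / (8 * (1 + 2 * D)) := by
    rw [hc2, ht2]; field_simp; ring
  have hd1 : 1 / (8 * (1 + 2 * D)) ≤ w ^ 2 / 16 := by
    rw [div_le_div_iff₀ (by positivity) (by norm_num)]
    nlinarith [sq_nonneg w]
  have hd0 : 0 < 1 / (8 * (1 + 2 * D)) := by positivity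
  have htc : t ≤ c := by
    by_contra h
    nlinarith
  have hc4 : 1 / 4 ≤ c := by
    by_contra h
    nlinarith
  have hc5 : c ≤ 1 / 2 := by
    by_contra h
    nlinarith
  have hct : c - t ≤ w ^ 2 / 4 := by
    by_contra h
    nlinarith
  have g1 : Real.exp (-w) * t ≤ S := by
    rw [ht, ← mul_div_assoc, div_le_iff₀ hq]; exact h1
  have g2 : S ≤ Real.exp w * t := by
    rw [ht, ← mul_div_assoc, le_div_iff₀ hq]; exact h2
  have g3 : 1 - w ≤ Real.exp (-w) := by linarith [Real.add_one_le_exp (-w)]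
  have g4 : Real.exp w ≤ 1 + 2 * w := by
    have := Real.abs_exp_sub_one_le (x := w) (by rw [abs_of_pos hw]; exact hw1)
    rw [abs_of_pos hw] at this
    linarith [(abs_le.1 this).2]
  have g5 : S - c ≤ w := by nlinarith
  have g6 : -w ≤ S - c := by nlinarith
  nlinarith

lemma aux_div (a b m D N : ℝ) (hN : N ≠ 0) :
    a * b * (2 * m * (2 * D)) / (4 * N ^ 2) = a * (b * D * (m / N)) / N := by
  field_simp
  ring

lemma aux_phi {k n N c : ℝ} (hn : 1 ≤ n) (hN : 0 < N) (hN2 : N ^ 2 = n ^ 3) (hk0 : 0 ≤ k)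
    (hk : 2 * k ≤ n ^ 2) (hc0 : 0 < c) (hc : c ≤ 1 / 2) : (k / N - c) ^ 2 ≤ n := by
  have hk1 : 0 ≤ k / N := by positivity
  have a1 : (k / N) ^ 2 ≤ n / 4 := by
    rw [div_pow, hN2, div_le_iff₀ (by positivity)]
    have : k ^ 2 ≤ (n ^ 2 / 2) ^ 2 := by gcongr; linarith
    nlinarith
  nlinarith [mul_nonneg hk1 hc0.le]

theorem phase2_of (p : ℕ) (hO : OrderStmt) (hT : ExploreStmt) (hC : CollStmt) (hD : OdeStmt p) :
    ∃ C : ℝ, 0 < C ∧
    ∀ (n : ℕ) (E : ES n) (M L fuel : ℕ) (Λ w e : ℝ), Reg (w ^ 2) E → GapP E p e →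
      e * (3 ^ p * Λ ^ (2 * p)) ≤ 1 → 0 < w → C * w ≤ 1 → 1 ≤ Λ → w ^ 2 * Λ ≤ 1 → 1 ≤ DD E →
      C * (1 + Real.log (DD E)) ≤ Λ → Λ ≤ w ^ 2 * DD E → DD E ≤ w ^ 4 * M →
      C * Λ ^ (2 * p + 1) * n ^ 2 * w ^ p ≤ 1 → E.card ≤ fuel →
      expectFinal (phi n) fuel E ≤ C * w + (n : ℝ) ^ 7 / M +
        C * DD E ^ 81 / (n : ℝ) ^ ((3 : ℝ) / 2) *
          ((L + 1) * ∑ l ∈ Icc 1 (2 * L + 2), (20 * DD E)⁻¹ ^ l * Cl E l +
            (n : ℝ) ^ 8 / 2 ^ L + 1) := by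
  classical
  obtain ⟨C₁, hC₁, hC⟩ := hC
  obtain ⟨C₂, hC₂, hD⟩ := hD
  refine ⟨C₁ + C₂ + 1, by positivity, ?_⟩
  intro n E M L fuel Λ w e hreg hgap he hw hCw hΛ hwΛ hD1 hlog hΛD hDM hbig hfuel
  set D := DD E with hDdef
  have hs := hreg.simple
  have h9 : w ≤ (C₁ + C₂ + 1) * w := le_mul_of_one_le_left hw.le (by linarith)
  have hw1 : w ≤ 1 := h9.trans hCw
  have hw2 : w ^ 2 ≤ 1 := pow_le_one₀ hw.le hw1
  have hw4 : w ^ 4 ≤ 1 := pow_le_one₀ hw.le hw1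
  have hM0 : (0 : ℝ) ≤ M := Nat.cast_nonneg M
  have hDM' : D ≤ M := hDM.trans (mul_le_of_le_one_left hM0 hw4)
  have hM : 0 < M := by exact_mod_cast (by linarith : (0 : ℝ) < M)
  have : NeZero M := ⟨hM.ne'⟩
  have hn : 0 < n := by
    rcases Nat.eq_zero_or_pos n with h | h
    · subst h
      simp [hDdef, DD] at hD1
      linarith
    · exact h
  have hn1 : (1 : ℝ) ≤ n := by exact_mod_cast hn
  have hcod : ∀ x y, s(x, y) ∈ E → ((cod E x y).card : ℝ) ≤ 2 * D := by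
    intro x y hxy
    have h1 := (abs_le.1 (hreg.codeg x y hxy)).2
    rw [eta, ← hDdef, sub_le_iff_le_add, div_le_iff₀ (by linarith)] at h1
    exact h1.trans (mul_le_mul_of_nonneg_right (by linarith) (by linarith))
  have hlog0 : 0 ≤ 1 + Real.log D := by linarith [Real.log_nonneg hD1]
  have hCC : C₂ ≤ C₁ + C₂ + 1 := by linarith
  obtain ⟨hQ, hvis⟩ := hD n E M Λ w e hreg hgap he hw
    ((mul_le_mul_of_nonneg_right hCC hw.le).trans hCw) hΛ hwΛ hD1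
    ((mul_le_mul_of_nonneg_right hCC hlog0).trans hlog)
    hΛD hDM (le_trans (by gcongr) hbig)
  obtain ⟨mb, mB, pb, pB, hmb, hmB, hpb, hpB, hR, hX⟩ := hC n E D M L hs hD1 hDM' hcod
  set N : ℝ := (n : ℝ) ^ ((3 : ℝ) / 2) with hN
  have hN0 : 0 < N := by positivity
  have hN2 : N ^ 2 = (n : ℝ) ^ 3 := by
    rw [hN, ← Real.rpow_natCast, ← Real.rpow_mul (by positivity), ← Real.rpow_natCast]
    norm_num
  set m : ℝ := (E.card : ℝ) with hm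
  have hm0 : 0 ≤ m := Nat.cast_nonneg _
  have hmN : m / N = √D / 2 := by
    have : D = (2 * (m / N)) ^ 2 := by
      rw [hDdef, DD, dbar, mul_pow, div_pow m, hN2]
      field_simp
      rfl
    rw [this, Real.sqrt_sq (by positivity)]
    ring
  have hsD : √D ≤ D := by
    rw [Real.sqrt_le_left (by linarith), sq]
    exact le_mul_of_one_le_left (by linarith) hD1
  set c : ℝ := 1 / (2 * √2) with hc
  have hc0 : 0 < c := by positivity
  have hc5 : c ≤ 1 / 2 := by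
    rw [hc]
    gcongr
    linarith [Real.one_le_sqrt.2 (by norm_num : (1 : ℝ) ≤ 2)]
  have hm2 : 2 * m ≤ (n : ℝ) ^ 2 := by
    rw [hm, ← sum_card_nb hs]
    calc ∑ x, ((nb E x).card : ℝ) ≤ ∑ _x : Fin n, (n : ℝ) := sum_le_sum fun x _ => by
          exact_mod_cast (card_le_univ _).trans (by simp)
      _ = _ := by simp [sq]
  -- the random order model
  have h1 := hO (phi n) n E fuel M hfuel (fun _ => sq_nonneg _) (by
    intro k hk
    have hk' : (k : ℝ) ≤ m := by rw [hm]; exact_mod_cast hk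
    exact aux_phi hn1 hN0 hN2 (Nat.cast_nonneg k) (by linarith) hc0 hc5)
  have h2 : (n : ℝ) * ((triangles E).card : ℝ) ^ 2 / M ≤ (n : ℝ) ^ 7 / M := by
    gcongr
    calc (n : ℝ) * ((triangles E).card : ℝ) ^ 2 ≤ n * ((n : ℝ) ^ 3) ^ 2 := by
          gcongr; exact card_tri_le_cube
      _ = _ := by ring
  -- the exploration
  have hE := fun C₁ C₂ => hT M (valid E) key (Ch E) (par E) hval (hinj hs) (hpar hs)
    (fun ω k => acc E (fun T => (ω T : ℕ)) k) (fun ω ν hν hp => hacc hs _ ν hν hp)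
    (vis D M) hvis mb mB pb pB hmb hmB hpb hpB C₁ C₂
  set S : Finset (Σ _ : Fin n, Fin n) := univ.sigma fun x => nb E x with hS
  have hSm : ∀ i ∈ S, s(i.1, i.2) ∈ E := fun i hi => mem_nb.1 (mem_sigma.1 hi).2
  have hScard : (S.card : ℝ) = 2 * m := by
    rw [hS, card_sigma, ← sum_card_nb hs]; push_cast; rfl
  have h3 := second_moment (Ω := Finset (Fin n) → Fin M) S
    (fun ω i => if ∀ ν ∈ Rt E i.1 i.2, ¬ acc E (fun T => (ω T : ℕ)) (key ν) then (1 : ℝ) else 0)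
    (fun i => ∏ ν ∈ Rt E i.1 i.2, (1 - II (Ch E) M M ν))
    (fun i => XX key mB (Rt E i.1 i.2) + ∑ ν ∈ Rt E i.1 i.2, pB ν)
    (fun i j => ∑ k, (∑ ν ∈ Rt E i.1 i.2, mu key mB ν k) * ∑ ν ∈ Rt E j.1 j.2, mu key mB ν k)
    N c hN0 hc0.le (by
      intro i hi
      have := (abs_le.1 (hE (Rt E i.1 i.2) ∅ (rt_valid (hSm i hi)) (by simp) (rt_inj hs _ _)
        (by simp) (rt_par hs (hSm i hi)) (by simp))).1
      simp only [notMem_empty, false_imp_iff, implies_true, and_true, prod_empty, mul_one, XX,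
        sum_empty, add_zero, mul_zero, sum_const_zero] at this ⊢
      linarith) (by
      intro i hi j hj
      have := (abs_le.1 (hE (Rt E i.1 i.2) (Rt E j.1 j.2) (rt_valid (hSm i hi))
        (rt_valid (hSm j hj)) (rt_inj hs _ _) (rt_inj hs _ _) (rt_par hs (hSm i hi))
        (rt_par hs (hSm j hj)))).2
      rw [sub_le_iff_le_add'] at this
      refine le_trans (le_of_eq (expect_congr rfl fun ω _ => ?_)) this
      rw [ite_and]
      split_ifs <;> simp)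
  have h4 : (𝔼 ω : Finset (Fin n) → Fin M, phi n (final E fun T => (ω T : ℕ))) =
      𝔼 ω : Finset (Fin n) → Fin M, ((∑ i ∈ S,
        if ∀ ν ∈ Rt E i.1 i.2, ¬ acc E (fun T => (ω T : ℕ)) (key ν) then (1 : ℝ) else 0) /
          (2 * N) - c) ^ 2 := by
    refine expect_congr rfl fun ω _ => ?_
    rw [hS, sum_sigma]
    have := two_final hs (fun T => (ω T : ℕ))
    dsimp only
    rw [phi, ← hN, ← hc]
    congr 2
    rw [eq_div_iff (by positivity)]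
    convert this using 1
    field_simp
  have hq : 0 < √(1 + 2 * D) := by positivity
  have h5 : ((∑ i ∈ S, ∏ ν ∈ Rt E i.1 i.2, (1 - II (Ch E) M M ν)) / (2 * N) - c) ^ 2 ≤ w := by
    refine main_term hw hw1 (hΛ.trans hΛD) ?_ ?_
    · rw [← hmN, div_mul_eq_mul_div, le_div_iff₀ (by positivity), sum_mul]
      refine le_trans (le_of_eq ?_) (card_nsmul_le_sum S _ _ fun i hi => (hQ _ _ (hSm i hi)).1)
      rw [nsmul_eq_mul, hScard]
      field_simp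
    · rw [← hmN, div_mul_eq_mul_div, div_le_iff₀ (by positivity), sum_mul]
      refine le_trans (sum_le_card_nsmul S _ _ fun i hi => (hQ _ _ (hSm i hi)).2) (le_of_eq ?_)
      rw [nsmul_eq_mul, hScard]
      field_simp
  set A : ℝ := (L + 1) * ∑ l ∈ Icc 1 (2 * L + 2), (20 * D)⁻¹ ^ l * Cl E l +
    (n : ℝ) ^ 8 / 2 ^ L with hA
  have hA0 : 0 ≤ A := by
    have : 0 ≤ ∑ l ∈ Icc 1 (2 * L + 2), (20 * D)⁻¹ ^ l * Cl E l :=
      sum_nonneg fun l _ => mul_nonneg (by positivity) (Cl_nonneg l)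
    positivity
  have h6 : (S.card / (2 * N ^ 2) + c / N) *
      ∑ i ∈ S, (XX key mB (Rt E i.1 i.2) + ∑ ν ∈ Rt E i.1 i.2, pB ν) ≤ C₁ * D ^ 81 / N * A := by
    have a1 : (S.card / (2 * N ^ 2) + c / N) ≤ D / N := by
      have : (S.card / (2 * N ^ 2) + c / N) = (m / N + c) / N := by
        rw [hScard]; field_simp
      rw [this, hmN]
      gcongr
      linarith
    rw [hS, sum_sigma, ← hS]
    calc _ ≤ (S.card / (2 * N ^ 2) + c / N) * (C₁ * D ^ 80 * A) := by gcongr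
      _ ≤ D / N * (C₁ * D ^ 80 * A) := mul_le_mul_of_nonneg_right a1
          (mul_nonneg (mul_nonneg hC₁.le (pow_nonneg (by linarith) _)) hA0)
      _ = _ := by ring
  have h7 : (∑ i ∈ S, ∑ j ∈ S, ∑ k, (∑ ν ∈ Rt E i.1 i.2, mu key mB ν k) *
      ∑ ν ∈ Rt E j.1 j.2, mu key mB ν k) / (4 * N ^ 2) ≤ C₁ * D ^ 81 / N := by
    have a1 : ∑ i ∈ S, ∑ j ∈ S, ∑ k, (∑ ν ∈ Rt E i.1 i.2, mu key mB ν k) *
        ∑ ν ∈ Rt E j.1 j.2, mu key mB ν k =
        ∑ k, (∑ x, ∑ y ∈ nb E x, ∑ ν ∈ Rt E x y, mu key mB ν k) ^ 2 := by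
      simp_rw [sum_comm (s := S) (t := (univ : Finset (Finset (Fin n))))]
      refine sum_congr rfl fun k _ => ?_
      rw [← sum_mul_sum, hS, sum_sigma, sq]
    have a2 : ((triangles E).card : ℝ) ≤ 2 * m * (2 * D) := by
      refine (card_tri_le hs).trans ?_
      rw [hm, ← sum_card_nb hs, sum_mul]
      refine sum_le_sum fun x _ => ?_
      refine (sum_le_card_nsmul _ _ _ fun y hy => hcod x y (mem_nb.1 hy)).trans (le_of_eq ?_)
      rw [nsmul_eq_mul]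
    have a3 : D ^ 70 * D * D ≤ D ^ 81 := by
      rw [← pow_succ, ← pow_succ]
      exact pow_le_pow_right₀ hD1 (by omega)
    rw [a1]
    calc _ ≤ C₁ * D ^ 70 * (2 * m * (2 * D)) / (4 * N ^ 2) := by
          gcongr
          exact hX.trans (by gcongr)
      _ = C₁ * (D ^ 70 * D * (m / N)) / N := aux_div _ _ _ _ _ hN0.ne'
      _ ≤ C₁ * (D ^ 70 * D * D) / N := by
          gcongr
          rw [hmN]; linarith
      _ ≤ _ := div_le_div_of_nonneg_right (mul_le_mul_of_nonneg_left a3 hC₁.le) hN0.le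
  have h8 : C₁ * D ^ 81 / N * (A + 1) ≤ (C₁ + C₂ + 1) * D ^ 81 / N * (A + 1) := by
    gcongr; linarith
  rw [h4] at h1
  linarith

end Phase2

end Crest.Agent.R30
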