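import Crest.Agent.R30.Defs

/-! Closed walks versus cycles. -/

set_option autoImplicit false
set_option linter.unusedSectionVars false

namespace Crest.Agent.R30

open Finset Crest.CombinatoricsR.TriangleRemoval
open scoped BigOperators

namespace Trace

variable {W : Type} [Fintype W] [DecidableEq W] (G : SimpleGraph W) [DecidableRel G.Adj]

/-- injective chains -/
def Ch (i : ℕ) (f : Fin (i + 1) → W) : Prop :=
  Function.Injective f ∧ ∀ k : Fin i, G.Adj (f k.castSucc) (f k.succ)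

instance (i : ℕ) (f : Fin (i + 1) → W) : Decidable (Ch G i f) := by
  unfold Ch; infer_instance

lemma ch_snoc (i : ℕ) (f : Fin (i + 1) → W) (z : W) :
    Ch G (i + 1) (Fin.snoc f z : Fin (i + 2) → W) ↔
      Ch G i f ∧ (G.Adj (f (Fin.last i)) z ∧ z ∉ Set.range f) := by
  unfold Ch
  rw [Fin.snoc_injective_iff, Fin.forall_fin_succ']
  simp only [Fin.succ_last, Fin.snoc_castSucc, Fin.snoc_last, Fin.succ_castSucc]
  tauto

lemma ch_cons (i : ℕ) (f : Fin (i + 1) → W) (z : W) :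
    Ch G (i + 1) (Fin.cons z f : Fin (i + 2) → W) ↔
      Ch G i f ∧ (G.Adj (f 0) z ∧ z ∉ Set.range f) := by
  unfold Ch
  rw [Fin.cons_injective_iff, Fin.forall_fin_succ]
  simp only [Fin.castSucc_zero, Fin.cons_zero, Fin.cons_succ, Fin.castSucc_succ]
  rw [G.adj_comm z]
  tauto

lemma sum_snoc (i : ℕ) (F : (Fin (i + 2) → W) → ℝ) :
    ∑ g ∈ univ.filter (Ch G (i + 1)), F g =
      ∑ f ∈ univ.filter (Ch G i), ∑ z ∈ (G.neighborFinset (f (Fin.last i))).filter
        (fun z => z ∉ Set.range f), F (Fin.snoc f z) := by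
  rw [sum_filter, sum_filter, ← (Fin.snocEquiv fun _ : Fin (i + 2) => W).sum_comp,
    Fintype.sum_prod_type_right]
  refine sum_congr rfl fun f _ => ?_
  have e : ∀ z : W, (Fin.snocEquiv fun _ : Fin (i + 2) => W) (z, f) = Fin.snoc f z :=
    fun z => rfl
  simp only [e, ch_snoc]
  split_ifs with h
  · rw [SimpleGraph.neighborFinset_eq_filter, filter_filter, sum_filter]
    simp only [h, true_and]
  · simp [h]

lemma sum_cons (i : ℕ) (F : (Fin (i + 2) → W) → ℝ) :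
    ∑ g ∈ univ.filter (Ch G (i + 1)), F g =
      ∑ f ∈ univ.filter (Ch G i), ∑ z ∈ (G.neighborFinset (f 0)).filter
        (fun z => z ∉ Set.range f), F (Fin.cons z f) := by
  rw [sum_filter, sum_filter, ← (Fin.consEquiv fun _ : Fin (i + 2) => W).sum_comp,
    Fintype.sum_prod_type_right]
  refine sum_congr rfl fun f _ => ?_
  have e : ∀ z : W, (Fin.consEquiv fun _ : Fin (i + 2) => W) (z, f) = Fin.cons z f :=
    fun z => rfl
  simp only [e, ch_cons]
  split_ifs with h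
  · rw [SimpleGraph.neighborFinset_eq_filter, filter_filter, sum_filter]
    simp only [h, true_and]
  · simp [h]

lemma cycG_eq (i : ℕ) : (cycG G i : ℝ) =
    ∑ f ∈ univ.filter (Ch G i), if G.Adj (f (Fin.last i)) (f 0) then (1 : ℝ) else 0 := by
  rw [sum_boole, filter_filter, cycG]
  congr 2
  refine filter_congr fun f _ => ?_
  unfold Ch
  rw [Fin.forall_fin_succ']
  simp only [Fin.coeSucc_eq_succ, Fin.last_add_one, and_assoc]

lemma pow_succ_apply (j : ℕ) (x y : W) :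
    (G.adjMatrix ℝ ^ (j + 1)) x y = ∑ z ∈ G.neighborFinset x, (G.adjMatrix ℝ ^ j) z y := by
  rw [pow_succ', SimpleGraph.adjMatrix_mul_apply]

lemma pow_nonneg' (j : ℕ) : ∀ x y : W, 0 ≤ (G.adjMatrix ℝ ^ j) x y := by
  induction j with
  | zero => intro x y; rw [pow_zero, Matrix.one_apply]; split_ifs <;> norm_num
  | succ j ih => intro x y; rw [pow_succ_apply]; exact sum_nonneg fun z _ => ih z y

variable {G}

lemma sum_nb_le {D : ℝ} (hd : ∀ v, (G.degree v : ℝ) ≤ 2 * D) (x : W) (s : Finset W)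
    (hs : s ⊆ G.neighborFinset x) (c : ℝ) (hc : 0 ≤ c) : ∑ _z ∈ s, c ≤ 2 * D * c := by
  rw [sum_const, nsmul_eq_mul]
  refine mul_le_mul_of_nonneg_right (le_trans ?_ (hd x)) hc
  exact_mod_cast card_le_card hs

lemma pow_le {D : ℝ} (hD : 1 ≤ D) (hd : ∀ v, (G.degree v : ℝ) ≤ 2 * D) (j : ℕ) :
    ∀ x y : W, (G.adjMatrix ℝ ^ (j + 1)) x y ≤ (2 * D) ^ j := by
  induction j with
  | zero => intro x y; rw [zero_add, pow_one, pow_zero, SimpleGraph.adjMatrix_apply]
            split_ifs <;> norm_num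
  | succ j ih =>
    intro x y
    rw [pow_succ_apply, pow_succ' (2 * D)]
    exact (sum_le_sum fun z _ => ih z y).trans
      (sum_nb_le hd x _ subset_rfl _ (by positivity))

variable (G)

/-- chains closed up by a walk -/
noncomputable def U (i j : ℕ) : ℝ :=
  ∑ f ∈ univ.filter (Ch G i), (G.adjMatrix ℝ ^ j) (f (Fin.last i)) (f 0)

/-- error terms -/
noncomputable def T (i j : ℕ) (t : Fin (i + 1)) : ℝ :=
  ∑ f ∈ univ.filter (Ch G i),
    if G.Adj (f (Fin.last i)) (f t) then (G.adjMatrix ℝ ^ j) (f t) (f 0) else 0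

/-- lollipops -/
noncomputable def L (i : ℕ) (t : Fin (i + 1)) : ℝ :=
  ∑ f ∈ univ.filter (Ch G i), if G.Adj (f (Fin.last i)) (f t) then (1 : ℝ) else 0

lemma U_nonneg (i j : ℕ) : 0 ≤ U G i j := sum_nonneg fun _ _ => pow_nonneg' G _ _ _

lemma U_zero (j : ℕ) : U G 0 j = (G.adjMatrix ℝ ^ j).trace := by
  unfold U
  have : (univ.filter (Ch G 0)) = univ := by
    refine filter_true_of_mem fun f _ => ⟨fun a b _ => Fin.ext (by omega), fun k => k.elim0⟩
  rw [this, Matrix.trace, ← (Equiv.funUnique (Fin 1) W).sum_comp]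
  rfl

lemma U_succ_zero (i : ℕ) : U G (i + 1) 0 = 0 := by
  unfold U
  refine sum_eq_zero fun f hf => ?_
  rw [pow_zero, Matrix.one_apply_ne]
  intro h
  have := (mem_filter.1 hf).2.1 h
  exact absurd this (Fin.last_pos.ne')

lemma U_succ_eq (i j : ℕ) : U G (i + 1) j =
    ∑ f ∈ univ.filter (Ch G i), ∑ z ∈ (G.neighborFinset (f (Fin.last i))).filter
        (fun z => z ∉ Set.range f), (G.adjMatrix ℝ ^ j) z (f 0) := by
  unfold U
  rw [sum_snoc]
  simp only [Fin.snoc_last, Fin.snoc_apply_zero]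

lemma U_mono (i j : ℕ) : U G (i + 1) j ≤ U G i (j + 1) := by
  rw [U_succ_eq]
  unfold U
  refine sum_le_sum fun f _ => ?_
  rw [pow_succ_apply]
  exact sum_le_sum_of_subset_of_nonneg (filter_subset _ _) fun _ _ _ => pow_nonneg' G _ _ _

lemma U_le_trace (i : ℕ) : ∀ j, U G i j ≤ (G.adjMatrix ℝ ^ (i + j)).trace := by
  induction i with
  | zero => intro j; rw [U_zero, zero_add]
  | succ i ih =>
    intro j
    refine (U_mono G i j).trans ((ih (j + 1)).trans (le_of_eq ?_))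
    congr 2; omega

lemma U_step (i j : ℕ) : U G i (j + 1) ≤ U G (i + 1) j + ∑ t, T G i j t := by
  rw [U_succ_eq]
  unfold U T
  rw [sum_comm, ← sum_add_distrib]
  refine sum_le_sum fun f _ => ?_
  rw [pow_succ_apply, ← sum_filter_not_add_sum_filter _ (fun z => z ∈ Set.range f)]
  refine add_le_add le_rfl ?_
  rw [← sum_filter]
  calc ∑ z ∈ (G.neighborFinset (f (Fin.last i))).filter (fun z => z ∈ Set.range f),
        (G.adjMatrix ℝ ^ j) z (f 0)
      ≤ ∑ z ∈ (univ.filter fun t => G.Adj (f (Fin.last i)) (f t)).image f,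
        (G.adjMatrix ℝ ^ j) z (f 0) := by
        refine sum_le_sum_of_subset_of_nonneg (fun z hz => ?_) fun _ _ _ => pow_nonneg' G _ _ _
        obtain ⟨h1, t, rfl⟩ := mem_filter.1 hz
        exact mem_image.2 ⟨t, mem_filter.2 ⟨mem_univ _, by simpa using h1⟩, rfl⟩
    _ ≤ _ := sum_image_le_of_nonneg fun _ _ => pow_nonneg' G _ _ _

lemma T_zero (i : ℕ) : ∑ t, T G i 0 t = cycG G i := by
  rw [sum_eq_single 0, cycG_eq]
  · unfold T
    simp only [pow_zero, Matrix.one_apply_eq]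
  · intro t _ ht
    unfold T
    refine sum_eq_zero fun f hf => ?_
    rw [pow_zero, Matrix.one_apply_ne (fun h => ht ((mem_filter.1 hf).2.1 h)), ite_self]
  · simp

variable {G}

lemma L_succ {D : ℝ} (hd : ∀ v, (G.degree v : ℝ) ≤ 2 * D) (i : ℕ) (t : Fin (i + 1)) :
    L G (i + 1) t.succ ≤ 2 * D * L G i t := by
  unfold L
  rw [sum_cons, mul_sum]
  refine sum_le_sum fun f _ => ?_
  simp only [← Fin.succ_last, Fin.cons_succ]
  exact sum_nb_le hd _ _ (filter_subset _ _) _ (by split_ifs <;> norm_num)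

lemma L_le {D : ℝ} (hD : 1 ≤ D) (hd : ∀ v, (G.degree v : ℝ) ≤ 2 * D) (B : ℕ)
    (hc : ∀ c, 2 ≤ c → c < B → (cycG G c : ℝ) ≤ 2 * D ^ (c + 1)) (i : ℕ) :
    i < B → ∀ t : Fin (i + 1), t.val + 2 ≤ i → L G i t ≤ 2 * (2 * D) ^ (i + 1) := by
  induction i with
  | zero => intro _ t ht; omega
  | succ i ih =>
    intro hi t
    refine Fin.cases ?_ (fun t => ?_) t
    · intro ht
      have : L G (i + 1) 0 = cycG G (i + 1) := (cycG_eq G _).symm
      rw [this]
      refine (hc _ (by simpa using ht) hi).trans ?_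
      gcongr
      linarith
    · intro ht
      refine (L_succ hd i t).trans ?_
      have h1 := ih (by omega) t (by simp at ht; omega)
      calc 2 * D * L G i t ≤ 2 * D * (2 * (2 * D) ^ (i + 1)) := by gcongr
        _ = _ := by ring

lemma T_le {D : ℝ} (hD : 1 ≤ D) (hd : ∀ v, (G.degree v : ℝ) ≤ 2 * D) (B : ℕ)
    (hc : ∀ c, 2 ≤ c → c < B → (cycG G c : ℝ) ≤ 2 * D ^ (c + 1)) (n i j : ℕ)
    (hn : i + j = n) (hi : i < B) (t : Fin (i + 1)) :
    T G i (j + 1) t ≤ 2 * D * (G.adjMatrix ℝ ^ n).trace + 2 * (2 * D) ^ (n + 1) := by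
  have htr : 0 ≤ (G.adjMatrix ℝ ^ n).trace := by rw [← U_zero]; exact U_nonneg G _ _
  have h1 : 0 ≤ 2 * D * (G.adjMatrix ℝ ^ n).trace := by positivity
  have h2 : 0 ≤ 2 * (2 * D) ^ (n + 1) := by positivity
  by_cases ha : t.val + 2 ≤ i
  · refine le_add_of_nonneg_of_le h1 ?_
    have h3 : T G i (j + 1) t ≤ (2 * D) ^ j * L G i t := by
      unfold T L
      rw [mul_sum]
      refine sum_le_sum fun f _ => ?_
      split_ifs
      · rw [mul_one]; exact pow_le hD hd j _ _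
      · simp
    refine h3.trans ?_
    calc (2 * D) ^ j * L G i t ≤ (2 * D) ^ j * (2 * (2 * D) ^ (i + 1)) := by
          gcongr; exact L_le hD hd B hc i hi t ha
      _ = _ := by rw [← hn]; ring
  · refine le_add_of_le_of_nonneg ?_ h2
    by_cases hb : t = Fin.last i
    · refine le_trans (le_of_eq ?_) h1
      unfold T
      refine sum_eq_zero fun f _ => ?_
      rw [hb, if_neg (G.irrefl)]
    · have hb' : t.val ≠ i := fun h => hb (Fin.ext h)
      have ht := t.isLt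
      obtain ⟨i, rfl⟩ : ∃ i', i = i' + 1 := ⟨i - 1, by omega⟩
      have ht' : t = (Fin.last i).castSucc := Fin.ext (by simp; omega)
      have h3 : T G (i + 1) (j + 1) t ≤ 2 * D * U G i (j + 1) := by
        unfold T U
        rw [sum_snoc, mul_sum]
        refine sum_le_sum fun f _ => ?_
        refine le_trans (sum_le_sum fun z _ => ?_)
          (sum_nb_le hd _ _ (filter_subset _ _) _ (pow_nonneg' G _ _ _))
        rw [ht', Fin.snoc_castSucc, Fin.snoc_apply_zero]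
        split_ifs
        · exact le_rfl
        · exact pow_nonneg' G _ _ _
      refine h3.trans ?_
      have h4 := U_le_trace G i (j + 1)
      rw [show i + (j + 1) = n by omega] at h4
      gcongr

lemma U_le {D : ℝ} (hD : 1 ≤ D) (hd : ∀ v, (G.degree v : ℝ) ≤ 2 * D) (B : ℕ)
    (hc : ∀ c, 2 ≤ c → c < B → (cycG G c : ℝ) ≤ 2 * D ^ (c + 1)) (n : ℕ) (hn : n < B) (j : ℕ) :
    ∀ i, i + j = n + 1 → U G i (j + 1) ≤ cycG G (n + 1) +
      j * ((n + 1) * (2 * D * (G.adjMatrix ℝ ^ n).trace + 2 * (2 * D) ^ (n + 1))) := by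
  have htr : 0 ≤ (G.adjMatrix ℝ ^ n).trace := by rw [← U_zero]; exact U_nonneg G _ _
  induction j with
  | zero =>
    intro i hi
    have := U_step G i 0
    rw [U_succ_zero, T_zero] at this
    rw [add_zero] at hi
    subst hi
    simpa using this
  | succ j ih =>
    intro i hi
    have h1 := U_step G i (j + 1)
    have h2 := ih (i + 1) (by omega)
    have h3 : ∑ t, T G i (j + 1) t ≤
        (n + 1) * (2 * D * (G.adjMatrix ℝ ^ n).trace + 2 * (2 * D) ^ (n + 1)) := by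
      refine (sum_le_sum fun t _ => T_le hD hd B hc n i j (by omega) (by omega) t).trans ?_
      rw [sum_const, card_univ, Fintype.card_fin, nsmul_eq_mul]
      have : ((i + 1 : ℕ) : ℝ) ≤ n + 1 := by exact_mod_cast (by omega : i + 1 ≤ n + 1)
      gcongr
    push_cast
    linarith

lemma trace_rec {D : ℝ} (hD : 1 ≤ D) (hd : ∀ v, (G.degree v : ℝ) ≤ 2 * D) (B : ℕ)
    (hc : ∀ c, 2 ≤ c → c < B → (cycG G c : ℝ) ≤ 2 * D ^ (c + 1)) (n : ℕ) (hn : n < B) :
    (G.adjMatrix ℝ ^ (n + 2)).trace ≤ cycG G (n + 1) +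
      (n + 1) * ((n + 1) * (2 * D * (G.adjMatrix ℝ ^ n).trace + 2 * (2 * D) ^ (n + 1))) := by
  have := U_le hD hd B hc n hn (n + 1) 0 (by omega)
  rw [U_zero] at this
  exact_mod_cast this

end Trace

open Trace in
theorem Trace.step (k : ℕ) (C : ℝ) (hC : 0 < C)
    (H : ∀ (W : Type) [Fintype W] [DecidableEq W] (G : SimpleGraph W) [DecidableRel G.Adj] (D : ℝ),
      1 ≤ D → (∀ v, (G.degree v : ℝ) ≤ 2 * D) →
      (∀ c, 2 ≤ c → c < 2 * k → (cycG G c : ℝ) ≤ 2 * D ^ (c + 1)) →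
      (G.adjMatrix ℝ ^ (2 * k)).trace ≤ C * (D ^ (2 * k) + Fintype.card W * D ^ k)) :
    ∃ C' : ℝ, 0 < C' ∧
    ∀ (W : Type) [Fintype W] [DecidableEq W] (G : SimpleGraph W) [DecidableRel G.Adj] (D : ℝ),
      1 ≤ D → (∀ v, (G.degree v : ℝ) ≤ 2 * D) →
      (∀ c, 2 ≤ c → c < 2 * (k + 1) → (cycG G c : ℝ) ≤ 2 * D ^ (c + 1)) →
      (G.adjMatrix ℝ ^ (2 * (k + 1))).trace ≤
        cycG G (2 * k + 1) + C' * (D ^ (2 * k + 1) + Fintype.card W * D ^ (k + 1)) := by
  refine ⟨((2 * k : ℕ) + 1) * (((2 * k : ℕ) + 1) * (2 * C + 2 * 2 ^ (2 * k + 1))),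
    by positivity, ?_⟩
  intro W _ _ G _ D hD hd hc
  have h1 := trace_rec hD hd _ hc (2 * k) (by omega)
  have h2 := H W G D hD hd fun c h h' => hc c h (by omega)
  rw [show 2 * (k + 1) = 2 * k + 2 by ring]
  refine h1.trans (add_le_add le_rfl ?_)
  rw [mul_assoc (((2 * k : ℕ) : ℝ) + 1), mul_assoc (((2 * k : ℕ) : ℝ) + 1)]
  gcongr
  have h3 : 0 ≤ (Fintype.card W : ℝ) * D ^ (k + 1) := by positivity
  have h4 : (0 : ℝ) ≤ 2 * 2 ^ (2 * k + 1) := by positivity
  have h5 : 2 * D * (G.adjMatrix ℝ ^ (2 * k)).trace ≤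
      2 * C * (D ^ (2 * k + 1) + Fintype.card W * D ^ (k + 1)) := by
    calc _ ≤ 2 * D * (C * (D ^ (2 * k) + Fintype.card W * D ^ k)) := by gcongr
      _ = _ := by ring
  have h6 : 2 * (2 * D) ^ (2 * k + 1) = 2 * 2 ^ (2 * k + 1) * D ^ (2 * k + 1) := by ring
  have h7 := mul_nonneg h4 h3
  rw [h6]
  nlinarith

open Trace in
theorem Trace.weak (k : ℕ) : ∃ C : ℝ, 0 < C ∧
    ∀ (W : Type) [Fintype W] [DecidableEq W] (G : SimpleGraph W) [DecidableRel G.Adj] (D : ℝ),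
      1 ≤ D → (∀ v, (G.degree v : ℝ) ≤ 2 * D) →
      (∀ c, 2 ≤ c → c < 2 * (k + 1) → (cycG G c : ℝ) ≤ 2 * D ^ (c + 1)) →
      (G.adjMatrix ℝ ^ (2 * (k + 1))).trace ≤
        C * (D ^ (2 * (k + 1)) + Fintype.card W * D ^ (k + 1)) := by
  induction k with
  | zero =>
    refine ⟨2, two_pos, ?_⟩
    intro W _ _ G _ D hD hd _
    have h1 : (G.adjMatrix ℝ ^ (1 + 1)).trace ≤ Fintype.card W * (2 * D) := by
      rw [Matrix.trace]
      refine (sum_le_sum fun x _ => pow_le hD hd 1 x x).trans ?_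
      rw [sum_const, card_univ, nsmul_eq_mul, pow_one]
    have h2 : 0 ≤ D ^ (2 * (0 + 1)) := by positivity
    simp only [zero_add, mul_one, pow_one] at h2 ⊢
    norm_num at h1
    nlinarith
  | succ k ih =>
    obtain ⟨C, hC, H⟩ := ih
    obtain ⟨C', hC', H'⟩ := Trace.step (k + 1) C hC H
    refine ⟨C' + 2, by positivity, ?_⟩
    intro W _ _ G _ D hD hd hc
    have h1 := H' W G D hD hd hc
    have h2 := hc (2 * (k + 1) + 1) (by omega) (by omega)
    have h3 : D ^ (2 * (k + 1) + 1) ≤ D ^ (2 * (k + 1 + 1)) := pow_le_pow_right₀ hD (by omega)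
    rw [show 2 * (k + 1) + 1 + 1 = 2 * (k + 1 + 1) by ring] at h2
    have h4 : 0 ≤ (Fintype.card W : ℝ) * D ^ (k + 1 + 1) := by positivity
    have h5 := mul_le_mul_of_nonneg_left h3 hC'.le
    nlinarith

theorem trace_le (K : ℕ) (hK : 2 ≤ K) : ∃ C : ℝ, 0 < C ∧
    ∀ (W : Type) [Fintype W] [DecidableEq W] (G : SimpleGraph W) [DecidableRel G.Adj] (D : ℝ),
      1 ≤ D → (∀ v, (G.degree v : ℝ) ≤ 2 * D) →
      (∀ c, 2 ≤ c → c < 2 * K → (cycG G c : ℝ) ≤ 2 * D ^ (c + 1)) →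
      (G.adjMatrix ℝ ^ (2 * K)).trace ≤
        cycG G (2 * K - 1) + C * (D ^ (2 * K - 1) + Fintype.card W * D ^ K) := by
  obtain ⟨k, rfl⟩ : ∃ k, K = k + 1 + 1 := ⟨K - 2, by omega⟩
  obtain ⟨C, hC, H⟩ := Trace.weak k
  obtain ⟨C', hC', H'⟩ := Trace.step (k + 1) C hC H
  refine ⟨C', hC', ?_⟩
  rw [show 2 * (k + 1 + 1) - 1 = 2 * (k + 1) + 1 by omega]
  exact H'

end Crest.Agent.R30
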