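import Crest.Agent.R30.Defs

/-! Decision trees with fresh randomness, and the coupling with a fixed random input. -/

set_option autoImplicit false

namespace Crest.Agent.R30.Tree

open Finset
open scoped BigOperators

/-- Boolean decision trees querying keys in `K` with values in `V`. -/
inductive DT (K V : Type) : Type
  | ret (b : Bool) : DT K V
  | ask (k : K) (f : V → DT K V) : DT K V

variable {K V : Type}

namespace DT

/-- the output on the input `ω` -/
def eval (ω : K → V) : DT K V → Bool
  | ret b => b
  | ask k f => eval ω (f (ω k))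

/-- negation -/
def neg : DT K V → DT K V
  | ret b => ret (!b)
  | ask k f => ask k fun v => neg (f v)

/-- short-circuit disjunction -/
def orE : DT K V → DT K V → DT K V
  | ret b, t' => if b then ret true else t'
  | ask k f, t' => ask k fun v => orE (f v) t'

variable [Fintype V]

/-- probability of the output `false` when every query gets a fresh answer -/
noncomputable def q : DT K V → ℝ
  | ret b => if b then 0 else 1
  | ask _ f => 𝔼 v, q (f v)

variable [DecidableEq K]

/-- expected number of queries of a key -/
noncomputable def m : DT K V → K → ℝ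
  | ret _, _ => 0
  | ask k f, k' => (if k = k' then 1 else 0) + 𝔼 v, m (f v) k'

/-- expected number of pairs of queries of the same key -/
noncomputable def pairs : DT K V → ℝ
  | ret _ => 0
  | ask k f => 𝔼 v, (pairs (f v) + m (f v) k)

omit [Fintype V] [DecidableEq K] in
lemma eval_neg (ω : K → V) (t : DT K V) : eval ω (neg t) = !eval ω t := by
  induction t with
  | ret b => rfl
  | ask k f ih => exact ih _

omit [Fintype V] [DecidableEq K] in
lemma eval_orE (ω : K → V) (t t' : DT K V) : eval ω (orE t t') = (eval ω t || eval ω t') := by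
  induction t with
  | ret b => cases b <;> rfl
  | ask k f ih => exact ih _

omit [DecidableEq K] in
lemma q_nonneg (t : DT K V) : 0 ≤ q t := by
  induction t with
  | ret b => cases b <;> simp [q]
  | ask k f ih => exact expect_nonneg fun v _ => ih v

omit [DecidableEq K] in
lemma q_le_one [Nonempty V] (t : DT K V) : q t ≤ 1 := by
  induction t with
  | ret b => cases b <;> simp [q]
  | ask k f ih => exact expect_le univ_nonempty fun v _ => ih v

lemma m_nonneg (t : DT K V) (k' : K) : 0 ≤ m t k' := by
  induction t with
  | ret b => simp [m]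
  | ask k f ih =>
    exact add_nonneg (by split_ifs <;> norm_num) (expect_nonneg fun v _ => ih v)

lemma pairs_nonneg (t : DT K V) : 0 ≤ pairs t := by
  induction t with
  | ret b => simp [pairs]
  | ask k f ih => exact expect_nonneg fun v _ => add_nonneg (ih v) (m_nonneg _ _)

omit [DecidableEq K] in
lemma q_neg [Nonempty V] (t : DT K V) : q (neg t) = 1 - q t := by
  induction t with
  | ret b => cases b <;> simp [q, neg]
  | ask k f ih => simp only [q, neg, ih, expect_sub_distrib, Fintype.expect_const]

lemma m_neg (t : DT K V) (k' : K) : m (neg t) k' = m t k' := by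
  induction t with
  | ret b => rfl
  | ask k f ih => simp only [m, neg, ih]

lemma pairs_neg (t : DT K V) : pairs (neg t) = pairs t := by
  induction t with
  | ret b => rfl
  | ask k f ih => simp only [pairs, neg, ih, m_neg]

omit [DecidableEq K] in
lemma q_orE (t t' : DT K V) : q (orE t t') = q t * q t' := by
  induction t with
  | ret b => cases b <;> simp [q, orE]
  | ask k f ih => simp only [q, orE, ih, expect_mul]

lemma m_orE (t t' : DT K V) (k' : K) : m (orE t t') k' = m t k' + q t * m t' k' := by
  induction t with
  | ret b => cases b <;> simp [q, m, orE]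
  | ask k f ih => simp only [q, m, orE, ih, expect_mul, expect_add_distrib, add_assoc]

lemma pairs_orE [Nonempty V] [Fintype K] (t t' : DT K V) :
    pairs (orE t t') ≤ pairs t + q t * pairs t' + ∑ k, m t k * m t' k := by
  induction t with
  | ret b => cases b <;> simp [q, m, pairs, orE]
  | ask k f ih =>
    have h1 : ∀ v, pairs (orE (f v) t') + m (orE (f v) t') k ≤
        (pairs (f v) + m (f v) k) + q (f v) * pairs t' + (m t' k + ∑ k', m (f v) k' * m t' k') := by
      intro v
      have := ih v
      have h2 : q (f v) * m t' k ≤ m t' k := mul_le_of_le_one_left (m_nonneg _ _) (q_le_one _)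
      rw [m_orE]; linarith
    refine (expect_le_expect fun v _ => h1 v).trans (le_of_eq ?_)
    simp only [q, m, pairs, expect_add_distrib, Fintype.expect_const, add_mul, sum_add_distrib,
      ite_mul, one_mul, zero_mul, sum_ite_eq, mem_univ, if_true, expect_sum_comm, expect_mul]

end DT

open DT

variable [Fintype K] [DecidableEq K] [Fintype V]

lemma expect_update [Nonempty V] (k : K) (F : (K → V) → ℝ) :
    𝔼 ω, F ω = 𝔼 v, 𝔼 ω, F (Function.update ω k v) := by
  classical
  have hinv : Function.Involutive
      (fun p : V × (K → V) => (p.2 k, Function.update p.2 k p.1)) := by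
    rintro ⟨v, ω⟩; simp
  have h1 : 𝔼 v, 𝔼 ω, F (Function.update ω k v) =
      𝔼 p : V × (K → V), F (Function.update p.2 k p.1) := by
    rw [← univ_product_univ, expect_product]
  have h2 : 𝔼 ω, F ω = 𝔼 p : V × (K → V), F p.2 := by
    rw [← univ_product_univ, expect_product]; simp
  rw [h1, h2]
  exact (Fintype.expect_bijective _ hinv.bijective _ _ fun p => rfl).symm

/-- the coupling lemma -/
lemma coupling_aux [Nonempty V] (t : DT K V) (S : Finset K) (σ : K → V) :
    |(𝔼 ω : K → V, if eval (S.piecewise σ ω) t = false then (1 : ℝ) else 0) - q t| ≤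
      pairs t + ∑ k ∈ S, m t k := by
  induction t generalizing S σ with
  | ret b => cases b <;> simp [eval, q, pairs, m]
  | ask k f ih =>
    by_cases hk : k ∈ S
    · have h1 : (1 : ℝ) ≤ ∑ k' ∈ S, m (ask k f) k' := by
        refine le_trans ?_ (single_le_sum (f := fun k' => m (ask k f) k')
          (fun _ _ => m_nonneg _ _) hk)
        simp only [m, if_true]
        exact le_add_of_nonneg_right (expect_nonneg fun v _ => m_nonneg _ _)
      have h2 : (𝔼 ω : K → V, if eval (S.piecewise σ ω) (ask k f) = false then (1 : ℝ) else 0)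
          ≤ 1 := expect_le univ_nonempty fun _ _ => by split_ifs <;> norm_num
      have h3 : 0 ≤
          (𝔼 ω : K → V, if eval (S.piecewise σ ω) (ask k f) = false then (1 : ℝ) else 0) :=
        expect_nonneg fun _ _ => by split_ifs <;> norm_num
      have h4 := q_nonneg (ask k f)
      have h5 := q_le_one (ask k f)
      have h6 := pairs_nonneg (ask k f)
      rw [abs_le]; constructor <;> linarith
    · have e : ∀ (v : V) (ω : K → V), S.piecewise σ (Function.update ω k v) =
          (insert k S).piecewise (Function.update σ k v) ω := by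
        intro v ω
        funext k'
        by_cases h : k' = k
        · subst h; simp [hk]
        · by_cases h' : k' ∈ S <;> simp [h, h', Finset.piecewise]
      have e2 : ∀ (v : V) (ω : K → V), eval (S.piecewise σ (Function.update ω k v)) (ask k f) =
          eval ((insert k S).piecewise (Function.update σ k v) ω) (f v) := by
        intro v ω
        rw [e, eval]; simp
      rw [expect_update k]
      simp only [e2]
      rw [q, ← expect_sub_distrib]
      refine (abs_expect_le _ _).trans ((expect_le_expect fun v _ => ih v _ _).trans ?_)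
      simp only [sum_insert hk, pairs, m, ← add_assoc, expect_add_distrib, expect_sum_comm]
      gcongr with k' hk'
      exact le_add_of_nonneg_left (by split_ifs <;> norm_num)

lemma coupling [Nonempty V] (t : DT K V) :
    |(𝔼 ω : K → V, if eval ω t = false then (1 : ℝ) else 0) - q t| ≤ pairs t := by
  simpa using coupling_aux t ∅ (fun _ => Classical.arbitrary V)

/-- query all the keys of `S`, then run a program depending only on the answers -/
lemma exists_askAll [Nonempty V] (S : Finset K) (F : (K → V) → DT K V)
    (hF : ∀ c c', (∀ k ∈ S, c k = c' k) → F c = F c') :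
    ∃ t : DT K V, (∀ ω, eval ω t = eval ω (F ω)) ∧ q t = 𝔼 c, q (F c) ∧
      (∀ k, m t k = (if k ∈ S then 1 else 0) + 𝔼 c, m (F c) k) ∧
      pairs t = 𝔼 c, (pairs (F c) + ∑ k ∈ S, m (F c) k) := by
  induction S using Finset.induction_on generalizing F with
  | empty =>
    have c₀ : K → V := fun _ => Classical.arbitrary V
    have h : ∀ c, F c = F c₀ := fun c => hF c c₀ (by simp)
    refine ⟨F c₀, fun ω => by rw [h ω], ?_, ?_, ?_⟩ <;> simp [h]
  | insert k S hk ih =>
    have h := fun v => ih (fun c => F (Function.update c k v)) (fun c c' hc => hF _ _ (by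
      intro k' hk'
      by_cases h : k' = k
      · subst h; simp
      · simp only [Function.update_of_ne h]
        exact hc k' ((mem_insert.mp hk').resolve_left h)))
    choose t h1 h2 h3 h4 using h
    refine ⟨ask k t, fun ω => ?_, ?_, fun k' => ?_, ?_⟩
    · rw [eval, h1]; simp
    · rw [q, expect_update k]; simp only [h2]
    · rw [m, expect_update k (fun c => m (F c) k')]
      simp only [h3, expect_add_distrib, Fintype.expect_const, mem_insert, ← add_assoc]
      congr 1
      by_cases h : k = k'
      · subst h; simp [hk]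
      · simp [h, Ne.symm h]
    · rw [pairs, expect_update k (fun c => pairs (F c) + ∑ k' ∈ insert k S, m (F c) k')]
      simp only [h3, h4, if_neg hk, zero_add, sum_insert hk, expect_add_distrib]
      ring

/-- run the programs of a family in the order given by `r`, until one of them says `true` -/
lemma exists_any [Nonempty V] {N : Type} [DecidableEq N] (C : Finset N) (r : N → ℕ)
    (P : N → DT K V) (b : N → K → ℝ) (hb : ∀ ν ∈ C, ∀ k, m (P ν) k ≤ b ν k) :
    ∃ t : DT K V, (∀ ω, eval ω t = true ↔ ∃ ν ∈ C, eval ω (P ν) = true) ∧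
      q t = ∏ ν ∈ C, q (P ν) ∧
      (∀ k, m t k ≤ ∑ ν ∈ C, (∏ ν' ∈ C.erase ν, if r ν' < r ν then q (P ν') else 1) * m (P ν) k) ∧
      (∀ k, m t k ≤ ∑ ν ∈ C, b ν k) ∧
      pairs t ≤ ∑ ν ∈ C, (∏ ν' ∈ C.erase ν, if r ν' < r ν then q (P ν') else 1) * pairs (P ν) +
        ∑ ν ∈ C, ∑ ν' ∈ C.erase ν, ∑ k, b ν k * b ν' k := by
  induction C using Finset.induction_on_min_value r with
  | empty => exact ⟨ret false, by simp [eval], by simp [q], by simp [m], by simp [m],
      by simp [pairs]⟩
  | insert a C ha hmin ih =>
    obtain ⟨t, h1, h2, h3, h4, h5⟩ := ih fun ν hν => hb ν (mem_insert_of_mem hν)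
    have hb0 : ∀ ν ∈ insert a C, ∀ k, 0 ≤ b ν k := fun ν hν k => (m_nonneg _ _).trans (hb ν hν k)
    have hw0 : ∀ (D : Finset N) ν, 0 ≤ ∏ ν' ∈ D, if r ν' < r ν then q (P ν') else 1 :=
      fun D ν => prod_nonneg fun _ _ => by split_ifs; exacts [q_nonneg _, zero_le_one]
    have key : ∀ X : N → ℝ, (∀ ν, 0 ≤ X ν) → X a + q (P a) *
        ∑ ν ∈ C, (∏ ν' ∈ C.erase ν, if r ν' < r ν then q (P ν') else 1) * X ν ≤
        ∑ ν ∈ insert a C,
          (∏ ν' ∈ (insert a C).erase ν, if r ν' < r ν then q (P ν') else 1) * X ν := by
      intro X hX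
      rw [sum_insert ha, erase_insert ha, mul_sum]
      refine add_le_add (le_of_eq ?_) (sum_le_sum fun ν hν => ?_)
      · rw [prod_eq_one, one_mul]
        intro ν hν
        rw [if_neg (not_lt.mpr (hmin ν hν))]
      · have hne : a ≠ ν := fun h => ha (h ▸ hν)
        rw [erase_insert_of_ne hne, prod_insert (fun h => ha (mem_of_mem_erase h)), ← mul_assoc]
        refine mul_le_mul_of_nonneg_right (mul_le_mul_of_nonneg_right ?_ (hw0 _ _)) (hX ν)
        split_ifs
        exacts [le_rfl, q_le_one _]
    refine ⟨orE (P a) t, fun ω => ?_, ?_, fun k => ?_, fun k => ?_, ?_⟩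
    · simp [eval_orE, h1]
    · rw [q_orE, prod_insert ha, h2]
    · rw [m_orE]
      refine le_trans ?_ (key (fun ν => m (P ν) k) fun ν => m_nonneg _ _)
      exact add_le_add le_rfl (mul_le_mul_of_nonneg_left (h3 k) (q_nonneg _))
    · rw [m_orE, sum_insert ha]
      exact add_le_add (hb a (mem_insert_self _ _) k)
        ((mul_le_of_le_one_left (m_nonneg _ _) (q_le_one _)).trans (h4 k))
    · refine (pairs_orE _ _).trans ?_
      have k1 := key (fun ν => pairs (P ν)) fun ν => pairs_nonneg _
      set Y := ∑ ν ∈ C, ∑ ν' ∈ C.erase ν, ∑ k, b ν k * b ν' k with hY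
      have hY0 : 0 ≤ Y := sum_nonneg fun ν hν => sum_nonneg fun ν' hν' => sum_nonneg fun k _ =>
        mul_nonneg (hb0 ν (mem_insert_of_mem hν) k)
          (hb0 ν' (mem_insert_of_mem (mem_of_mem_erase hν')) k)
      have k2 := mul_le_mul_of_nonneg_left h5 (q_nonneg (P a))
      have k3 : q (P a) * Y ≤ Y := mul_le_of_le_one_left hY0 (q_le_one _)
      have k4 : ∑ k, m (P a) k * m t k ≤ ∑ ν' ∈ C, ∑ k, b a k * b ν' k := by
        rw [sum_comm]
        refine sum_le_sum fun k _ => ?_
        rw [← mul_sum]
        exact mul_le_mul (hb a (mem_insert_self _ _) k) (h4 k) (m_nonneg _ _)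
          (hb0 a (mem_insert_self _ _) k)
      have k5 : ∑ ν' ∈ C, ∑ k, b a k * b ν' k + Y ≤
          ∑ ν ∈ insert a C, ∑ ν' ∈ (insert a C).erase ν, ∑ k, b ν k * b ν' k := by
        rw [sum_insert ha, erase_insert ha]
        refine add_le_add le_rfl (sum_le_sum fun ν hν => ?_)
        refine sum_le_sum_of_subset_of_nonneg (erase_subset_erase _ (subset_insert _ _)) ?_
        intro ν' hν' _
        exact sum_nonneg fun k _ => mul_nonneg (hb0 ν (mem_insert_of_mem hν) k)
          (hb0 ν' (mem_of_mem_erase hν') k)
      rw [mul_add] at k2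
      linarith

/-- independence of the coordinates -/
lemma expect_prod [Nonempty V] {N : Type} [DecidableEq N] (key : N → K) (C : Finset N)
    (hC : Set.InjOn key C) (φ : N → V → ℝ) :
    𝔼 c : K → V, ∏ ν ∈ C, φ ν (c (key ν)) = ∏ ν ∈ C, 𝔼 v, φ ν v := by
  induction C using Finset.induction_on with
  | empty => simp
  | insert a C ha ih =>
    have hne : ∀ ν ∈ C, key ν ≠ key a := fun ν hν h =>
      ha (hC (mem_insert_of_mem hν) (mem_insert_self _ _) h ▸ hν)
    rw [expect_update (key a), prod_insert ha, ← ih (hC.mono (by simp)), expect_mul]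
    refine expect_congr rfl fun v _ => ?_
    rw [mul_expect]
    refine expect_congr rfl fun c _ => ?_
    rw [prod_insert ha, Function.update_self]
    congr 1
    exact prod_congr rfl fun ν hν => by rw [Function.update_of_ne (hne ν hν)]

lemma expect_visit [Nonempty V] {N : Type} [DecidableEq N] (key : N → K) (C : Finset N)
    (hC : Set.InjOn key C) (a : N) (ha : a ∈ C) (φ : V → N → V → ℝ) (X : V → ℝ) :
    𝔼 c : K → V, (∏ ν ∈ C.erase a, φ (c (key a)) ν (c (key ν))) * X (c (key a)) =
      𝔼 v, (∏ ν ∈ C.erase a, 𝔼 v', φ v ν v') * X v := by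
  have hne : ∀ ν ∈ C.erase a, key ν ≠ key a := fun ν hν h =>
    (ne_of_mem_erase hν) (hC (mem_of_mem_erase hν) ha h)
  rw [expect_update (key a)]
  refine expect_congr rfl fun v _ => ?_
  rw [← expect_prod key (C.erase a) (hC.mono (by simp)), expect_mul]
  refine expect_congr rfl fun c _ => ?_
  rw [Function.update_self]
  congr 1
  exact prod_congr rfl fun ν hν => by rw [Function.update_of_ne (hne ν hν)]

end Crest.Agent.R30.Tree
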